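import Vale.Agent.P078.Cartan.Expected

/-!
Interface between the operator layer and the combinatorial core: orbit windows of a positive
contraction with finite propagation, seen through the Gelfand space of the MASA.
-/

namespace Vale.Agent.P078.Cartan

open scoped ComplexOrder

/-- A finitely generated action on a totally disconnected compact space together with the window
matrices of a positive contraction. For the MASA `A`: `Ω` is the character space, `T g` is
`Ad (u g)`, `μ` is the trace on `A`, `ent w w' ω = ω (E (u_w^* G u_w'))`, and `act w ω` is the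
character attached to the vector `u_w` over the base `ω`. -/
structure OrbitModel (Ω : Type) [TopologicalSpace Ω] (L : ℕ) (α : ℝ) where
  /-- The generators. -/
  T : Fin L → (Ω ≃ₜ Ω)
  /-- The position of the inverse of a generator. -/
  inv : Fin L → Fin L
  T_inv : ∀ g ω, T (inv g) (T g ω) = ω
  /-- The invariant positive normalised functional. -/
  μ : C(Ω, ℝ) →ₗ[ℝ] ℝ
  μ_nonneg : ∀ f : C(Ω, ℝ), 0 ≤ f → 0 ≤ μ f
  μ_one : μ 1 = 1
  μ_inv : ∀ g, ∀ f : C(Ω, ℝ), μ (f.comp (T g : C(Ω, Ω))) = μ f
  /-- Matrix entries between two labels over a base point. -/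
  ent : List (Fin L) → List (Fin L) → C(Ω, ℂ)
  /-- Coincidence of labels is locally constant. -/
  isOpen_eq : ∀ w w' : List (Fin L),
    IsOpen {ω | w.foldr (fun g v => T g v) ω = w'.foldr (fun g v => T g v) ω}
  /-- Two labellings of the same points give matrices conjugate by a diagonal unitary. -/
  gauge : ∀ (n : ℕ) (φ φ' : Fin n → List (Fin L)) (ω ω' : Ω),
    Function.Injective (fun i => (φ i).foldr (fun g v => T g v) ω) →
    (∀ i, (φ i).foldr (fun g v => T g v) ω = (φ' i).foldr (fun g v => T g v) ω') →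
    ∃ d : Fin n → ℂ, (∀ i, ‖d i‖ = 1) ∧
      ∀ i j, ent (φ' i) (φ' j) ω' = star (d i) * ent (φ i) (φ j) ω * d j
  posSemidef : ∀ (n : ℕ) (φ : Fin n → List (Fin L)) (ω : Ω),
    Function.Injective (fun i => (φ i).foldr (fun g v => T g v) ω) →
    (Matrix.of fun i j => ent (φ i) (φ j) ω).PosSemidef ∧
      (1 - Matrix.of fun i j => ent (φ i) (φ j) ω).PosSemidef
  diag_le : ∀ w ω, (ent w w ω).re ≤ α
  /-- Finite propagation. -/
  range_one : ∀ w w' ω,
    w.foldr (fun g v => T g v) ω ≠ w'.foldr (fun g v => T g v) ω →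
    (∀ g, T g (w.foldr (fun g v => T g v) ω) ≠ w'.foldr (fun g v => T g v) ω) →
    ent w w' ω = 0

namespace OrbitModel

variable {Ω : Type} [TopologicalSpace Ω] {L : ℕ} {α : ℝ} (O : OrbitModel Ω L α)

/-- The point named by a word. -/
def act (w : List (Fin L)) (ω : Ω) : Ω := w.foldr (fun g v => O.T g v) ω

open Classical in
/-- The points within `m` steps of `ω`. -/
noncomputable def ball (ω : Ω) : ℕ → Finset Ω
  | 0 => {ω}
  | m + 1 => ball ω m ∪ (ball ω m).biUnion fun v => Finset.univ.image fun g => O.T g v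

open Classical in
/-- A chosen name of a point seen from `ω`, the empty word for `ω` itself. -/
noncomputable def name (ω v : Ω) : List (Fin L) :=
  if v = ω then [] else if h : ∃ w, O.act w ω = v then h.choose else []

/-- The matrix of the pinched element on a window. -/
noncomputable def window {r : ℕ} (κ : Ω → Fin r) (ω : Ω) (m : ℕ) :
    Matrix (O.ball ω m) (O.ball ω m) ℂ :=
  pinch (Matrix.of fun v u : O.ball ω m => O.ent (O.name ω v) (O.name ω u) ω) fun v => κ v

theorem self_mem_ball (ω : Ω) (m : ℕ) : ω ∈ O.ball ω m := by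
  induction m with
  | zero => simp [ball]
  | succ m ih => simp [ball, ih]

open Classical in
/-- The diagonal value at `ω` of a polynomial in the pinched element, computed in a window. -/
noncomputable def polyDiag {r : ℕ} (κ : Ω → Fin r) (f : Polynomial ℝ) (ω : Ω) : ℝ :=
  (Polynomial.aeval (O.window κ ω f.natDegree) f
    ⟨ω, O.self_mem_ball ω _⟩ ⟨ω, O.self_mem_ball ω _⟩).re

end OrbitModel

/-- The core theorem, to be proved from `UniformRootBound`. -/
def CoreStatement : Prop :=
  ∀ (Ω : Type) [TopologicalSpace Ω] [CompactSpace Ω] [T2Space Ω] [TotallyDisconnectedSpace Ω]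
    (L r : ℕ) (α t δ : ℝ) (O : OrbitModel Ω L α), 0 < r → 0 ≤ α →
    (1 / Real.sqrt r + Real.sqrt α) ^ 2 < t → 0 < δ →
    ∃ f : Polynomial ℝ, (∀ x ∈ Set.Icc (0 : ℝ) 1, -δ ≤ f.eval x) ∧
      (∀ x ∈ Set.Icc t 1, 1 ≤ f.eval x) ∧
      ∃ κ : Ω → Fin r, IsLocallyConstant κ ∧
        ∃ D : C(Ω, ℝ), (∀ ω, D ω = O.polyDiag κ f ω) ∧ O.μ D ≤ δ

end Vale.Agent.P078.Cartan
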