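import Vale.Agent.P078.Cartan.OperatorGelfand
import Vale.Agent.P078.Cartan.Model

/-!
The orbit model of a finite sum in the Cartan inclusion, and the diagonal identity for polynomials
in pinchings.
-/

namespace Vale.Agent.P078.Cartan

open scoped InnerProductSpace ComplexOrder
open ContinuousLinearMap Polynomial

variable {H : Type} [NormedAddCommGroup H] [InnerProductSpace ℂ H] [CompleteSpace H]
variable {M : VonNeumannAlgebra H} {A : StarSubalgebra ℂ (H →L[ℂ] H)} {ι : Type} {η : ι → H}

theorem exists_sum_repr {x : H →L[ℂ] H} (hx : x ∈ spanN M A) :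
    ∃ (n : ℕ) (a u : Fin n → (H →L[ℂ] H)), (∀ i, a i ∈ A) ∧ (∀ i, IsNormaliser M A (u i)) ∧
      x = ∑ i, a i * u i := by
  induction hx using Submodule.span_induction with
  | mem y hy =>
    obtain ⟨a, ha, u, hu, rfl⟩ := hy
    exact ⟨1, fun _ => a, fun _ => u, fun _ => ha, fun _ => hu, by simp⟩
  | zero => exact ⟨0, Fin.elim0, Fin.elim0, fun i => i.elim0, fun i => i.elim0, by simp⟩
  | add y z _ _ hy hz =>
    obtain ⟨n, a, u, ha, hu, rfl⟩ := hy
    obtain ⟨m, b, v, hb, hv, rfl⟩ := hz
    refine ⟨n + m, Fin.addCases a b, Fin.addCases u v, fun i => ?_, fun i => ?_, ?_⟩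
    · induction i using Fin.addCases <;> simp [ha, hb]
    · induction i using Fin.addCases <;> simp [hu, hv]
    · simp [Fin.sum_univ_add]
  | smul c y _ hy =>
    obtain ⟨n, a, u, ha, hu, rfl⟩ := hy
    exact ⟨n, fun i => c • a i, u, fun i => SMulMemClass.smul_mem c (ha i), hu, by
      simp [Finset.smul_sum]⟩

/-- A symmetric list of normalisers with coefficients representing `G`. -/
structure Gens (M : VonNeumannAlgebra H) (A : StarSubalgebra ℂ (H →L[ℂ] H)) (G : H →L[ℂ] H) where
  /-- The number of generators. -/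
  L : ℕ
  /-- The normalisers. -/
  u : Fin L → (H →L[ℂ] H)
  /-- The coefficients. -/
  a : Fin L → (H →L[ℂ] H)
  /-- The position of the adjoint of a generator. -/
  inv : Fin L → Fin L
  hu : ∀ g, IsNormaliser M A (u g)
  ha : ∀ g, a g ∈ A
  hinv : ∀ g, u (inv g) = star (u g)
  hG : G = ∑ g, a g * u g

theorem exists_gens {G : H →L[ℂ] H} (hG : G ∈ spanN M A) : Nonempty (Gens M A G) := by
  obtain ⟨n, a, u, ha, hu, rfl⟩ := exists_sum_repr hG
  exact ⟨{
    L := n + n
    u := Fin.addCases u fun i => star (u i)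
    a := Fin.addCases a fun _ => 0
    inv := Fin.addCases (fun i => Fin.natAdd n i) fun i => Fin.castAdd n i
    hu := fun g => by
      induction g using Fin.addCases with
      | left i => rw [Fin.addCases_left]; exact hu i
      | right i => rw [Fin.addCases_right]; exact (hu i).star'
    ha := fun g => by
      induction g using Fin.addCases with
      | left i => rw [Fin.addCases_left]; exact ha i
      | right i => rw [Fin.addCases_right]; exact zero_mem A
    hinv := fun g => by
      induction g using Fin.addCases with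
      | left i => rw [Fin.addCases_left, Fin.addCases_right, Fin.addCases_left]
      | right i => rw [Fin.addCases_right, Fin.addCases_left, Fin.addCases_right, star_star]
    hG := by
      rw [Fin.sum_univ_add]
      simp only [Fin.addCases_left, Fin.addCases_right, zero_mul, Finset.sum_const_zero,
        add_zero] }⟩

variable {G : H →L[ℂ] H} (D : Gens M A G)

/-- The product along a word. -/
def Gens.word (w : List (Fin D.L)) : H →L[ℂ] H := w.foldr (fun g x => D.u g * x) 1

theorem Gens.word_normaliser (w : List (Fin D.L)) : IsNormaliser M A (D.word w) := by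
  induction w with
  | nil => exact IsNormaliser.one
  | cons g w ih => exact (D.hu g).mul ih

theorem Gens.word_mem (w : List (Fin D.L)) : D.word w ∈ M := (D.word_normaliser w).mem

include D in
theorem Gens.mem (hA : IsMasa M A) : G ∈ M := by
  conv => arg 2; rw [D.hG]
  exact sum_mem fun g _ => mul_mem (hA.le _ (D.ha g)) (D.hu g).mem

variable [AbelianClosed A]

/-- The action of a generator. -/
noncomputable def Gens.T (g : Fin D.L) : Spec A ≃ₜ Spec A := moveHomeo (D.hu g)

theorem Gens.act_eq (w : List (Fin D.L)) (ω : Spec A) :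
    w.foldr (fun g v => D.T g v) ω = move (D.word_normaliser w) ω := by
  induction w with
  | nil => exact (move_one ω).symm
  | cons g w ih =>
    rw [List.foldr_cons, ih]
    exact (move_mul ω (D.hu g) (D.word_normaliser w)).symm

/-- The inverse Gelfand transform on real functions. -/
noncomputable def ofReal' (f : C(Spec A, ℝ)) : H →L[ℂ] H :=
  ofFun ⟨fun ω => (f ω : ℂ), Complex.continuous_ofReal.comp f.continuous⟩

theorem ofReal'_mem (f : C(Spec A, ℝ)) : ofReal' f ∈ A := ofFun_mem _

theorem chi_ofReal' (ω : Spec A) (f : C(Spec A, ℝ)) : chi ω (ofReal' f) = f ω := chi_ofFun ω _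

theorem ofReal'_isSelfAdjoint (f : C(Spec A, ℝ)) : IsSelfAdjoint (ofReal' f) :=
  eq_of_chi_eq (star_mem (ofReal'_mem f)) (ofReal'_mem f) fun ω => by
    rw [chi_star ω (ofReal'_mem f), chi_ofReal', Complex.conj_ofReal]

/-- The trace on the functions. -/
noncomputable def muFun (h : IsTrace M η) : C(Spec A, ℝ) →ₗ[ℝ] ℝ where
  toFun f := (tau h (ofReal' f)).re
  map_add' f g := by
    have : ofReal' (f + g) = ofReal' f + ofReal' g :=
      eq_of_chi_eq (ofReal'_mem _) (add_mem (ofReal'_mem _) (ofReal'_mem _)) fun ω => by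
        rw [chi_add ω (ofReal'_mem _) (ofReal'_mem _), chi_ofReal', chi_ofReal', chi_ofReal']
        simp
    rw [this, tau, map_add, inner_add_right, Complex.add_re]
    rfl
  map_smul' c f := by
    have : ofReal' (c • f) = (c : ℂ) • ofReal' f :=
      eq_of_chi_eq (ofReal'_mem _) (SMulMemClass.smul_mem _ (ofReal'_mem _)) fun ω => by
        rw [chi_smul ω _ (ofReal'_mem _), chi_ofReal', chi_ofReal']
        simp
    rw [this, tau, map_smul, inner_smul_right, Complex.re_ofReal_mul]
    rfl

theorem muFun_nonneg (h : IsTrace M η) (f : C(Spec A, ℝ)) (hf : 0 ≤ f) :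
    0 ≤ muFun (A := A) h f := by
  obtain ⟨g, hg⟩ : ∃ g : C(Spec A, ℝ), g = ⟨fun ω => Real.sqrt (f ω),
    Real.continuous_sqrt.comp f.continuous⟩ := ⟨_, rfl⟩
  have e : ofReal' f = star (ofReal' g) * ofReal' g :=
    eq_of_chi_eq (ofReal'_mem _) (mul_mem (star_mem (ofReal'_mem _)) (ofReal'_mem _)) fun ω => by
      rw [chi_mul ω (star_mem (ofReal'_mem _)) (ofReal'_mem _), chi_star ω (ofReal'_mem _),
        chi_ofReal', chi_ofReal', Complex.conj_ofReal, hg]
      exact_mod_cast (Real.mul_self_sqrt (hf ω)).symm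
  show 0 ≤ (tau h (ofReal' f)).re
  rw [e, tau_star_mul, inner_self_eq_norm_sq_to_K]
  simp only [← Complex.ofReal_pow, Complex.ofReal_re, Complex.coe_algebraMap]
  positivity

theorem muFun_one (h : IsTrace M η) : muFun (A := A) h 1 = 1 := by
  have : ofReal' (1 : C(Spec A, ℝ)) = 1 :=
    eq_of_chi_eq (ofReal'_mem _) (one_mem A) fun ω => by rw [chi_ofReal', chi_one]; simp
  show (tau h (ofReal' 1)).re = 1
  rw [this, tau, inner_self_eq_norm_sq_to_K, norm_V_one]
  simp

theorem muFun_move (h : IsTrace M η) (hA : IsMasa M A) {u : H →L[ℂ] H} (hu : IsNormaliser M A u)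
    (f : C(Spec A, ℝ)) : muFun h (f.comp (moveHomeo hu : C(Spec A, Spec A))) = muFun h f := by
  have e : ofReal' (f.comp (moveHomeo hu : C(Spec A, Spec A))) = star u * ofReal' f * u :=
    eq_of_chi_eq (ofReal'_mem _) (hu.conj_mem _ (ofReal'_mem _)) fun ω => by
      rw [chi_ofReal', ← chi_move ω hu (ofReal'_mem _), chi_ofReal']
      rfl
  show (tau h (ofReal' _)).re = (tau h (ofReal' f)).re
  rw [e, tau_comm h (mul_mem (star_mem hu.mem) (hA.le _ (ofReal'_mem f))) hu.mem, ← mul_assoc,
    hu.mul_star, one_mul]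

/-- The matrix of a positive element over distinct points is positive. -/
theorem gram_posSemidef (hA : IsMasa M A) {P : H →L[ℂ] H} (hP : P ∈ M) (hP0 : 0 ≤ P) {n : ℕ}
    (U : Fin n → (H →L[ℂ] H)) (hU : ∀ i, U i ∈ M) (ω : Spec A) :
    (Matrix.of fun i j => ph ω (star (U i) * P * U j)).PosSemidef := by
  obtain ⟨R, hR⟩ : ∃ R, R = cfc Real.sqrt P := ⟨_, rfl⟩
  have hRM : R ∈ M := hR ▸ vn_cfc_mem hP _
  have hRs : IsSelfAdjoint R := hR ▸ cfc_predicate _ P
  have hRR : R * R = P := by
    rw [hR, ← cfc_mul _ _ P]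
    conv_rhs => rw [← cfc_id' ℝ P (IsSelfAdjoint.of_nonneg hP0)]
    exact cfc_congr fun t ht => Real.mul_self_sqrt (spectrum_nonneg_of_nonneg hP0 ht)
  have e : ∀ i j, star (U i) * P * U j = star (R * U i) * (R * U j) := fun i j => by
    rw [star_mul, hRs.star_eq, ← hRR]; simp only [mul_assoc]
  refine Matrix.PosSemidef.of_dotProduct_mulVec_nonneg ?_ fun c => ?_
  · refine Matrix.IsHermitian.ext fun i j => ?_
    simp only [Matrix.of_apply, RCLike.star_def]
    rw [← ph_star ω hA (mul_mem (mul_mem (star_mem (hU _)) hP) (hU _))]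
    simp [(IsSelfAdjoint.of_nonneg hP0).star_eq, mul_assoc]
  · obtain ⟨z, hz⟩ : ∃ z, z = ∑ j, c j • (R * U j) := ⟨_, rfl⟩
    have hm : ∀ j, c j • (R * U j) ∈ M := fun j => vn_smul_mem _ (mul_mem hRM (hU j))
    have := ph_nonneg ω hA (x := z) (hz ▸ sum_mem fun j _ => hm j)
    refine this.trans_eq ?_
    rw [hz, star_sum, Finset.sum_mul, ph_sum ω hA _ _
      fun i => mul_mem (star_mem (hm i)) (sum_mem fun j _ => hm j)]
    simp only [dotProduct, Matrix.mulVec, Matrix.of_apply, Pi.star_apply]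
    refine Finset.sum_congr rfl fun i _ => ?_
    rw [Finset.mul_sum, Finset.mul_sum, ph_sum ω hA _ _ fun j => mul_mem (star_mem (hm i)) (hm j)]
    refine Finset.sum_congr rfl fun j _ => ?_
    rw [star_smul, smul_mul_assoc, mul_smul_comm, smul_smul,
      ph_smul ω hA _ (mul_mem (star_mem (mul_mem hRM (hU i))) (mul_mem hRM (hU j))), ← e]
    ring

/-- The orbit model. -/
noncomputable def Gens.model (hA : IsMasa M A) (h : IsTrace M η) (hG0 : 0 ≤ G) (hG1 : G ≤ 1)
    {α : ℝ} (hα : ∀ ω : Spec A, (ph ω G).re ≤ α) : OrbitModel (Spec A) D.L α where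
  T := D.T
  inv := D.inv
  T_inv g ω := by
    show move (D.hu (D.inv g)) (move (D.hu g) ω) = ω
    rw [move_of_eq _ (D.hu (D.inv g)) (D.hu g).star' (D.hinv g), move_star_move]
  μ := muFun h
  μ_nonneg := muFun_nonneg h
  μ_one := muFun_one h
  μ_inv g f := muFun_move h hA (D.hu g) f
  ent w w' := ⟨fun ω => ph ω (star (D.word w) * G * D.word w'), continuous_chi _⟩
  isOpen_eq w w' := by
    have e : {ω : Spec A | w.foldr (fun g v => D.T g v) ω = w'.foldr (fun g v => D.T g v) ω}
        = {ω | move ((D.word_normaliser w).star'.mul (D.word_normaliser w')) ω = ω} := by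
      ext ω
      simp only [Set.mem_ofPred_eq, D.act_eq]
      rw [move_mul ω (D.word_normaliser w).star' (D.word_normaliser w')]
      constructor
      · intro e
        rw [← e]
        exact move_star_move ω _
      · intro e
        have := congrArg (move (D.word_normaliser w)) e
        rw [move_move_star] at this
        exact this.symm
    rw [e]
    exact isOpen_move_eq hA _
  gauge n φ φ' ω ω' _ heq := by
    simp only [D.act_eq] at heq
    rcases Nat.eq_zero_or_pos n with rfl | hn
    · exact ⟨fun i => i.elim0, fun i => i.elim0, fun i => i.elim0⟩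
    obtain ⟨i₀⟩ : Nonempty (Fin n) := ⟨⟨0, hn⟩⟩
    have hU := fun i => D.word_normaliser (φ i)
    have hU' := fun i => D.word_normaliser (φ' i)
    have hg : ∀ i, ∃ hn : IsNormaliser M A (star (D.word (φ i)) * D.word (φ' i)),
        move hn ω' = ω := fun i => ⟨(hU i).star'.mul (hU' i), by
      rw [move_mul ω' (hU i).star' (hU' i), ← heq i, move_star_move]⟩
    choose hgn hgω using hg
    obtain ⟨g, hgdef⟩ : ∃ g, g = star (D.word (φ i₀)) * D.word (φ' i₀) := ⟨_, rfl⟩
    have hgn0 : IsNormaliser M A g := hgdef ▸ hgn i₀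
    have hg0 : move hgn0 ω' = ω := by rw [move_of_eq _ hgn0 (hgn i₀) hgdef, hgω]
    obtain ⟨t, ht⟩ : ∃ t : Fin n → (H →L[ℂ] H),
        t = fun i => star g * (star (D.word (φ i)) * D.word (φ' i)) := ⟨_, rfl⟩
    have htn : ∀ i, IsNormaliser M A (t i) := fun i => by rw [ht]; exact hgn0.star'.mul (hgn i)
    have htω : ∀ i, move (htn i) ω' = ω' := fun i => by
      rw [move_of_eq ω' (htn i) (hgn0.star'.mul (hgn i)) (congrFun ht i), move_mul ω' hgn0.star' (hgn i), hgω i,
        ← hg0,
        move_star_move]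
    have hsplit : ∀ i, D.word (φ' i) = D.word (φ i) * g * t i := fun i => by
      rw [ht]
      simp only [mul_assoc]
      rw [← mul_assoc g (star g), hgn0.mul_star, one_mul, ← mul_assoc, (hU i).mul_star, one_mul]
    refine ⟨fun i => ph ω' (t i), fun i => (ph_fixed ω' hA (htn i) (htω i)).1, fun i j => ?_⟩
    have hY : star (D.word (φ i)) * G * D.word (φ j) ∈ M :=
      mul_mem (mul_mem (star_mem (D.word_mem _)) (D.mem hA)) (D.word_mem _)
    have hY' : star g * (star (D.word (φ i)) * G * D.word (φ j)) * g ∈ M :=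
      mul_mem (mul_mem (star_mem hgn0.mem) hY) hgn0.mem
    show ph ω' (star (D.word (φ' i)) * G * D.word (φ' j))
      = star (ph ω' (t i)) * ph ω (star (D.word (φ i)) * G * D.word (φ j)) * ph ω' (t j)
    rw [show star (D.word (φ' i)) * G * D.word (φ' j)
        = star (t i) * (star g * (star (D.word (φ i)) * G * D.word (φ j)) * g) * t j by
      rw [hsplit i, hsplit j]; simp only [star_mul, mul_assoc],
      (ph_fixed ω' hA (htn j) (htω j)).2.1 _ (mul_mem (star_mem (htn i).mem) hY'),
      (ph_fixed ω' hA (htn i) (htω i)).2.2 _ hY', ← ph_move ω' hA h hgn0 hY, hg0]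
    rfl
  posSemidef n φ ω hinj := by
    simp only [D.act_eq] at hinj
    have hU := fun i => D.word_normaliser (φ i)
    refine ⟨gram_posSemidef hA (D.mem hA) hG0 _ (fun i => (hU i).mem) ω, ?_⟩
    have h1 := gram_posSemidef hA (sub_mem (one_mem M) (D.mem hA)) (sub_nonneg.2 hG1) _
      (fun i => (hU i).mem) ω
    convert h1 using 1
    ext i j
    simp only [Matrix.sub_apply, Matrix.one_apply, Matrix.of_apply,
      mul_sub, sub_mul, mul_one]
    rw [ph_sub ω hA (mul_mem (star_mem (hU i).mem) (hU j).mem)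
      (mul_mem (mul_mem (star_mem (hU i).mem) (D.mem hA)) (hU j).mem)]
    congr 1
    by_cases hij : i = j
    · subst hij
      rw [if_pos rfl, (hU i).star_mul, ph_self ω hA (one_mem A), chi_one]
    · rw [if_neg hij]
      have := ph_moved ω hA (hU i) (hU j) (one_mem A) (fun e => hij (hinj e))
      rw [mul_one] at this
      exact this.symm
  diag_le w ω := by
    show (ph ω (star (D.word w) * G * D.word w)).re ≤ α
    rw [← ph_move ω hA h (D.word_normaliser w) (D.mem hA)]
    exact hα _
  range_one w w' ω hne hfar := by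
    simp only [D.act_eq] at hne hfar
    have hw := D.word_normaliser w
    have hw' := D.word_normaliser w'
    show ph ω (star (D.word w) * G * D.word w') = 0
    rw [show star (D.word w) * G * D.word w'
        = ∑ g, star (D.word w) * D.a g * (D.u g * D.word w') by
      refine (congrArg (fun z => star (D.word w) * z * D.word w') D.hG).trans ?_
      simp only [Finset.mul_sum, Finset.sum_mul, mul_assoc],
      ph_sum ω hA _ _ fun g => mul_mem (mul_mem (star_mem hw.mem) (hA.le _ (D.ha g)))
        (mul_mem (D.hu g).mem hw'.mem)]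
    refine Finset.sum_eq_zero fun g _ => ph_moved ω hA hw ((D.hu g).mul hw') (D.ha g) fun e => ?_
    refine hfar (D.inv g) ?_
    show move (D.hu (D.inv g)) (move hw ω) = move hw' ω
    rw [e, move_mul ω (D.hu g) hw', move_of_eq _ (D.hu (D.inv g)) (D.hu g).star' (D.hinv g),
      move_star_move]

theorem Gens.model_act (hA : IsMasa M A) (h : IsTrace M η) (hG0 : 0 ≤ G) (hG1 : G ≤ 1)
    {α : ℝ} (hα : ∀ ω : Spec A, (ph ω G).re ≤ α) (w : List (Fin D.L)) (ω : Spec A) :
    (D.model hA h hG0 hG1 hα).act w ω = move (D.word_normaliser w) ω :=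
  D.act_eq w ω

/-- Expansion at `ω` of an element moving `ω` into a finite set. -/
theorem Gens.insert_points (hA : IsMasa M A) (ω : Spec A) (T : Finset (Spec A))
    (nm : Spec A → List (Fin D.L)) (hnm : ∀ v ∈ T, move (D.word_normaliser (nm v)) ω = v)
    {Y Z : H →L[ℂ] H} (hY : Y ∈ M)
    (hZ : Z ∈ Submodule.span ℂ {z | ∃ b ∈ A, ∃ w : List (Fin D.L),
      move (D.word_normaliser w) ω ∈ T ∧ z = b * D.word w}) :
    ph ω (Y * Z) = ∑ v ∈ T, ph ω (Y * D.word (nm v)) * ph ω (star (D.word (nm v)) * Z) := by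
  classical
  have hmem : ∀ z ∈ Submodule.span ℂ {z | ∃ b ∈ A, ∃ w : List (Fin D.L),
      move (D.word_normaliser w) ω ∈ T ∧ z = b * D.word w}, z ∈ M := fun z hz => by
    induction hz using Submodule.span_induction with
    | mem z hz =>
      obtain ⟨b, hb, w, -, rfl⟩ := hz
      exact mul_mem (hA.le b hb) (D.word_mem w)
    | zero => exact zero_mem M
    | add y z _ _ hy hz => exact add_mem hy hz
    | smul c y _ hy => exact vn_smul_mem c hy
  induction hZ using Submodule.span_induction with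
  | mem z hz =>
    obtain ⟨b, hb, w, hw, rfl⟩ := hz
    obtain ⟨v₀, hv₀⟩ : ∃ v, v = move (D.word_normaliser w) ω := ⟨_, rfl⟩
    rw [← hv₀] at hw
    obtain ⟨U, hU⟩ : ∃ U, U = D.word (nm v₀) := ⟨_, rfl⟩
    have hUn : IsNormaliser M A U := hU ▸ D.word_normaliser _
    have hWn := D.word_normaliser w
    have hUω : move hUn ω = v₀ := by
      rw [move_of_eq ω hUn (D.word_normaliser _) hU, hnm v₀ hw]
    have htn : IsNormaliser M A (star U * D.word w) := hUn.star'.mul hWn
    have htω : move htn ω = ω := by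
      rw [move_mul ω hUn.star' hWn, ← hv₀, ← hUω, move_star_move]
    have hd : star U * (b * D.word w) = star U * b * U * (star U * D.word w) := by
      simp only [mul_assoc]; rw [← mul_assoc U (star U), hUn.mul_star, one_mul]
    rw [Finset.sum_eq_single v₀]
    · rw [← hU, hd, show Y * (b * D.word w) = Y * U * (star U * (b * D.word w)) by
          simp only [mul_assoc]; rw [← mul_assoc U (star U), hUn.mul_star, one_mul], hd,
        ← mul_assoc (Y * U), (ph_fixed ω hA htn htω).2.1 _
          (mul_mem (mul_mem hY hUn.mem) (hA.le _ (hUn.conj_mem b hb))),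
        (ph_fixed ω hA htn htω).2.1 _ (hA.le _ (hUn.conj_mem b hb)),
        ph_mul_right ω hA (hUn.conj_mem b hb) (mul_mem hY hUn.mem),
        ph_self ω hA (hUn.conj_mem b hb)]
      ring
    · intro v hv hne
      rw [← mul_assoc (star (D.word (nm v))), ph_moved ω hA (D.word_normaliser (nm v)) hWn hb ?_,
        mul_zero]
      rw [hnm v hv, ← hv₀]
      exact hne
    · exact fun hn => absurd hw hn
  | zero => simp [ph_zero]
  | add y z hys hzs hy hz =>
    rw [mul_add, ph_add ω hA (mul_mem hY (hmem y hys)) (mul_mem hY (hmem z hzs)), hy, hz,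
      ← Finset.sum_add_distrib]
    refine Finset.sum_congr rfl fun v _ => ?_
    rw [mul_add (star _), ph_add ω hA (mul_mem (star_mem (D.word_mem _)) (hmem y hys))
      (mul_mem (star_mem (D.word_mem _)) (hmem z hzs)), mul_add]
  | smul c y hys hy =>
    rw [mul_smul_comm, ph_smul ω hA c (mul_mem hY (hmem y hys)), hy, Finset.mul_sum]
    refine Finset.sum_congr rfl fun v _ => ?_
    rw [mul_smul_comm c, ph_smul ω hA c (mul_mem (star_mem (D.word_mem _)) (hmem y hys))]
    ring

/-- An entry of a pinching. -/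
theorem pinching_entry (hA : IsMasa M A) (hGM : G ∈ M) {r : ℕ} (κ : Spec A → Fin r)
    (p : Fin r → (H →L[ℂ] H)) (hpA : ∀ c, p c ∈ A)
    (hκ : ∀ (ω : Spec A) c, chi ω (p c) = if κ ω = c then 1 else 0) (ω : Spec A)
    {X Y : H →L[ℂ] H} (hXn : IsNormaliser M A X) (hYn : IsNormaliser M A Y) :
    ph ω (star X * pinching p G * Y)
      = if κ (move hXn ω) = κ (move hYn ω) then ph ω (star X * G * Y) else 0 := by
  have hpp : ∀ c, star X * (p c * G * p c) * Y
      = star X * p c * X * (star X * G * Y) * (star Y * p c * Y) := fun c => by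
    simp only [mul_assoc]
    rw [← mul_assoc X (star X), hXn.mul_star, one_mul, ← mul_assoc Y (star Y), hYn.mul_star,
      one_mul]
  have hXG : star X * G * Y ∈ M := mul_mem (mul_mem (star_mem hXn.mem) hGM) hYn.mem
  have hval : ∀ c, ph ω (star X * (p c * G * p c) * Y)
      = (if κ (move hXn ω) = c then 1 else 0) * ph ω (star X * G * Y)
        * (if κ (move hYn ω) = c then 1 else 0) := fun c => by
    rw [hpp c, ph_mul_right ω hA (hYn.conj_mem _ (hpA c))
        (mul_mem (hA.le _ (hXn.conj_mem _ (hpA c))) hXG),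
      ph_mul_left ω hA (hXn.conj_mem _ (hpA c)) hXG, ← chi_move ω hXn (hpA c),
      ← chi_move ω hYn (hpA c), hκ, hκ]
  rw [pinching, Finset.mul_sum, Finset.sum_mul,
    ph_sum ω hA _ _ fun c => mul_mem (mul_mem (star_mem hXn.mem)
      (mul_mem (mul_mem (hA.le _ (hpA c)) hGM) (hA.le _ (hpA c)))) hYn.mem]
  simp only [hval]
  rw [Finset.sum_eq_single (κ (move hXn ω)) (fun c _ hc => by rw [if_neg (Ne.symm hc)]; ring)
    (fun hc => absurd (Finset.mem_univ _) hc), if_pos rfl, one_mul]
  by_cases he : κ (move hYn ω) = κ (move hXn ω)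
  · rw [if_pos he, if_pos he.symm, mul_one]
  · rw [if_neg he, if_neg (Ne.symm he), mul_zero]

section Identity

/-- Classical decidability of equality of characters, as in the model. -/
noncomputable local instance (priority := high) decEqSpec : DecidableEq (Spec A) :=
  fun a b => Classical.propDecidable (a = b)

variable (hA : IsMasa M A) (h : IsTrace M η) (hG0 : 0 ≤ G) (hG1 : G ≤ 1) {α : ℝ}
  (hα : ∀ ω : Spec A, (ph ω G).re ≤ α)

theorem Gens.act_mem_ball (ω : Spec A) : ∀ (w : List (Fin D.L)) (m : ℕ), w.length ≤ m →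
    (D.model hA h hG0 hG1 hα).act w ω ∈ (D.model hA h hG0 hG1 hα).ball ω m := by
  intro w
  induction w with
  | nil => exact fun m _ => OrbitModel.self_mem_ball _ ω m
  | cons g w ih =>
    intro m hm
    obtain ⟨m, rfl⟩ : ∃ k, m = k + 1 := ⟨m - 1, by simp at hm; omega⟩
    refine Finset.mem_union_right _ (Finset.mem_biUnion.2 ⟨_, ih m (by simpa using hm), ?_⟩)
    exact Finset.mem_image.2 ⟨g, Finset.mem_univ _, rfl⟩

theorem Gens.exists_word_of_mem_ball (ω : Spec A) : ∀ (m : ℕ),
    ∀ v ∈ (D.model hA h hG0 hG1 hα).ball ω m, ∃ w, (D.model hA h hG0 hG1 hα).act w ω = v := by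
  intro m
  induction m with
  | zero => intro v hv; exact ⟨[], (Finset.mem_singleton.1 hv).symm⟩
  | succ m ih =>
    intro v hv
    rcases Finset.mem_union.1 hv with hv | hv
    · exact ih v hv
    · obtain ⟨u, hu, hv⟩ := Finset.mem_biUnion.1 hv
      obtain ⟨g, -, rfl⟩ := Finset.mem_image.1 hv
      obtain ⟨w, rfl⟩ := ih u hu
      exact ⟨g :: w, rfl⟩

theorem Gens.name_spec (ω : Spec A) {m : ℕ} {v : Spec A}
    (hv : v ∈ (D.model hA h hG0 hG1 hα).ball ω m) :
    move (D.word_normaliser ((D.model hA h hG0 hG1 hα).name ω v)) ω = v := by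
  rw [← D.act_eq]
  unfold OrbitModel.name
  split_ifs with h1 h2
  · exact h1.symm
  · exact h2.choose_spec
  · exact absurd (D.exists_word_of_mem_ball hA h hG0 hG1 hα ω m v hv) h2

/-- The sums of words of length at most `k`. -/
def Gens.reach (k : ℕ) : Submodule ℂ (H →L[ℂ] H) :=
  Submodule.span ℂ {z | ∃ b ∈ A, ∃ w : List (Fin D.L), w.length ≤ k ∧ z = b * D.word w}

omit [AbelianClosed A] in
theorem Gens.pinching_mul_reach {r : ℕ} {p : Fin r → (H →L[ℂ] H)} (hp : ∀ c, p c ∈ A) (k : ℕ)
    {z : H →L[ℂ] H} (hz : z ∈ D.reach k) : pinching p G * z ∈ D.reach (k + 1) := by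
  induction hz using Submodule.span_induction with
  | mem z hz =>
    obtain ⟨b, hb, w, hw, rfl⟩ := hz
    rw [pinching, Finset.sum_mul]
    refine Submodule.sum_mem _ fun c _ => ?_
    rw [show p c * G * p c * (b * D.word w)
        = ∑ g, p c * D.a g * (D.u g * (p c * b)) * D.word w by
      refine (congrArg (fun z => p c * z * p c * (b * D.word w)) D.hG).trans ?_
      simp only [Finset.mul_sum, Finset.sum_mul, mul_assoc]]
    refine Submodule.sum_mem _ fun g _ => Submodule.subset_span
      ⟨p c * D.a g * (D.u g * (p c * b) * star (D.u g)),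
        mul_mem (mul_mem (hp c) (D.ha g)) ((D.hu g).conj_mem' _ (mul_mem (hp c) hb)), g :: w,
        by simpa using hw, ?_⟩
    show _ = _ * (D.u g * D.word w)
    simp only [mul_assoc]
    rw [← mul_assoc (star (D.u g)), (D.hu g).star_mul, one_mul]
  | zero => simp
  | add y z _ _ hy hz => rw [mul_add]; exact add_mem hy hz
  | smul c y _ hy => rw [mul_smul_comm]; exact Submodule.smul_mem _ c hy

omit [AbelianClosed A] in
theorem Gens.pinching_pow_mem {r : ℕ} {p : Fin r → (H →L[ℂ] H)} (hp : ∀ c, p c ∈ A) (k : ℕ) :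
    pinching p G ^ k ∈ D.reach k := by
  induction k with
  | zero =>
    rw [pow_zero]
    exact Submodule.subset_span ⟨1, one_mem A, [], le_rfl, by simp [Gens.word]⟩
  | succ k ih =>
    rw [pow_succ']
    exact D.pinching_mul_reach hp k ih

variable {r : ℕ} (κ : Spec A → Fin r) (p : Fin r → (H →L[ℂ] H))

theorem Gens.window_pow (hpA : ∀ c, p c ∈ A)
    (hκ : ∀ (ω : Spec A) c, chi ω (p c) = if κ ω = c then 1 else 0) (ω : Spec A) (m : ℕ) :
    ∀ k, k ≤ m + 1 → ∀ v : (D.model hA h hG0 hG1 hα).ball ω m,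
      ((D.model hA h hG0 hG1 hα).window κ ω m ^ k) v ⟨ω, OrbitModel.self_mem_ball _ ω m⟩
      = ph ω (star (D.word ((D.model hA h hG0 hG1 hα).name ω v)) * pinching p G ^ k) := by
  have hname0 : (D.model hA h hG0 hG1 hα).name ω ω = [] := by simp [OrbitModel.name]
  have hGM := D.mem hA
  have hSM : pinching p G ∈ M :=
    sum_mem fun c _ => mul_mem (mul_mem (hA.le _ (hpA c)) hGM) (hA.le _ (hpA c))
  intro k
  induction k with
  | zero =>
    intro _ v
    have hv := D.name_spec hA h hG0 hG1 hα ω v.2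
    simp only [pow_zero, Matrix.one_apply, mul_one]
    by_cases he : v.1 = ω
    · rw [if_pos (Subtype.ext he), he, hname0, show D.word [] = 1 from rfl, star_one,
        ph_self ω hA (one_mem A), chi_one]
    · rw [if_neg fun e => he (congrArg Subtype.val e)]
      have := ph_moved ω hA (D.word_normaliser _) IsNormaliser.one (one_mem A)
        (u := D.word ((D.model hA h hG0 hG1 hα).name ω v)) (v := 1) (by rwa [hv, move_one])
      rw [mul_one, mul_one] at this
      exact this.symm
  | succ k ih =>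
    intro hk v
    have hv := D.name_spec hA h hG0 hG1 hα ω v.2
    have hZ : pinching p G ^ k ∈ Submodule.span ℂ {z | ∃ b ∈ A, ∃ w : List (Fin D.L),
        move (D.word_normaliser w) ω ∈ (D.model hA h hG0 hG1 hα).ball ω m
          ∧ z = b * D.word w} := by
      refine (Submodule.span_mono ?_) (D.pinching_pow_mem hpA k)
      rintro z ⟨b, hb, w, hw, rfl⟩
      refine ⟨b, hb, w, ?_, rfl⟩
      have hm := D.act_mem_ball hA h hG0 hG1 hα ω w m (by omega)
      rwa [D.model_act] at hm
    have e₁ : pinching p G ^ (k + 1) = pinching p G * pinching p G ^ k := pow_succ' _ k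
    have e₂ : (D.model hA h hG0 hG1 hα).window κ ω m ^ (k + 1)
        = (D.model hA h hG0 hG1 hα).window κ ω m * (D.model hA h hG0 hG1 hα).window κ ω m ^ k :=
      pow_succ' _ k
    simp only [e₁, e₂, Matrix.mul_apply]
    refine Eq.trans ?_ (congrArg (ph ω) (mul_assoc (star (D.word ((D.model hA h hG0 hG1 hα).name ω v)))
      (pinching p G) (pinching p G ^ k)))
    refine Eq.trans ?_ (D.insert_points hA ω ((D.model hA h hG0 hG1 hα).ball ω m)
      ((D.model hA h hG0 hG1 hα).name ω)
      (fun u hu => D.name_spec hA h hG0 hG1 hα ω (m := m) hu)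
      (mul_mem (star_mem (D.word_mem _)) hSM) hZ).symm
    refine Eq.trans ?_ (Finset.sum_coe_sort ((D.model hA h hG0 hG1 hα).ball ω m) _)
    refine Finset.sum_congr rfl fun u _ => ?_
    rw [ih (by omega) u]
    congr 1
    rw [pinching_entry hA (D.mem hA) κ p hpA hκ ω (D.word_normaliser _) (D.word_normaliser _),
      hv, D.name_spec hA h hG0 hG1 hα ω u.2]
    rfl

theorem Gens.polyDiag_eq (hpA : ∀ c, p c ∈ A)
    (hκ : ∀ (ω : Spec A) c, chi ω (p c) = if κ ω = c then 1 else 0) (f : ℝ[X]) (ω : Spec A) :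
    (D.model hA h hG0 hG1 hα).polyDiag κ f ω = (ph ω (aeval (pinching p G) f)).re := by
  have hSM : pinching p G ∈ M :=
    sum_mem fun c _ => mul_mem (mul_mem (hA.le _ (hpA c)) (D.mem hA)) (hA.le _ (hpA c))
  have hm : ∀ k : ℕ, f.coeff k • pinching p G ^ k ∈ M := fun k => by
    rw [← Complex.coe_smul]; exact vn_smul_mem _ (pow_mem hSM k)
  unfold OrbitModel.polyDiag
  simp only [aeval_eq_sum_range, Matrix.sum_apply]
  rw [ph_sum ω hA _ _ hm]
  congr 1
  refine Finset.sum_congr rfl fun k hk => ?_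
  rw [Finset.mem_range] at hk
  rw [Matrix.smul_apply, D.window_pow hA h hG0 hG1 hα κ p hpA hκ ω _ k (by omega) ⟨ω, _⟩,
    ← Complex.coe_smul (f.coeff k) (pinching p G ^ k), ph_smul ω hA _ (pow_mem hSM k),
    Complex.real_smul]
  simp [OrbitModel.name, Gens.word]

end Identity

/-- The partition of a locally constant colouring. -/
theorem exists_colouring_partition {r : ℕ} {κ : Spec A → Fin r} (hκ : IsLocallyConstant κ) :
    ∃ p : Fin r → (H →L[ℂ] H), IsPartition A p ∧
      ∀ (ω : Spec A) c, chi ω (p c) = if κ ω = c then 1 else 0 := by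
  classical
  obtain ⟨p, hp⟩ : ∃ p : Fin r → (H →L[ℂ] H), p = fun c => ofFun
      ⟨fun ω : Spec A => if κ ω = c then (1 : ℂ) else 0,
        (hκ.comp fun i => if i = c then (1 : ℂ) else 0).continuous⟩ := ⟨_, rfl⟩
  have hpA : ∀ c, p c ∈ A := fun c => by rw [hp]; exact ofFun_mem _
  have hκp : ∀ (ω : Spec A) c, chi ω (p c) = if κ ω = c then 1 else 0 := fun ω c => by
    rw [hp, chi_ofFun]; rfl
  refine ⟨p, ⟨hpA, fun c => ⟨?_, ?_⟩, fun i j hij => ?_, ?_⟩, hκp⟩
  · exact eq_of_chi_eq (mul_mem (hpA c) (hpA c)) (hpA c) fun ω => by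
      rw [chi_mul ω (hpA c) (hpA c), hκp]; split_ifs <;> simp
  · exact eq_of_chi_eq (star_mem (hpA c)) (hpA c) fun ω => by
      rw [chi_star ω (hpA c), hκp]; split_ifs <;> simp
  · refine eq_of_chi_eq (mul_mem (hpA i) (hpA j)) (zero_mem A) fun ω => ?_
    rw [chi_mul ω (hpA i) (hpA j), hκp, hκp, chi_zero]
    split_ifs with h1 h2
    · exact absurd (h1.symm.trans h2) hij
    all_goals simp
  · exact eq_of_chi_eq (sum_mem fun c _ => hpA c) (one_mem A) fun ω => by
      rw [chi_sum ω _ _ hpA, chi_one]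
      simp only [hκp, Finset.sum_ite_eq, Finset.mem_univ, if_true]

/-- The trace of a polynomial in a pinching, from the model. -/
theorem Gens.tau_poly_le (hA : IsMasa M A) (h : IsTrace M η) (hG0 : 0 ≤ G) (hG1 : G ≤ 1) {α : ℝ}
    (hα : ∀ ω : Spec A, (ph ω G).re ≤ α) {r : ℕ} {κ : Spec A → Fin r}
    {p : Fin r → (H →L[ℂ] H)} (hp : IsPartition A p)
    (hκp : ∀ (ω : Spec A) c, chi ω (p c) = if κ ω = c then 1 else 0) (f : ℝ[X])
    (d : C(Spec A, ℝ)) (hd : ∀ ω, d ω = (D.model hA h hG0 hG1 hα).polyDiag κ f ω) {δ : ℝ}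
    (hμ : (D.model hA h hG0 hG1 hα).μ d ≤ δ) :
    (tau h (aeval (pinching p G) f)).re ≤ δ := by
  have hSM : pinching p G ∈ M :=
    sum_mem fun c _ => mul_mem (mul_mem (hA.le _ (hp.mem c)) (D.mem hA)) (hA.le _ (hp.mem c))
  have hSsa : IsSelfAdjoint (pinching p G) := by
    rw [IsSelfAdjoint, pinching, star_sum]
    simp only [star_mul, (hp.proj _).isSelfAdjoint.star_eq,
      (IsSelfAdjoint.of_nonneg hG0).star_eq, mul_assoc]
  have hX : aeval (pinching p G) f ∈ M := by
    rw [← cfc_polynomial f _ hSsa]; exact vn_cfc_mem hSM _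
  have hXsa : IsSelfAdjoint (aeval (pinching p G) f) := by
    rw [← cfc_polynomial f _ hSsa]; exact cfc_predicate _ _
  have e : ofReal' d = expect A (aeval (pinching p G) f) := by
    refine eq_of_chi_eq (ofReal'_mem d) (expect_mem hA hX) fun ω => ?_
    rw [chi_ofReal', hd, D.polyDiag_eq hA h hG0 hG1 hα κ p hp.mem hκp]
    exact Complex.conj_eq_iff_re.1 (by rw [← ph_star ω hA hX, hXsa.star_eq])
  have hμ' : (tau h (ofReal' d)).re ≤ δ := hμ
  rwa [e, tau_expect hA h hX] at hμ'

/-- The core statement applied to a finite sum: a partition with small polynomial trace. -/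
theorem exists_partition_poly (core : CoreStatement) (hA : IsMasa M A) (h : IsTrace M η)
    (hG : G ∈ spanN M A) (hG0 : 0 ≤ G) (hG1 : G ≤ 1) {r : ℕ} (hr : 0 < r) {α t δ : ℝ}
    (hα0 : 0 ≤ α) (hα : ∀ ω : Spec A, (ph ω G).re ≤ α)
    (ht : (1 / Real.sqrt r + Real.sqrt α) ^ 2 < t) (hδ : 0 < δ) :
    ∃ f : ℝ[X], (∀ x ∈ Set.Icc (0 : ℝ) 1, -δ ≤ f.eval x) ∧ (∀ x ∈ Set.Icc t 1, 1 ≤ f.eval x) ∧
      ∃ p : Fin r → (H →L[ℂ] H), IsPartition A p ∧
        (tau h (aeval (pinching p G) f)).re ≤ δ := by
  obtain ⟨D⟩ := exists_gens hG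
  have := spec_totallyDisconnected hA
  obtain ⟨f, hf0, hf1, κ, hκ, d, hd, hμ⟩ :=
    core (Spec A) D.L r α t δ (D.model hA h hG0 hG1 hα) hr hα0 ht hδ
  obtain ⟨p, hp, hκp⟩ := exists_colouring_partition hκ
  exact ⟨f, hf0, hf1, p, hp, D.tau_poly_le hA h hG0 hG1 hα hp hκp f d hd hμ⟩

end Vale.Agent.P078.Cartan
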