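import Vale.Agent.P078.Cartan.Profile

/-!
Set functions on a finite window: the potential and the diagonal value, with bounded support,
additivity across gaps, and the trace identity for deterministic colours.
-/

namespace Vale.Agent.P078.Cartan

open Matrix Polynomial Function
open scoped ComplexOrder

set_option linter.unusedSectionVars false

variable {ι κ : Type*} [Fintype ι] [DecidableEq ι] [Fintype κ] [DecidableEq κ] {r : ℕ}

/-- A point decomposition without cross entries. -/
theorem potential_split (G : Matrix ι ι ℂ) {w : ι → Fin r → ℝ} (hw : IsLaw w) (p : ι → Prop)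
    [DecidablePred p] (h : ∀ a b, p a → ¬p b → G a b = 0 ∧ G b a = 0) (f : ℝ[X]) :
    potential G w f =
      potential (G.submatrix (fun a : {a // p a} => (a : ι)) fun a : {a // p a} => (a : ι))
          (fun a : {a // p a} => w a) f +
      potential (G.submatrix (fun a : {a // ¬p a} => (a : ι)) fun a : {a // ¬p a} => (a : ι))
          (fun a : {a // ¬p a} => w a) f := by
  let e := Equiv.sumCompl p
  rw [← potential_fromBlocks _ _ (fun a => hw _) (fun a => hw _)]
  refine potential_congr ?_ f
  rw [← echar_reindex G w e]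
  congr 1
  · ext (a | a) (b | b)
    · simp [e]
    · simpa [e] using (h _ _ a.2 b.2).1
    · simpa [e] using (h _ _ b.2 a.2).2
    · simp [e]
  · ext (a | a) <;> rfl

theorem potential_mask_union (G : Matrix ι ι ℂ) {w : ι → Fin r → ℝ} (hw : IsLaw w)
    {A B : Finset ι} (hd : Disjoint A B) (h : ∀ a ∈ A, ∀ b ∈ B, G a b = 0 ∧ G b a = 0)
    {f : ℝ[X]} (hf : f.eval 0 = 0) :
    potential (mask G (A ∪ B)) w f = potential (mask G A) w f + potential (mask G B) w f := by
  have key := fun (U : Finset ι) (hU : ∀ a b, a ∈ A → b ∉ A →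
      (mask G U) a b = 0 ∧ (mask G U) b a = 0) =>
    potential_split (mask G U) hw (fun a => a ∈ A) hU f
  have hAB : ∀ {x}, x ∈ B → x ∉ A := fun hx hx' => Finset.disjoint_left.1 hd hx' hx
  rw [key (A ∪ B), key A, key B]
  · have z : ∀ {μ : Type _} {_ : Fintype μ} {_ : DecidableEq μ} (v : μ → Fin r → ℝ), IsLaw v →
        potential (0 : Matrix μ μ ℂ) v f = 0 := fun v hv => by
      rw [potential, roots, echar_zero hv, roots_pow, roots_X]
      simp [Multiset.map_nsmul, Multiset.sum_nsmul, hf]
    have e1 : (mask G B).submatrix (fun a : {a // a ∈ A} => (a : ι))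
        (fun a : {a // a ∈ A} => (a : ι)) = 0 := by
      ext a b
      simp only [mask, submatrix_apply, Matrix.of_apply, Matrix.zero_apply]
      rw [if_neg fun hh => hAB hh.1 a.2]
    have e2 : (mask G A).submatrix (fun a : {a // a ∉ A} => (a : ι))
        (fun a : {a // a ∉ A} => (a : ι)) = 0 := by
      ext a b; simp [mask, a.2]
    have e3 : (mask G (A ∪ B)).submatrix (fun a : {a // a ∈ A} => (a : ι))
        (fun a : {a // a ∈ A} => (a : ι)) = (mask G A).submatrix (fun a : {a // a ∈ A} => (a : ι))
        fun a : {a // a ∈ A} => (a : ι) := by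
      ext a b; simp [mask, a.2, b.2]
    have e4 : (mask G (A ∪ B)).submatrix (fun a : {a // a ∉ A} => (a : ι))
        (fun a : {a // a ∉ A} => (a : ι)) = (mask G B).submatrix (fun a : {a // a ∉ A} => (a : ι))
        fun a : {a // a ∉ A} => (a : ι) := by
      ext a b; simp [mask, a.2, b.2]
    rw [e1, e2, e3, e4, z _ (fun a => hw _), z _ (fun a => hw _)]
    ring
  all_goals intro a b ha hb
  all_goals simp only [mask, Matrix.of_apply, Finset.mem_union]
  all_goals constructor <;> split_ifs with hh
  all_goals first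
    | rfl
    | exact (h a ha b (hh.2.resolve_left hb)).1
    | exact (h a ha b (hh.1.resolve_left hb)).2
    | exact absurd ha (hAB hh.1)
    | exact absurd ha (hAB hh.2)
    | exact absurd hh.2 hb
    | exact absurd hh.1 hb

/-- The value at `(v, v)` of `f` of a matrix. -/
noncomputable def diagVal (P : Matrix ι ι ℂ) (f : ℝ[X]) (v : ι) : ℝ :=
  (Polynomial.aeval P f v v).re

theorem diagVal_eq_sum (P : Matrix ι ι ℂ) {f : ℝ[X]} (hf : f.eval 0 = 0) (v : ι) :
    diagVal P f v = (∑ k ∈ Finset.Icc 1 f.natDegree, (f.coeff k : ℂ) * (P ^ k) v v).re := by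
  have h0 : f.coeff 0 = 0 := by rw [coeff_zero_eq_eval_zero, hf]
  rw [diagVal, aeval_eq_sum_range, Matrix.sum_apply, Finset.range_eq_Ico,
    Finset.sum_eq_sum_Ico_succ_bot (Nat.succ_pos _), h0, zero_smul, Matrix.zero_apply, zero_add]
  exact congrArg Complex.re (Finset.sum_congr (by ext; simp [Finset.mem_Ico, Finset.mem_Icc])
    fun k _ => by simp [Matrix.smul_apply, Complex.real_smul])

theorem pow_mask_apply (P : Matrix ι ι ℂ) (k : ℕ) (a b : ι) :
    (fun U : Finset ι => ((mask P U) ^ k) a b * (if b ∈ U then 1 else 0)) ∈ Loc (k + 1) := by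
  induction k generalizing b with
  | zero =>
    by_cases h : a = b
    · subst h
      convert Loc.indicator_mem (T₀ := ({a} : Finset ι)) (m := 0 + 1) (by simp) using 1
      ext U
      simp
    · convert Submodule.zero_mem (Loc (0 + 1) : Submodule ℂ (Finset ι → ℂ)) using 1
      ext U
      simp [Matrix.one_apply_ne h]
  | succ k ih =>
    have e : (fun U : Finset ι => ((mask P U) ^ (k + 1)) a b * (if b ∈ U then 1 else 0)) =
        ∑ c, ((fun U : Finset ι => ((mask P U) ^ k) a c * (if c ∈ U then 1 else 0)) *
          fun U => P c b * (if b ∈ U then 1 else 0)) := by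
      ext U
      rw [pow_succ, Matrix.mul_apply, Finset.sum_mul, Finset.sum_apply]
      refine Finset.sum_congr rfl fun c _ => ?_
      simp only [Pi.mul_apply, mask, Matrix.of_apply]
      by_cases hc : c ∈ U <;> by_cases hb : b ∈ U <;> simp [hc, hb]
    rw [e]
    refine Submodule.sum_mem _ fun c _ => Loc.mul_mem (a := k + 1) (b := 1) le_rfl (ih c) ?_
    convert Submodule.smul_mem (Loc 1) (P c b)
      (Loc.indicator_mem (T₀ := ({b} : Finset ι)) (m := 1) (by simp)) using 1
    ext U
    simp

theorem diagVal_mob_eq_zero (P : Matrix ι ι ℂ) {f : ℝ[X]} (hf : f.eval 0 = 0) (v : ι)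
    {S : Finset ι} (hS : f.natDegree + 1 < S.card) :
    mob (fun U => diagVal (mask P U) f v) S = 0 := by
  simp only [diagVal_eq_sum _ hf]
  refine Loc.mob_eq_zero ?_ hS
  refine (locGraded ι).sum _ fun k hk => (locGraded ι).const_mul _ ?_
  have hk' := Finset.mem_Icc.1 hk
  show (fun U : Finset ι => (mask P U ^ k) v v) ∈ Loc (f.natDegree + 1)
  refine Loc.mono (Nat.succ_le_succ hk'.2) ?_
  convert pow_mask_apply P k v v using 1
  ext U
  by_cases hv : v ∈ U
  · simp [hv]
  · obtain ⟨j, rfl⟩ : ∃ j, k = j + 1 := ⟨k - 1, by omega⟩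
    simp [hv, pow_succ, Matrix.mul_apply, mask]

theorem diagVal_mask_union (P : Matrix ι ι ℂ) {A B : Finset ι} (hd : Disjoint A B)
    (h : ∀ a ∈ A, ∀ b ∈ B, P a b = 0 ∧ P b a = 0) {f : ℝ[X]} (hf : f.eval 0 = 0) (v : ι) :
    diagVal (mask P (A ∪ B)) f v = diagVal (mask P A) f v + diagVal (mask P B) f v := by
  set M := mask P A
  set N := mask P B
  have hs : mask P (A ∪ B) = M + N := by
    ext a b
    simp only [M, N, mask, Matrix.of_apply, Matrix.add_apply, Finset.mem_union]
    by_cases ha : a ∈ A <;> by_cases ha' : a ∈ B <;> by_cases hb : b ∈ A <;>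
      by_cases hb' : b ∈ B <;> simp [ha, ha', hb, hb'] <;>
      first
        | exact absurd ha' (Finset.disjoint_left.1 hd ha)
        | exact absurd hb' (Finset.disjoint_left.1 hd hb)
        | exact (h a ha b hb').1
        | exact (h b hb a ha').2
  have hMN : M * N = 0 := by
    ext a b
    rw [Matrix.mul_apply, Matrix.zero_apply]
    refine Finset.sum_eq_zero fun c _ => ?_
    by_cases hc : c ∈ A
    · simp [N, mask, Finset.disjoint_left.1 hd hc]
    · simp [M, mask, hc]
  have hNM : N * M = 0 := by
    ext a b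
    rw [Matrix.mul_apply, Matrix.zero_apply]
    refine Finset.sum_eq_zero fun c _ => ?_
    by_cases hc : c ∈ A
    · simp [N, mask, Finset.disjoint_left.1 hd hc]
    · simp [M, mask, hc]
  have hp : ∀ k, 1 ≤ k → (M + N) ^ k = M ^ k + N ^ k := by
    intro k hk
    induction k, hk using Nat.le_induction with
    | base => simp
    | succ k hk ih =>
      obtain ⟨j, rfl⟩ : ∃ j, k = j + 1 := ⟨k - 1, by omega⟩
      have h1 : M ^ (j + 1) * N = 0 := by rw [pow_succ, mul_assoc, hMN, mul_zero]
      have h2 : N ^ (j + 1) * M = 0 := by rw [pow_succ, mul_assoc, hNM, mul_zero]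
      rw [pow_succ, ih, add_mul, mul_add, mul_add, h1, h2, ← pow_succ, ← pow_succ, add_zero,
        zero_add]
  simp only [diagVal_eq_sum _ hf, hs, ← Complex.add_re, ← Finset.sum_add_distrib]
  congr 1
  exact Finset.sum_congr rfl fun k hk => by
    rw [hp k (Finset.mem_Icc.1 hk).1, Matrix.add_apply, mul_add]

theorem pow_mask_image (P : Matrix ι ι ℂ) (e : κ ↪ ι) (k : ℕ) (a b : κ) :
    ((mask P (Finset.univ.map e)) ^ k) (e a) (e b) = ((P.submatrix e e) ^ k) a b := by
  induction k generalizing b with
  | zero =>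
    rcases eq_or_ne a b with rfl | h
    · simp
    · simp [Matrix.one_apply_ne h, Matrix.one_apply_ne (e.injective.ne h)]
  | succ k ih =>
    rw [pow_succ, pow_succ, Matrix.mul_apply, Matrix.mul_apply]
    rw [← Finset.sum_subset (Finset.subset_univ (Finset.univ.map e)), Finset.sum_map]
    · refine Finset.sum_congr rfl fun c _ => ?_
      rw [ih]
      simp [mask]
    · intro c _ hc
      simp only [mask, Matrix.of_apply]
      rw [if_neg fun hh => hc hh.1, mul_zero]

theorem diagVal_mask_image (P : Matrix ι ι ℂ) (e : κ ↪ ι) {f : ℝ[X]} (hf : f.eval 0 = 0)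
    (a : κ) : diagVal (mask P (Finset.univ.map e)) f (e a) = diagVal (P.submatrix e e) f a := by
  simp only [diagVal_eq_sum _ hf, pow_mask_image]

theorem diagVal_conj (P : Matrix ι ι ℂ) (d : ι → ℂ) (hd : ∀ i, ‖d i‖ = 1) (f : ℝ[X]) (v : ι) :
    diagVal (Matrix.of fun i j => star (d i) * P i j * d j) f v = diagVal P f v := by
  have hdd : ∀ i, star (d i) * d i = 1 := fun i => by
    rw [RCLike.star_def, ← Complex.normSq_eq_conj_mul_self, Complex.normSq_eq_norm_sq, hd]
    norm_num
  have hp : ∀ k i j, ((Matrix.of fun i j => star (d i) * P i j * d j) ^ k) i j =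
      star (d i) * (P ^ k) i j * d j := by
    intro k
    induction k with
    | zero =>
      intro i j
      rcases eq_or_ne i j with rfl | h
      · rw [pow_zero, pow_zero, Matrix.one_apply_eq, mul_one, hdd]
      · simp [Matrix.one_apply_ne h]
    | succ k ih =>
      intro i j
      rw [pow_succ, pow_succ, Matrix.mul_apply, Matrix.mul_apply, Finset.mul_sum, Finset.sum_mul]
      refine Finset.sum_congr rfl fun c _ => ?_
      rw [ih]
      simp only [Matrix.of_apply]
      linear_combination (star (d i) * (P ^ k) i c * P c j * d j) * hdd c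
  have e : ∀ k, ((Matrix.of fun i j => star (d i) * P i j * d j) ^ k) v v = (P ^ k) v v := by
    intro k
    rw [hp]
    linear_combination ((P ^ k) v v) * hdd v
  rw [diagVal, diagVal, aeval_eq_sum_range, aeval_eq_sum_range, Matrix.sum_apply, Matrix.sum_apply]
  simp only [Matrix.smul_apply, e]

/-- For deterministic colours the potential is a trace. -/
theorem potential_dirac {G : Matrix ι ι ℂ} (hG : G.IsHermitian) (s : ι → Fin r) {f : ℝ[X]}
    (hf : f.eval 0 = 0) :
    potential G (fun i => dirac (s i)) f = ∑ v, diagVal (pinch G s) f v := by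
  have hw : IsLaw fun i => dirac (s i) := fun i =>
    ⟨fun c => by simp only [dirac]; split_ifs <;> simp, by simp [dirac]⟩
  have hwt : ∀ t, weight (fun i => dirac (s i)) t = if t = s then 1 else 0 := by
    intro t
    split_ifs with h
    · subst h; simp [weight, dirac]
    · obtain ⟨i, hi⟩ := Function.ne_iff.1 h
      exact Finset.prod_eq_zero (Finset.mem_univ i) (by simp [dirac, hi])
  have hP := isHermitian_pinch hG s
  have he : (echar G fun i => dirac (s i)) = (pinch G s).charpoly := by
    simp [echar, hwt, apply_ite C]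
  have htr : ∀ k, pows (echar G fun i => dirac (s i)).roots k = ((pinch G s) ^ k).trace := by
    intro k
    rw [he, pows, hP.roots_charpoly_eq_eigenvalues, Multiset.map_map]
    conv_rhs => rw [hP.spectral_theorem, ← map_pow, Unitary.conjStarAlgAut_apply,
      Matrix.trace_mul_cycle, Unitary.coe_star_mul_self, one_mul, Matrix.diagonal_pow,
      Matrix.trace_diagonal]
    rfl
  rw [potential_eq_pows hG hw hf]
  simp only [diagVal_eq_sum _ hf, ← Complex.re_sum, htr]
  rw [Finset.sum_comm]
  simp only [Matrix.trace, Matrix.diag, Finset.mul_sum]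

/-- Continuity of the diagonal value. -/
theorem continuous_diagVal {Y : Type*} [TopologicalSpace Y] {P : Y → Matrix ι ι ℂ}
    (hc : Continuous P) {f : ℝ[X]} (hf : f.eval 0 = 0) (v : ι) :
    Continuous fun y => diagVal (P y) f v := by
  simp only [diagVal_eq_sum _ hf]
  exact Complex.continuous_re.comp (continuous_finsetSum _ fun k _ =>
    continuous_const.mul ((hc.pow k).matrix_elem v v))

end Vale.Agent.P078.Cartan
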