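import Vale.Agent.P078.Cartan.Pick

/-!
The barrier argument for real stable polynomials in several variables: the operators
`1 - d/dz_j` and the monotone convex potentials.
-/

namespace Vale.Agent.P078.Cartan

open MvPolynomial Filter Topology
open scoped ComplexConjugate

variable {ι : Type*}

/-- A real point as a complex point. -/
def ofR (u : ι → ℝ) : ι → ℂ := fun k => (u k : ℂ)

variable [DecidableEq ι]

theorem ofR_update (u : ι → ℝ) (j : ι) (t : ℝ) :
    ofR (Function.update u j t) = Function.update (ofR u) j (t : ℂ) := by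
  funext k
  simp only [ofR, Function.update_apply]
  split <;> rfl

/-- The restriction to a line parallel to an axis. -/
noncomputable def slice (f : MvPolynomial ι ℂ) (z : ι → ℂ) (j : ι) : Polynomial ℂ :=
  aeval (Function.update (fun k => Polynomial.C (z k)) j Polynomial.X) f

theorem eval_slice (f : MvPolynomial ι ℂ) (z : ι → ℂ) (j : ι) (t : ℂ) :
    (slice f z j).eval t = eval (Function.update z j t) f := by
  induction f using MvPolynomial.induction_on with
  | C a => simp [slice]
  | add p q hp hq => simp only [slice, map_add, Polynomial.eval_add] at hp hq ⊢; rw [hp, hq]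
  | mul_X p k hp =>
    simp only [slice, map_mul, Polynomial.eval_mul, aeval_X, eval_X] at hp ⊢
    rw [hp]
    rcases eq_or_ne k j with rfl | hk
    · simp
    · simp [Function.update_of_ne hk]

theorem derivative_slice (f : MvPolynomial ι ℂ) (z : ι → ℂ) (j : ι) :
    Polynomial.derivative (slice f z j) = slice (pderiv j f) z j := by
  induction f using MvPolynomial.induction_on with
  | C a => simp [slice]
  | add p q hp hq => simp only [slice, map_add] at hp hq ⊢; rw [hp, hq]
  | mul_X p k hp =>
    simp only [slice, map_mul, aeval_X, Polynomial.derivative_mul, pderiv_mul, map_add] at hp ⊢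
    rw [hp]
    rcases eq_or_ne k j with rfl | hk
    · simp
    · simp [Function.update_of_ne hk, pderiv_X_of_ne hk]

omit [DecidableEq ι] in
theorem pderiv_comm' (f : MvPolynomial ι ℂ) (i j : ι) :
    pderiv i (pderiv j f) = pderiv j (pderiv i f) := by
  induction f using MvPolynomial.induction_on with
  | C a => simp
  | add p q hp hq => simp only [map_add, hp, hq]
  | mul_X p k hp =>
    have hX : ∀ a b : ι, pderiv a (pderiv b (X k : MvPolynomial ι ℂ)) = 0 := fun a b => by
      rcases eq_or_ne k b with rfl | h
      · rw [pderiv_X_self, pderiv_one]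
      · rw [pderiv_X_of_ne h, map_zero]
    simp only [pderiv_mul, map_add, hp, hX, mul_zero, add_zero]
    ring

theorem continuous_eval_update (f : MvPolynomial ι ℂ) (u : ι → ℝ) (j : ι) (t : ℂ) :
    Continuous fun e : ℝ =>
      eval (Function.update (fun k => (u k : ℂ) + (e : ℂ) * Complex.I) j t) f :=
  (MvPolynomial.continuous_eval f).comp
    ((continuous_pi fun k => by fun_prop).update j continuous_const)

/-- Real stable and positive on the orthant above `z₀`. -/
structure Nice (f : MvPolynomial ι ℂ) (z₀ : ι → ℝ) : Prop where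
  real : ∀ u : ι → ℝ, (eval (ofR u) f).im = 0
  stable : ∀ z : ι → ℂ, (∀ k, 0 < (z k).im) → eval z f ≠ 0
  pos : ∀ u : ι → ℝ, z₀ ≤ u → 0 < (eval (ofR u) f).re

/-- The barrier function. -/
noncomputable def phi (f : MvPolynomial ι ℂ) (i : ι) (u : ι → ℝ) : ℝ :=
  (eval (ofR u) (pderiv i f)).re / (eval (ofR u) f).re

theorem realPoly_slice {f : MvPolynomial ι ℂ} (hf : ∀ u : ι → ℝ, (eval (ofR u) f).im = 0)
    (u : ι → ℝ) (j : ι) : RealPoly (slice f (ofR u) j) :=
  realPoly_of_eval_im fun t => by rw [eval_slice, ← ofR_update]; exact hf _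

theorem pderiv_real {f : MvPolynomial ι ℂ} (hf : ∀ u : ι → ℝ, (eval (ofR u) f).im = 0)
    (j : ι) (u : ι → ℝ) : (eval (ofR u) (pderiv j f)).im = 0 := by
  have hr := realPoly_slice hf u j
  have hd : RealPoly (Polynomial.derivative (slice f (ofR u) j)) := by
    have := congrArg Polynomial.derivative hr
    rwa [Polynomial.derivative_map] at this
  have := hd.eval_im (u j)
  rwa [derivative_slice, eval_slice, ← ofR_update, Function.update_eq_self] at this

theorem norm_eval_le {p : Polynomial ℂ} (hr : ∀ w : ℂ, 0 < w.im → p.eval w ≠ 0) {x y y' : ℝ}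
    (h0 : 0 ≤ y') (hy : y' ≤ y) :
    ‖p.eval ((x : ℂ) + (y' : ℂ) * Complex.I)‖ ≤ ‖p.eval ((x : ℂ) + (y : ℂ) * Complex.I)‖ := by
  rw [(IsAlgClosed.splits p).eval_eq_prod_roots, (IsAlgClosed.splits p).eval_eq_prod_roots,
    norm_mul, norm_mul]
  refine mul_le_mul_of_nonneg_left ?_ (norm_nonneg _)
  have key : ∀ s : Multiset ℂ, (∀ r ∈ s, r.im ≤ 0) →
      ‖(s.map fun r => ((x : ℂ) + (y' : ℂ) * Complex.I) - r).prod‖
        ≤ ‖(s.map fun r => ((x : ℂ) + (y : ℂ) * Complex.I) - r).prod‖ := by
    intro s hs
    induction s using Multiset.induction with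
    | empty => simp
    | cons r s ih =>
      simp only [Multiset.map_cons, Multiset.prod_cons, norm_mul]
      refine mul_le_mul ?_ (ih fun r' hr' => hs r' (Multiset.mem_cons_of_mem hr')) (norm_nonneg _)
        (norm_nonneg _)
      have hr0 := hs r (Multiset.mem_cons_self r s)
      rw [Complex.norm_eq_sqrt_sq_add_sq, Complex.norm_eq_sqrt_sq_add_sq]
      refine Real.sqrt_le_sqrt ?_
      simp
      nlinarith
  refine key _ fun r hr' => ?_
  by_contra hpos
  push Not at hpos
  exact hr r hpos (Polynomial.isRoot_of_mem_roots hr')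

theorem sum_inv_im {s : Multiset ℂ} (hs : ∀ r ∈ s, r.im ≤ 0) {x : ℂ} (hx : 0 < x.im) :
    (s.map fun r => 1 / (x - r)).sum.im ≤ 0 ∧
      ((s.map fun r => 1 / (x - r)).sum.im = 0 → (s.map fun r => 1 / (x - r)).sum = 0) := by
  induction s using Multiset.induction with
  | empty => simp
  | cons r s ih =>
    have hr := hs r (Multiset.mem_cons_self r s)
    have hneg : (1 / (x - r)).im < 0 := by
      rw [one_div, Complex.inv_im]
      refine div_neg_of_neg_of_pos (by simp; linarith) (Complex.normSq_pos.2 ?_)
      intro h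
      have := congrArg Complex.im h
      simp at this
      linarith
    obtain ⟨h1, -⟩ := ih fun r' hr' => hs r' (Multiset.mem_cons_of_mem hr')
    simp only [Multiset.map_cons, Multiset.sum_cons, Complex.add_im]
    exact ⟨by linarith, fun h => by linarith⟩

theorem stable_ratio {f : MvPolynomial ι ℂ}
    (hf : ∀ z : ι → ℂ, (∀ k, 0 < (z k).im) → eval z f ≠ 0) (i : ι) (z : ι → ℂ)
    (hz : ∀ k, 0 < (z k).im) :
    (eval z (pderiv i f) / eval z f).im ≤ 0 ∧ eval z (pderiv i f) ≠ eval z f := by
  have hup : ∀ w : ℂ, 0 < w.im → (slice f z i).eval w ≠ 0 := fun w hw => by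
    rw [eval_slice]
    refine hf _ fun k => ?_
    rcases eq_or_ne k i with rfl | hk
    · simpa using hw
    · rw [Function.update_of_ne hk]; exact hz k
  have h := (IsAlgClosed.splits (slice f z i)).eval_derivative_div_eval_of_ne_zero
    (hup (z i) (hz i))
  rw [derivative_slice, eval_slice, eval_slice, Function.update_eq_self] at h
  have hroots : ∀ r ∈ (slice f z i).roots, r.im ≤ 0 := fun r hr => by
    by_contra hpos
    push Not at hpos
    exact hup r hpos (Polynomial.isRoot_of_mem_roots hr)
  obtain ⟨h1, h2⟩ := sum_inv_im hroots (hz i)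
  refine ⟨h ▸ h1, fun he => ?_⟩
  rw [he, div_self (hf z hz)] at h
  have := h2 (by rw [← h]; simp)
  rw [← h] at this
  exact one_ne_zero this

namespace Nice

variable {f : MvPolynomial ι ℂ} {z₀ : ι → ℝ}

omit [DecidableEq ι] in
theorem ne_zero (h : Nice f z₀) {u : ι → ℝ} (hu : z₀ ≤ u) : eval (ofR u) f ≠ 0 := fun he => by
  simpa [he] using h.pos u hu

theorem mixed (h : Nice f z₀) {u : ι → ℝ} (hu : z₀ ≤ u) (j : ι) {t : ℂ} (ht : 0 < t.im) :
    eval (Function.update (ofR u) j t) f ≠ 0 := by
  intro hzero
  have hE : ∀ w : ℂ, Tendsto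
      (fun e : ℝ => eval (Function.update (fun k => (u k : ℂ) + (e : ℂ) * Complex.I) j w) f)
      (𝓝[>] (0 : ℝ)) (𝓝 (eval (Function.update (ofR u) j w) f)) := fun w => by
    have := ((continuous_eval_update f u j w).tendsto 0).mono_left
      (nhdsWithin_le_nhds (s := Set.Ioi (0 : ℝ)))
    unfold ofR
    simpa using this
  have hline : ∀ y' ∈ Set.Ioc (0 : ℝ) t.im,
      (slice f (ofR u) j).eval ((t.re : ℂ) + (y' : ℂ) * Complex.I) = 0 := by
    intro y' hy'
    rw [eval_slice]
    have hle := le_of_tendsto_of_tendsto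
      (hE ((t.re : ℂ) + (y' : ℂ) * Complex.I)).norm (hE t).norm (by
      filter_upwards [self_mem_nhdsWithin] with e (he : 0 < e)
      have hup : ∀ w : ℂ, 0 < w.im →
          (slice f (fun k => (u k : ℂ) + (e : ℂ) * Complex.I) j).eval w ≠ 0 := fun w hw => by
        rw [eval_slice]
        refine h.stable _ fun k => ?_
        rcases eq_or_ne k j with rfl | hk
        · simpa using hw
        · simp [Function.update_of_ne hk, he]
      have := norm_eval_le hup (x := t.re) hy'.1.le hy'.2
      rwa [eval_slice, eval_slice, Complex.re_add_im] at this)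
    rw [hzero, norm_zero] at hle
    exact norm_le_zero_iff.1 hle
  have h0 : slice f (ofR u) j = 0 := by
    refine Polynomial.eq_zero_of_infinite_isRoot _ (Set.Infinite.mono ?_
      ((Set.Ioc_infinite ht).image (f := fun y : ℝ => (t.re : ℂ) + (y : ℂ) * Complex.I) ?_))
    · rintro _ ⟨y, hy, rfl⟩
      exact hline y hy
    · intro a _ b _ hab
      simpa using hab
  apply h.ne_zero hu
  have := eval_slice f (ofR u) j (u j : ℂ)
  rwa [h0, Polynomial.eval_zero, ← ofR_update, Function.update_eq_self, eq_comm] at this

theorem good (h : Nice f z₀) {u : ι → ℝ} (hu : z₀ ≤ u) (i j : ι) :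
    Good (fun t => phi f i (Function.update u j t)) (Set.Ici (z₀ j)) := by
  have hmem : ∀ t : ℝ, z₀ j ≤ t → z₀ ≤ Function.update u j t := fun t ht =>
    le_update_iff.2 ⟨ht, fun k _ => hu k⟩
  have hG := quot_good (p := slice f (ofR u) j) (q := slice (pderiv i f) (ofR u) j)
    (realPoly_slice h.real u j) (realPoly_slice (pderiv_real h.real i) u j) (a := z₀ j)
    (fun w hw => by rw [eval_slice]; exact h.mixed hu j hw)
    (fun w hw => by
      rw [eval_slice, eval_slice]
      have hT : Tendsto (fun e : ℝ =>
          (eval (Function.update (fun k => (u k : ℂ) + (e : ℂ) * Complex.I) j w) (pderiv i f) /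
            eval (Function.update (fun k => (u k : ℂ) + (e : ℂ) * Complex.I) j w) f).im)
          (𝓝[>] (0 : ℝ)) (𝓝 ((eval (Function.update (ofR u) j w) (pderiv i f) /
            eval (Function.update (ofR u) j w) f).im)) := by
        have h1 := (continuous_eval_update (pderiv i f) u j w).tendsto 0
        have h2 := (continuous_eval_update f u j w).tendsto 0
        simp only [Complex.ofReal_zero, zero_mul, add_zero] at h1 h2
        exact ((Complex.continuous_im.tendsto _).comp
          (h1.div h2 (h.mixed hu j hw))).mono_left nhdsWithin_le_nhds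
      refine le_of_tendsto hT ?_
      filter_upwards [self_mem_nhdsWithin] with e (he : 0 < e)
      refine (stable_ratio h.stable i _ fun k => ?_).1
      rcases eq_or_ne k j with rfl | hk
      · simpa using hw
      · simp [Function.update_of_ne hk, he])
    (fun t ht => by rw [eval_slice, ← ofR_update]; exact h.ne_zero (hmem t ht))
  convert hG using 2 with t
  rw [eval_slice, eval_slice, ← ofR_update, Complex.div_re, h.real,
    pderiv_real h.real i, mul_zero, zero_div, add_zero, phi, Complex.normSq_apply, h.real,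
    mul_zero, add_zero, mul_div_mul_comm]
  rcases eq_or_ne (eval (ofR (Function.update u j t)) f).re 0 with h0 | h0 <;> simp [h0]

theorem antitone [Fintype ι] (h : Nice f z₀) {u w : ι → ℝ} (hu : z₀ ≤ u) (huw : u ≤ w)
    (i : ι) : phi f i w ≤ phi f i u := by
  have key : ∀ s : Finset ι, phi f i (s.piecewise w u) ≤ phi f i u := by
    intro s
    induction s using Finset.induction with
    | empty => simp
    | insert j s hj ih =>
      refine le_trans ?_ ih
      have hv : z₀ ≤ s.piecewise w u := Finset.le_piecewise_of_le_of_le _ (hu.trans huw) hu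
      have hvj : s.piecewise w u j = u j := Finset.piecewise_eq_of_notMem _ _ _ hj
      have := (h.good hv i j).antitone (s := u j) (t := w j) (hu j)
        ((hu j).trans (huw j)) (huw j)
      rw [Finset.piecewise_insert]
      rwa [← hvj, Function.update_eq_self] at this
  simpa using key Finset.univ

/-- One step of the barrier argument. -/
theorem step [Fintype ι] (h : Nice f z₀) {j : ι} {φ δ : ℝ} (hφ : φ < 1) (hδ : 1 ≤ (1 - φ) * δ)
    (hb : ∀ k, phi f k z₀ ≤ φ) :
    Nice (f - pderiv j f) (Function.update z₀ j (z₀ j + δ)) ∧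
      ∀ k, phi (f - pderiv j f) k (Function.update z₀ j (z₀ j + δ)) ≤ φ := by
  set w := Function.update z₀ j (z₀ j + δ) with hw
  have hδ0 : 0 ≤ δ := by nlinarith
  have hzw : z₀ ≤ w := le_update_self_iff.2 (by linarith)
  have hre : ∀ u, eval (ofR u) (f - pderiv j f)
      = eval (ofR u) f - eval (ofR u) (pderiv j f) := fun u => by simp
  have hN : Nice (f - pderiv j f) w := by
    refine ⟨fun u => by simp [h.real u, pderiv_real h.real j u], fun z hz => ?_, fun u hu => ?_⟩
    · rw [map_sub, sub_ne_zero]
      exact ((stable_ratio h.stable j z hz).2).symm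
    · rw [hre, Complex.sub_re]
      have hB := (h.antitone le_rfl (hzw.trans hu) j).trans (hb j)
      have hpos := h.pos u (hzw.trans hu)
      rw [phi, div_le_iff₀ hpos] at hB
      nlinarith
  refine ⟨hN, fun k => ?_⟩
  obtain ⟨d, hd, hder, htan⟩ := h.good hzw k j (z₀ j + δ)
    (show z₀ j ≤ z₀ j + δ by linarith)
  have htan' := htan (z₀ j) (show z₀ j ≤ z₀ j from le_rfl)
  simp only [hw, Function.update_idem, Function.update_eq_self] at htan'
  rw [← hw] at htan'
  have hval : ∀ g : MvPolynomial ι ℂ, HasDerivAt
      (fun t : ℝ => (eval (ofR (Function.update w j t)) g).re)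
      (eval (ofR w) (pderiv j g)).re (z₀ j + δ) := by
    intro g
    have := ((slice g (ofR w) j).hasDerivAt ((z₀ j + δ : ℝ) : ℂ)).real_of_complex
    simp only [derivative_slice, eval_slice, ← ofR_update] at this
    rwa [show Function.update w j (z₀ j + δ) = w by rw [hw, Function.update_idem]] at this
  have hwj : Function.update w j (z₀ j + δ) = w := by rw [hw, Function.update_idem]
  have hpos := h.pos w hzw
  have hquot := (hval (pderiv k f)).fun_div (hval f) (by rw [hwj]; exact hpos.ne')
  rw [hwj] at hquot
  have hd' : d = _ := hder.unique hquot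
  have hB := (h.antitone le_rfl hzw j).trans (hb j)
  have hposN := hN.pos w le_rfl
  rw [hre, Complex.sub_re] at hposN
  have hbk := hb k
  simp only [phi] at hbk hB htan' ⊢
  rw [map_sub, hre, Complex.sub_re, map_sub, pderiv_comm' f k j, Complex.sub_re]
  set F := (eval (ofR w) f).re
  set Fj := (eval (ofR w) (pderiv j f)).re
  set Fk := (eval (ofR w) (pderiv k f)).re
  set Fkj := (eval (ofR w) (pderiv j (pderiv k f))).re
  have e : (Fk - Fkj) / (F - Fj) = Fk / F - d * (F / (F - Fj)) := by
    rw [hd']
    field_simp [hpos.ne', hposN.ne']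
    ring
  have hbnd : F / (F - Fj) ≤ δ := by
    rw [div_le_iff₀ hposN]
    rw [div_le_iff₀ hpos] at hB
    nlinarith
  rw [e]
  nlinarith [mul_le_mul_of_nonpos_left hbnd hd]

end Nice

end Vale.Agent.P078.Cartan
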