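import Vale.Agent.P078.Cartan.Expected
import Vale.Agent.P078.Cartan.Stable

/-!
The Marcus, Spielman and Srivastava root bound for uniform random pinchings.
-/

namespace Vale.Agent.P078.Cartan

open Matrix MvPolynomial
open scoped ComplexOrder ComplexConjugate

variable {ι : Type*} [Fintype ι] [DecidableEq ι] {r : ℕ}

/-- The matrix `x + G diag d`. -/
def pencil (G : Matrix ι ι ℂ) (x : ℝ) (d : ι → ℂ) : Matrix ι ι ℂ :=
  (x : ℂ) • (1 : Matrix ι ι ℂ) + G * diagonal d

theorem pencil_update (G : Matrix ι ι ℂ) (x : ℝ) (d : ι → ℂ) (i : ι) (t : ℂ) :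
    pencil G x (Function.update d i t)
      = (pencil G x d).updateCol i ((x : ℂ) • Pi.single i 1 + t • fun k => G k i) := by
  ext k l
  rcases eq_or_ne l i with rfl | hl
  · simp [pencil, Matrix.one_apply, Pi.single_apply, mul_comm t]
  · simp [pencil, hl, Matrix.one_apply]

theorem det_pencil_update (G : Matrix ι ι ℂ) (x : ℝ) (d : ι → ℂ) (i : ι) (t : ℂ) :
    (pencil G x (Function.update d i t)).det = (pencil G x (Function.update d i 0)).det
      + t * ((pencil G x d).updateCol i fun k => G k i).det := by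
  rw [pencil_update, pencil_update, det_updateCol_add, det_updateCol_smul, det_updateCol_smul,
    zero_smul, add_zero, det_updateCol_smul]

theorem det_pencil_comm (G : Matrix ι ι ℂ) (x : ℝ) (d : ι → ℂ) :
    (pencil G x d).det = ((x : ℂ) • (1 : Matrix ι ι ℂ) + diagonal d * G).det := by
  have h := congrArg (fun p : Polynomial ℂ => p.eval (x : ℂ))
    (Matrix.charpoly_mul_comm (-G) (diagonal d))
  simp only [eval_charpoly] at h
  simpa [pencil, Matrix.smul_one_eq_diagonal, scalar_apply] using h

theorem det_pencil_real {G : Matrix ι ι ℂ} (hG : G.IsHermitian) (x : ℝ) (d : ι → ℝ) :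
    ((pencil G x (ofR d)).det).im = 0 := by
  refine Complex.conj_eq_iff_im.1 ?_
  rw [← Complex.star_def, ← det_conjTranspose]
  conv_rhs => rw [det_pencil_comm]
  rw [pencil, conjTranspose_add, conjTranspose_smul, conjTranspose_one, conjTranspose_mul,
    diagonal_conjTranspose, hG.eq]
  congr 4
  · simp
  · funext k; simp [ofR]

omit [DecidableEq ι] in
/-- The pinching of a family of matrices: the colour also selects the matrix. -/
def pinchFam (G : Fin r → Matrix ι ι ℂ) (s : ι → Fin r) : Matrix ι ι ℂ :=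
  Matrix.of fun i j => if s i = s j then G (s i) i j else 0

omit [DecidableEq ι] in
theorem quad_sum (v w : ι → ℂ) : star v ⬝ᵥ w = ∑ k, conj (v k) * w k := by
  simp [dotProduct]

omit [DecidableEq ι] in
theorem quad_mul_self {G : Matrix ι ι ℂ} (hG : G.IsHermitian) (v : ι → ℂ) :
    star (G *ᵥ v) ⬝ᵥ (G *ᵥ v) = star v ⬝ᵥ ((G * G) *ᵥ v) := by
  rw [star_mulVec, hG.eq, ← dotProduct_mulVec, mulVec_mulVec]

theorem sq_le_quad {G : Matrix ι ι ℂ} (hG : G.PosSemidef) (hG1 : (1 - G).PosSemidef)
    (v : ι → ℂ) :
    ∑ k, Complex.normSq ((G *ᵥ v) k) ≤ (star v ⬝ᵥ (G *ᵥ v)).re := by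
  have h1 : (G - G * G).PosSemidef := by
    have := (hG1.mul_mul_conjTranspose_same G).add (hG.mul_mul_conjTranspose_same (1 - G))
    rw [hG.isHermitian.eq, hG1.isHermitian.eq] at this
    convert this using 1
    noncomm_ring
  have h2 := (Complex.le_def.1 (h1.dotProduct_mulVec_nonneg v)).1
  rw [sub_mulVec, dotProduct_sub, ← quad_mul_self hG.isHermitian, Complex.zero_re,
    Complex.sub_re] at h2
  have h3 : (star (G *ᵥ v) ⬝ᵥ (G *ᵥ v)).re = ∑ k, Complex.normSq ((G *ᵥ v) k) := by
    rw [quad_sum, Complex.re_sum]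
    simp [← Complex.normSq_eq_conj_mul_self]
  linarith

theorem det_pencil_kernel {G : Matrix ι ι ℂ} {x : ℝ} {d : ι → ℂ} (h : (pencil G x d).det = 0) :
    ∃ v : ι → ℂ, v ≠ 0 ∧ ∀ k, (G *ᵥ fun l => d l * v l) k = -((x : ℂ) * v k) := by
  obtain ⟨v, hv, hv0⟩ := exists_mulVec_eq_zero_iff.2 h
  refine ⟨v, hv, fun k => ?_⟩
  have := congrFun hv0 k
  rw [pencil, add_mulVec, smul_mulVec, one_mulVec, ← mulVec_mulVec] at this
  simp only [Pi.add_apply, Pi.smul_apply, smul_eq_mul, Pi.zero_apply] at this
  rw [show (diagonal d *ᵥ v) = fun l => d l * v l from funext fun l => mulVec_diagonal d v l]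
    at this
  linear_combination this

omit [DecidableEq ι] in
theorem quad_kernel {G : Matrix ι ι ℂ} {x : ℝ} {d v : ι → ℂ}
    (h : ∀ k, (G *ᵥ fun l => d l * v l) k = -((x : ℂ) * v k)) :
    star (fun l => d l * v l) ⬝ᵥ (G *ᵥ fun l => d l * v l)
      = -((x : ℂ) * ∑ k, conj (d k) * (Complex.normSq (v k) : ℂ)) := by
  rw [quad_sum, Finset.mul_sum, ← Finset.sum_neg_distrib]
  refine Finset.sum_congr rfl fun k _ => ?_
  rw [h, Complex.normSq_eq_conj_mul_self, map_mul]
  ring

theorem det_pencil_ne_zero_of_im {G : Matrix ι ι ℂ} (hG : G.PosSemidef) {x : ℝ} (hx : 0 < x)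
    {d : ι → ℂ} (hd : ∀ k, 0 < (d k).im) : (pencil G x d).det ≠ 0 := by
  intro h
  obtain ⟨v, hv, hk⟩ := det_pencil_kernel h
  have h2 := (Complex.le_def.1 (hG.dotProduct_mulVec_nonneg fun l => d l * v l)).2
  rw [quad_kernel hk, Complex.neg_im, Complex.im_ofReal_mul, Complex.im_sum] at h2
  simp only [Complex.zero_im, Complex.mul_im, Complex.conj_re, Complex.conj_im,
    Complex.ofReal_re, Complex.ofReal_im, mul_zero, zero_add, neg_mul, Finset.sum_neg_distrib,
    mul_neg, neg_neg] at h2
  have hpos : 0 < ∑ k, (d k).im * Complex.normSq (v k) := by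
    obtain ⟨k, hk'⟩ := Function.ne_iff.1 hv
    exact Finset.sum_pos' (fun l _ => mul_nonneg (hd l).le (Complex.normSq_nonneg _))
      ⟨k, Finset.mem_univ k, mul_pos (hd k) (Complex.normSq_pos.2 hk')⟩
  exact (mul_pos hx hpos).ne h2

theorem det_pencil_pos {G : Matrix ι ι ℂ} (hG : G.PosSemidef) (hG1 : (1 - G).PosSemidef)
    {x κ : ℝ} (hκ : 0 ≤ κ) (hκx : κ < x) {d : ι → ℝ} (hd : ∀ k, -κ ≤ d k) :
    0 < ((pencil G x (ofR d)).det).re := by
  have hx : 0 < x := hκ.trans_lt hκx
  have hne : ∀ e : ι → ℝ, (∀ k, -κ ≤ e k) → (pencil G x (ofR e)).det ≠ 0 := by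
    intro e he h
    obtain ⟨v, hv, hk⟩ := det_pencil_kernel h
    have h2 := sq_le_quad hG hG1 fun l => ofR e l * v l
    rw [quad_kernel hk] at h2
    simp only [hk, Complex.normSq_neg, Complex.normSq_mul, Complex.normSq_ofReal] at h2
    simp only [Complex.neg_re, Complex.re_ofReal_mul, Complex.re_sum, ofR, Complex.conj_ofReal, Complex.ofReal_re,
      ← Finset.mul_sum] at h2
    have h3 : -∑ k, e k * Complex.normSq (v k) ≤ κ * ∑ k, Complex.normSq (v k) := by
      rw [Finset.mul_sum, ← Finset.sum_neg_distrib]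
      refine Finset.sum_le_sum fun k _ => ?_
      nlinarith [Complex.normSq_nonneg (v k), he k]
    have hN : 0 < ∑ k, Complex.normSq (v k) := by
      obtain ⟨k, hk'⟩ := Function.ne_iff.1 hv
      exact Finset.sum_pos' (fun l _ => Complex.normSq_nonneg _)
        ⟨k, Finset.mem_univ k, Complex.normSq_pos.2 hk'⟩
    nlinarith [mul_pos (mul_pos hx hN) (sub_pos.2 hκx)]
  set g : ℝ → ℝ := fun s => ((pencil G x (ofR fun k => s * d k)).det).re
  have hgc : Continuous g := by
    refine Complex.continuous_re.comp (Continuous.matrix_det ?_)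
    exact continuous_const.add
      (continuous_const.matrix_mul (Continuous.matrix_diagonal (by unfold ofR; fun_prop)))
  have hg0 : 0 < g 0 := by
    have : pencil G x (ofR fun k => (0 : ℝ) * d k) = (x : ℂ) • (1 : Matrix ι ι ℂ) := by
      ext a b
      simp [pencil, ofR]
    simp only [g, this, det_smul, det_one, mul_one, ← Complex.ofReal_pow, Complex.ofReal_re]
    positivity
  by_contra hle
  push Not at hle
  have hg1 : g 1 ≤ 0 := by simpa [g] using hle
  obtain ⟨s, hs, hs0⟩ := intermediate_value_Icc' zero_le_one hgc.continuousOn ⟨hg1, hg0.le⟩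
  refine hne (fun k => s * d k) (fun k => ?_) (Complex.ext hs0 (det_pencil_real hG.isHermitian x _))
  have := hd k
  nlinarith [hs.1, hs.2]

/-- The polynomial `det (x + G diag X / r)`. -/
noncomputable def basePoly (G : Matrix ι ι ℂ) (x : ℝ) (r : ℕ) : MvPolynomial ι ℂ :=
  (Matrix.of fun k l => MvPolynomial.C ((x : ℂ) * (1 : Matrix ι ι ℂ) k l)
    + MvPolynomial.C (G k l / r) * MvPolynomial.X l).det

theorem eval_basePoly (G : Matrix ι ι ℂ) (x : ℝ) (r : ℕ) (z : ι → ℂ) :
    eval z (basePoly G x r) = (pencil G x fun k => z k / r).det := by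
  rw [basePoly, RingHom.map_det]
  congr 1
  ext k l
  simp [pencil]
  ring

omit [Fintype ι] [DecidableEq ι] in
theorem ofR_div (u : ι → ℝ) (r : ℕ) :
    (fun k => ofR u k / (r : ℂ)) = ofR fun k => u k / r := by
  funext k; simp [ofR]

theorem nice_base {G : Matrix ι ι ℂ} (hG : G.PosSemidef) (hG1 : (1 - G).PosSemidef)
    (hr : 0 < r) {x δ : ℝ} (hδ : 0 ≤ δ) (hδx : δ / r < x) :
    Nice (basePoly G x r) (fun _ => -δ) := by
  have hr' : (0 : ℝ) < r := Nat.cast_pos.2 hr
  have hx : 0 < x := (div_nonneg hδ hr'.le).trans_lt hδx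
  refine ⟨fun u => ?_, fun z hz => ?_, fun u hu => ?_⟩
  · rw [eval_basePoly, ofR_div]; exact det_pencil_real hG.isHermitian x _
  · rw [eval_basePoly]
    exact det_pencil_ne_zero_of_im hG hx fun k => by
      simp [Complex.div_natCast_im, hz k, hr]
  · rw [eval_basePoly, ofR_div]
    refine det_pencil_pos hG hG1 (div_nonneg hδ hr'.le) hδx fun k => ?_
    rw [← neg_div]
    exact div_le_div_of_nonneg_right (hu k) hr'.le

theorem phi_base {G : Matrix ι ι ℂ} (hG : G.PosSemidef) (hG1 : (1 - G).PosSemidef)
    (hr : 0 < r) {x δ α : ℝ} (hδ : 0 ≤ δ) (hδx : δ / r < x) (i : ι) (hα : (G i i).re ≤ α) :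
    (r : ℝ) * phi (basePoly G x r) i (fun _ => -δ) ≤ α / (x - δ / r) := by
  set κ := δ / r
  have hrR : (0 : ℝ) < r := Nat.cast_pos.2 hr
  have hrC : (r : ℂ) ≠ 0 := Nat.cast_ne_zero.2 hr.ne'
  have hκ : 0 ≤ κ := div_nonneg hδ hrR.le
  have hx : 0 < x := hκ.trans_lt hδx
  have hc : 0 < x - κ := sub_pos.2 hδx
  set z : ι → ℝ := fun _ => -δ
  set dd : ι → ℂ := fun _ => -(κ : ℂ)
  have hdd : (fun k => ofR z k / (r : ℂ)) = dd := by
    funext k; simp [dd, κ, z, ofR, neg_div]
  set M := pencil G x dd
  set b := fun k => G k i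
  have hN := nice_base hG hG1 hr hδ hδx
  have hQ : eval (ofR z) (basePoly G x r) = M.det := by rw [eval_basePoly, hdd]
  have hQ0 : M.det ≠ 0 := hQ ▸ hN.ne_zero le_rfl
  -- the derivative of the determinant
  have hder : eval (ofR z) (pderiv i (basePoly G x r)) = (M.updateCol i b).det / r := by
    have hs : slice (basePoly G x r) (ofR z) i
        = Polynomial.C ((pencil G x (Function.update dd i 0)).det)
          + Polynomial.C ((M.updateCol i b).det / r) * Polynomial.X := by
      refine Polynomial.funext fun t => ?_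
      rw [eval_slice, eval_basePoly]
      have : (fun k => Function.update (ofR z) i t k / (r : ℂ))
          = Function.update dd i (t / r) := by
        rw [← hdd]
        funext k
        rcases eq_or_ne k i with rfl | hk
        · simp
        · simp [Function.update_of_ne hk]
      rw [this, det_pencil_update]
      simp only [Polynomial.eval_add, Polynomial.eval_C, Polynomial.eval_mul, Polynomial.eval_X]
      ring
    have := congrArg (fun p => (Polynomial.derivative p).eval (ofR z i)) hs
    simp only [derivative_slice, eval_slice, Function.update_eq_self] at this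
    simpa using this
  set y : ι → ℂ := M.det⁻¹ • M.cramer b
  have hy : M *ᵥ y = b := by
    rw [mulVec_smul, mulVec_cramer, smul_smul, inv_mul_cancel₀ hQ0, one_smul]
  have hphi : (r : ℝ) * phi (basePoly G x r) i z = (y i).re := by
    have him := pderiv_real hN.real i z
    have him0 := hN.real z
    have e1 := Complex.ext (z := eval (ofR z) (pderiv i (basePoly G x r)))
      (w := ((eval (ofR z) (pderiv i (basePoly G x r))).re : ℂ)) rfl (by simp [him])
    have e0 := Complex.ext (z := eval (ofR z) (basePoly G x r))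
      (w := ((eval (ofR z) (basePoly G x r)).re : ℂ)) rfl (by simp [him0])
    have hy_i : y i = (r : ℂ) * eval (ofR z) (pderiv i (basePoly G x r))
        / eval (ofR z) (basePoly G x r) := by
      rw [hder, hQ, mul_div_cancel₀ _ hrC]
      simp [y, cramer_apply, div_eq_inv_mul]
    rw [hy_i, e1, e0, phi]
    simp only [← Complex.ofReal_natCast, ← Complex.ofReal_mul, ← Complex.ofReal_div,
      Complex.ofReal_re]
    ring
  rw [hphi]
  set v : ι → ℂ := Pi.single i 1 + (κ : ℂ) • y
  have hGv : ∀ k, (G *ᵥ v) k = (x : ℂ) * y k := by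
    intro k
    have := congrFun hy k
    rw [show M = pencil G x dd from rfl, pencil, add_mulVec, smul_mulVec, one_mulVec,
      ← mulVec_mulVec] at this
    rw [show (diagonal dd *ᵥ y) = -((κ : ℂ) • y) by
      funext l; simp [dd, mulVec_diagonal]] at this
    simp only [v, mulVec_add, mulVec_single_one, mulVec_neg, mulVec_smul, Pi.add_apply,
      Pi.smul_apply, Pi.neg_apply, smul_eq_mul, b, Matrix.col_apply] at this ⊢
    linear_combination -this
  set Q := (star v ⬝ᵥ (G *ᵥ v)).re
  have hQv : Q = x * (y i).re + κ * x * ∑ k, Complex.normSq (y k) := by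
    simp only [Q, v, star_add, star_smul, add_dotProduct, smul_dotProduct]
    rw [quad_sum, quad_sum, Finset.sum_eq_single i (fun k _ hk => by simp [hk]) (by simp)]
    simp only [v] at hGv
    simp only [hGv, Pi.single_eq_same, map_one, one_mul]
    simp only [Complex.add_re, smul_eq_mul, Complex.star_def, Complex.conj_ofReal,
      Complex.re_ofReal_mul, Complex.re_sum, Finset.mul_sum]
    congr 1
    refine Finset.sum_congr rfl fun k _ => ?_
    rw [mul_left_comm (conj (y k)), Complex.re_ofReal_mul, ← Complex.normSq_eq_conj_mul_self,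
      Complex.ofReal_re]
    ring
  have h1 : x ^ 2 * ∑ k, Complex.normSq (y k) ≤ Q := by
    have := sq_le_quad hG hG1 v
    simp only [hGv, Complex.normSq_mul, Complex.normSq_ofReal, ← Finset.mul_sum] at this
    rw [sq]; exact this
  set s : ℝ := x / (x - κ)
  have h2 : 0 ≤ Q - 2 * s * (x * (y i).re) + s ^ 2 * (G i i).re := by
    have hnn := (Complex.le_def.1 (hG.dotProduct_mulVec_nonneg
      (v - (s : ℂ) • Pi.single i 1))).1
    have ha : ∀ w : ι → ℂ, star (Pi.single i (1 : ℂ) : ι → ℂ) ⬝ᵥ w = w i := fun w => by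
      rw [quad_sum, Finset.sum_eq_single i (fun k _ hk => by simp [hk]) (by simp)]
      simp
    have hb : star v ⬝ᵥ (G *ᵥ Pi.single i 1) = star ((G *ᵥ v) i) := by
      rw [star_dotProduct, star_mulVec, hG.isHermitian.eq, ← dotProduct_mulVec, ha]
    rw [star_sub, star_smul, mulVec_sub, mulVec_smul, sub_dotProduct, dotProduct_sub,
      dotProduct_sub, smul_dotProduct, smul_dotProduct, dotProduct_smul, dotProduct_smul, ha, ha,
      hb, hGv, mulVec_single_one] at hnn
    simp only [Matrix.col_apply, smul_eq_mul, Complex.zero_re, Complex.sub_re, Complex.star_def,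
      Complex.conj_ofReal, map_mul, Complex.re_ofReal_mul, Complex.conj_re] at hnn
    show 0 ≤ Q - _ + _
    simp only [Q]
    nlinarith
  have hsdef : s * (x - κ) = x := div_mul_cancel₀ x hc.ne'
  have hs : 0 < s := div_pos hx hc
  have h3 : Q ≤ s * (x * (y i).re) := by
    have : (x - κ) * Q ≤ x * (x * (y i).re) := by nlinarith
    calc Q = (x - κ) * Q / (x - κ) := (mul_div_cancel_left₀ Q hc.ne').symm
      _ ≤ x * (x * (y i).re) / (x - κ) := div_le_div_of_nonneg_right this hc.le
      _ = s * (x * (y i).re) := by simp only [s]; ring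
  have h4 : x * (y i).re ≤ s * α := by
    refine le_of_mul_le_mul_left ?_ hs
    nlinarith [mul_le_mul_of_nonneg_left hα (sq_nonneg s)]
  rw [le_div_iff₀ hc]
  refine le_of_mul_le_mul_left ?_ hs
  calc s * ((y i).re * (x - κ)) = (y i).re * (s * (x - κ)) := by ring
    _ = x * (y i).re := by rw [hsdef]; ring
    _ ≤ s * α := h4

theorem nice_prod {ι : Type*} [DecidableEq ι] {κ : Type*} [DecidableEq κ]
    {f : κ → MvPolynomial ι ℂ} {z₀ : ι → ℝ} (hf : ∀ c, Nice (f c) z₀) (i : ι) (S : Finset κ) :
    Nice (∏ c ∈ S, f c) z₀ ∧ phi (∏ c ∈ S, f c) i z₀ = ∑ c ∈ S, phi (f c) i z₀ := by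
  induction S using Finset.induction with
  | empty =>
    exact ⟨⟨fun u => by simp, fun z _ => by simp, fun u _ => by simp⟩, by simp [phi]⟩
  | insert c S hc ih =>
    rw [Finset.prod_insert hc, Finset.sum_insert hc]
    obtain ⟨h1, h2⟩ := ih
    refine ⟨⟨fun u => by rw [map_mul, Complex.mul_im, (hf c).real u, h1.real u]; ring,
      fun z hz => by rw [map_mul]; exact mul_ne_zero ((hf c).stable z hz) (h1.stable z hz),
      fun u hu => ?_⟩, ?_⟩
    · rw [map_mul, Complex.mul_re, (hf c).real u, h1.real u, mul_zero, sub_zero]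
      exact mul_pos ((hf c).pos u hu) (h1.pos u hu)
    · rw [← h2]
      simp only [phi, pderiv_mul, map_add, map_mul, Complex.add_re, Complex.mul_re,
        (hf c).real, h1.real, pderiv_real (hf c).real, pderiv_real h1.real, mul_zero, zero_mul,
        sub_zero]
      have e1 := ((hf c).pos z₀ le_rfl).ne'
      have e2 := (h1.pos z₀ le_rfl).ne'
      field_simp

/-- The operators `1 - d/dz_i`, applied along a list. -/
noncomputable def opList (P : MvPolynomial ι ℂ) : List ι → MvPolynomial ι ℂ
  | [] => P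
  | i :: l => opList P l - pderiv i (opList P l)

/-- The diagonal of a colouring substituted on a list. -/
noncomputable def dv (l : List ι) (s : ι → Fin r) (c : Fin r) (z : ι → ℂ) : ι → ℂ :=
  fun k => if k ∈ l then (if s k = c then -1 else 0) else z k / r

theorem sum_colour_avg (i : ι) (F : (ι → Fin r) → Fin r → ℂ)
    (hF : ∀ s c e, F (Function.update s i e) c = F s c) :
    ∑ s, ∑ c, F s c = (r : ℂ) * ∑ s, F s (s i) := by
  rw [← Fintype.sum_prod_type']
  rw [show (r : ℂ) * ∑ s, F s (s i) = ∑ p : (ι → Fin r) × Fin r, F p.1 (p.1 i) by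
    simp only [Fintype.sum_prod_type, Finset.sum_const, Finset.card_univ, Fintype.card_fin,
      nsmul_eq_mul, Finset.mul_sum]]
  refine Fintype.sum_equiv (Function.Involutive.toPerm
    (fun p : (ι → Fin r) × Fin r => (Function.update p.1 i p.2, p.1 i)) fun p => by simp) _ _
    fun p => ?_
  show F p.1 p.2 = F (Function.update p.1 i p.2) (Function.update p.1 i p.2 i)
  simp [hF]

theorem eval_opList (G : Fin r → Matrix ι ι ℂ) (x : ℝ) (hr : 0 < r) :
    ∀ l : List ι, l.Nodup → ∀ z : ι → ℂ, (∀ k ∈ l, z k = 0) →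
      (r : ℂ) ^ Fintype.card ι * eval z (opList (∏ c, basePoly (G c) x r) l)
        = ∑ s : ι → Fin r, ∏ c, (pencil (G c) x (dv l s c z)).det := by
  have hrC : (r : ℂ) ≠ 0 := Nat.cast_ne_zero.2 hr.ne'
  intro l
  induction l with
  | nil =>
    intro _ z _
    have : ∀ (s : ι → Fin r) (c : Fin r), dv [] s c z = fun k => z k / r := fun s c => by
      funext k; simp [dv]
    simp [opList, eval_basePoly, this]
  | cons i l ih =>
    intro hnd z hz
    obtain ⟨hil, hnd'⟩ := List.nodup_cons.1 hnd
    have hzi : z i = 0 := hz i List.mem_cons_self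
    set a : (ι → Fin r) → Fin r → ℂ := fun s c => (pencil (G c) x (dv l s c z)).det
    set b : (ι → Fin r) → Fin r → ℂ := fun s c =>
      ((pencil (G c) x (dv l s c z)).updateCol i fun k => G c k i).det
    have hdvi : ∀ (s : ι → Fin r) (c : Fin r), Function.update (dv l s c z) i 0 = dv l s c z := fun s c => by
      refine Function.update_eq_self_iff.2 ?_
      simp [dv, hil, hzi]
    have hexp : ∀ (s : ι → Fin r) (c : Fin r) (t : ℂ),
        (pencil (G c) x (Function.update (dv l s c z) i t)).det = a s c + t * b s c := fun s c t => by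
      rw [det_pencil_update, hdvi]
    -- the polynomial in the new variable
    have hpoly : Polynomial.C ((r : ℂ) ^ Fintype.card ι)
        * slice (opList (∏ c, basePoly (G c) x r) l) z i
        = ∑ s : ι → Fin r, ∏ c, (Polynomial.C (a s c)
            + Polynomial.C (b s c / r) * Polynomial.X) := by
      refine Polynomial.funext fun t => ?_
      rw [Polynomial.eval_mul, Polynomial.eval_C, eval_slice, Polynomial.eval_finsetSum,
        ih hnd' _ fun k hk => by
          rw [Function.update_of_ne (fun e : k = i => hil (e ▸ hk))]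
          exact hz k (List.mem_cons_of_mem i hk)]
      refine Finset.sum_congr rfl fun s _ => ?_
      rw [Polynomial.eval_prod]
      refine Finset.prod_congr rfl fun c _ => ?_
      rw [show dv l s c (Function.update z i t) = Function.update (dv l s c z) i (t / r) by
        funext k
        rcases eq_or_ne k i with rfl | hk
        · simp [dv, hil]
        · simp [dv, Function.update_of_ne hk], hexp]
      simp only [Polynomial.eval_add, Polynomial.eval_C, Polynomial.eval_mul, Polynomial.eval_X]
      ring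
    have h0 := congrArg (Polynomial.eval 0) hpoly
    have h1 := congrArg (fun p => (Polynomial.derivative p).eval 0) hpoly
    simp only [Polynomial.eval_mul, Polynomial.eval_C, eval_slice, Polynomial.eval_finsetSum,
      Polynomial.eval_prod, Polynomial.eval_add, Polynomial.eval_X, mul_zero, add_zero,
      Polynomial.derivative_C_mul, derivative_slice, map_sum, Polynomial.derivative_prod_finset,
      map_add, Polynomial.derivative_C, Polynomial.derivative_X, mul_one, zero_add] at h0 h1
    rw [show Function.update z i 0 = z from Function.update_eq_self_iff.2 hzi.symm] at h0 h1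
    simp only [opList, map_sub, mul_sub]
    rw [h0, h1]
    have hnew : ∀ s : ι → Fin r, ∏ c, (pencil (G c) x (dv (i :: l) s c z)).det
        = ∏ c, a s c - (∏ c ∈ Finset.univ.erase (s i), a s c) * b s (s i) := by
      intro s
      have : ∀ c, (pencil (G c) x (dv (i :: l) s c z)).det
          = a s c + (if s i = c then -1 else 0) * b s c := fun c => by
        rw [← hexp]
        congr 2
        funext k
        rcases eq_or_ne k i with rfl | hk
        · simp [dv]
        · simp [dv, hk]
      simp only [this]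
      rw [← Finset.mul_prod_erase Finset.univ _ (Finset.mem_univ (s i)),
        ← Finset.mul_prod_erase Finset.univ (a s) (Finset.mem_univ (s i))]
      rw [Finset.prod_congr rfl (g := a s) fun c hc => by
        rw [if_neg (Finset.ne_of_mem_erase hc).symm, zero_mul, add_zero]]
      simp
      ring
    simp only [hnew, Finset.sum_sub_distrib]
    congr 1
    have hinv : ∀ (s : ι → Fin r) (c e : Fin r), dv l (Function.update s i e) c z = dv l s c z := fun s c e => by
      funext k
      rcases eq_or_ne k i with rfl | hk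
      · simp [dv, hil]
      · simp [dv, Function.update_of_ne hk]
    have havg := sum_colour_avg i (fun s c => (∏ e ∈ Finset.univ.erase c, a s e) * b s c)
      fun s c e => by simp only [a, b, hinv]
    simp only [mul_div_assoc', ← Finset.sum_div]
    rw [havg, mul_div_cancel_left₀ _ hrC]

theorem prod_det_sub {B : Fin r → Matrix ι ι ℂ} (hB : ∀ c c', c ≠ c' → B c * B c' = 0) (x : ℂ)
    (S : Finset (Fin r)) :
    x ^ Fintype.card ι * ∏ c ∈ S, (x • (1 : Matrix ι ι ℂ) - B c).det
      = (x ^ Fintype.card ι) ^ S.card * (x • (1 : Matrix ι ι ℂ) - ∑ c ∈ S, B c).det := by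
  induction S using Finset.induction with
  | empty => simp
  | insert c S hc ih =>
    rw [Finset.prod_insert hc, Finset.card_insert_of_notMem hc, Finset.sum_insert hc, pow_succ,
      mul_left_comm, ih]
    have h0 : B c * ∑ d ∈ S, B d = 0 := by
      rw [Finset.mul_sum]
      exact Finset.sum_eq_zero fun d hd => hB c d fun e => hc (e ▸ hd)
    have e : (x • (1 : Matrix ι ι ℂ) - B c) * (x • (1 : Matrix ι ι ℂ) - ∑ d ∈ S, B d)
        = x • (x • (1 : Matrix ι ι ℂ) - (B c + ∑ d ∈ S, B d)) := by
      simp only [sub_mul, mul_sub, smul_mul_assoc, one_mul, mul_smul_comm, mul_one, h0,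
        smul_sub, smul_add]
      abel
    have := congrArg Matrix.det e
    rw [det_mul, det_smul] at this
    linear_combination ((x ^ Fintype.card ι) ^ S.card) * this

theorem prod_pencil (G : Fin r → Matrix ι ι ℂ) {x : ℝ} (s : ι → Fin r) :
    (x : ℂ) ^ Fintype.card ι
        * ∏ c, (pencil (G c) x fun k => if s k = c then -1 else 0).det
      = ((x : ℂ) ^ Fintype.card ι) ^ r * ((pinchFam G s).charpoly.eval (x : ℂ)) := by
  set P : Fin r → Matrix ι ι ℂ := fun c => diagonal fun k => if s k = c then 1 else 0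
  have hP : ∀ c, P c * P c = P c := fun c => by
    simp only [P, diagonal_mul_diagonal]
    congr 1; funext k; split <;> simp
  have hstep : ∀ c, (pencil (G c) x fun k => if s k = c then -1 else 0).det
      = ((x : ℂ) • (1 : Matrix ι ι ℂ) - P c * G c * P c).det := by
    intro c
    have h := congrArg (fun p : Polynomial ℂ => p.eval (x : ℂ))
      (Matrix.charpoly_mul_comm (G c * P c) (P c))
    simp only [eval_charpoly] at h
    rw [mul_assoc (G c) (P c) (P c), hP, ← mul_assoc (P c) (G c) (P c), scalar_apply,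
      ← smul_one_eq_diagonal] at h
    rw [← h, pencil, show (diagonal fun k => if s k = c then (-1 : ℂ) else 0) = -P c by
      rw [diagonal_neg]; congr 1; funext k; simp [apply_ite (Neg.neg : ℂ → ℂ)],
      mul_neg, sub_eq_add_neg]
  have horth : ∀ c c', c ≠ c' → (P c * G c * P c) * (P c' * G c' * P c') = 0 := by
    intro c c' hcc
    have : P c * P c' = 0 := by
      simp only [P, diagonal_mul_diagonal]
      rw [← diagonal_zero]
      congr 1; funext k
      by_cases h : s k = c
      · simp [h, hcc]
      · simp [h]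
    calc P c * G c * P c * (P c' * G c' * P c') = P c * G c * (P c * P c') * G c' * P c' := by
          simp only [mul_assoc]
      _ = 0 := by rw [this]; simp
  simp only [hstep]
  rw [prod_det_sub horth, Finset.card_univ, Fintype.card_fin, eval_charpoly, scalar_apply,
    smul_one_eq_diagonal]
  congr 3
  ext k l
  simp only [Matrix.sum_apply, P, diagonal_mul, mul_diagonal, pinchFam, Matrix.of_apply]
  rw [Finset.sum_eq_single (s k) (fun c _ hc => by simp [Ne.symm hc]) (by simp)]
  by_cases h : s k = s l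
  · simp [h]
  · simp [h, Ne.symm h]

theorem barrier_list (P : MvPolynomial ι ℂ) {φ δ : ℝ} (hφ : φ < 1) (hδ : 1 ≤ (1 - φ) * δ)
    (hP : Nice P fun _ => -δ) (hb : ∀ k, phi P k (fun _ => -δ) ≤ φ) :
    ∀ l : List ι, l.Nodup → Nice (opList P l) (fun k => if k ∈ l then 0 else -δ) ∧
      ∀ k, phi (opList P l) k (fun k => if k ∈ l then 0 else -δ) ≤ φ := by
  intro l
  induction l with
  | nil => intro _; simpa [opList] using ⟨hP, hb⟩
  | cons i l ih =>
    intro hnd
    obtain ⟨hil, hnd'⟩ := List.nodup_cons.1 hnd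
    obtain ⟨hN, hN'⟩ := ih hnd'
    have h := hN.step (j := i) hφ hδ hN'
    have hw : Function.update (fun k => if k ∈ l then 0 else -δ) i
        ((if i ∈ l then 0 else -δ) + δ) = fun k => if k ∈ i :: l then (0 : ℝ) else -δ := by
      funext k
      rcases eq_or_ne k i with rfl | hk
      · simp [hil]
      · simp [hk]
    rw [hw] at h
    exact h

/-- Roots of the expected characteristic polynomial for uniform colours, when each colour has
its own matrix. -/
theorem familyRootBound (hr : 0 < r) (G : Fin r → Matrix ι ι ℂ) {α : ℝ} (hα : 0 ≤ α)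
    (hG : ∀ c, (G c).PosSemidef) (hG1 : ∀ c, (1 - G c).PosSemidef)
    (hdiag : ∀ c i, (G c i i).re ≤ α) {x : ℝ} (hx : (1 / Real.sqrt r + Real.sqrt α) ^ 2 < x) :
    ∑ s : ι → Fin r, (pinchFam G s).charpoly.eval (x : ℂ) ≠ 0 := by
  intro hsum
  have hrR : (0 : ℝ) < r := Nat.cast_pos.2 hr
  set a : ℝ := Real.sqrt (α * r) with hadef
  have ha : 0 ≤ a := Real.sqrt_nonneg _
  have ha2 : a ^ 2 = α * r := Real.sq_sqrt (by positivity)
  have hbig : (1 + a) ^ 2 < r * x := by
    have : (1 + a) ^ 2 = r * (1 / Real.sqrt r + Real.sqrt α) ^ 2 := by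
      rw [hadef, Real.sqrt_mul hα]
      have h := Real.sq_sqrt hrR.le
      have h' : (0 : ℝ) < Real.sqrt r := Real.sqrt_pos.2 hrR
      field_simp
      linear_combination h
    rw [this]
    exact mul_lt_mul_of_pos_left hx hrR
  set δ : ℝ := 1 + a
  set φ : ℝ := a / (1 + a)
  have ha1 : 0 < 1 + a := by linarith
  have hφ : φ < 1 := by rw [div_lt_one ha1]; linarith
  have hδ : 1 ≤ (1 - φ) * δ := le_of_eq (by simp only [φ, δ]; field_simp; ring)
  have hδx : δ / r < x := by
    rw [div_lt_iff₀ hrR]
    nlinarith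
  have hx0 : 0 < x := (div_nonneg (by positivity) hrR.le).trans_lt hδx
  have hbase := fun c => nice_base (hG c) (hG1 c) hr (δ := δ) (by positivity) hδx
  have hP : Nice (∏ c, basePoly (G c) x r) fun _ => -δ := by
    refine ⟨fun u => ?_, fun z hz => ?_, fun u hu => ?_⟩
    · rw [map_prod]
      refine Finset.prod_induction _ (fun w : ℂ => w.im = 0) ?_ rfl fun c _ => (hbase c).real u
      intro a b ha hb; simp [Complex.mul_im, ha, hb]
    · rw [map_prod]; exact Finset.prod_ne_zero_iff.2 fun c _ => (hbase c).stable z hz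
    · rw [map_prod]
      refine (Finset.prod_induction _ (fun w : ℂ => w.im = 0 ∧ 0 < w.re) ?_ ⟨rfl, one_pos⟩
        fun c _ => ⟨(hbase c).real u, (hbase c).pos u hu⟩).2
      intro a b ha hb
      simp [Complex.mul_im, Complex.mul_re, ha.1, hb.1, mul_pos ha.2 hb.2]
  have hb : ∀ k, phi (∏ c, basePoly (G c) x r) k (fun _ => -δ) ≤ φ := fun k => by
    rw [(nice_prod hbase k Finset.univ).2]
    have hle : ∀ c ∈ Finset.univ, phi (basePoly (G c) x r) k (fun _ => -δ)
        ≤ α / (x - δ / r) / r := fun c _ => by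
      rw [le_div_iff₀ hrR, mul_comm]
      exact phi_base (hG c) (hG1 c) hr (by positivity) hδx k (hdiag c k)
    refine (Finset.sum_le_sum hle).trans ?_
    rw [Finset.sum_const, Finset.card_univ, Fintype.card_fin, nsmul_eq_mul,
      mul_div_cancel₀ _ hrR.ne', div_le_div_iff₀ (sub_pos.2 hδx) ha1]
    refine le_of_mul_le_mul_left ?_ hrR
    have : r * (a * (x - δ / r)) = a * (r * x - δ) := by field_simp
    rw [this]
    nlinarith [mul_le_mul_of_nonneg_left hbig.le ha]
  set l := (Finset.univ : Finset ι).toList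
  have hl : ∀ k, k ∈ l := fun k => by simp [l]
  obtain ⟨hN, -⟩ := barrier_list _ hφ hδ hP hb l (Finset.nodup_toList _)
  have hne : eval (fun _ => (0 : ℂ)) (opList (∏ c, basePoly (G c) x r) l) ≠ 0 := by
    have := hN.ne_zero (u := fun _ => (0 : ℝ)) (fun k => by simp [hl k])
    unfold ofR at this
    simp only [Complex.ofReal_zero] at this
    exact this
  apply hne
  have hid := eval_opList G x hr l (Finset.nodup_toList _) (fun _ => 0) fun _ _ => rfl
  have hx' : ((x : ℂ)) ^ Fintype.card ι ≠ 0 :=
    pow_ne_zero _ (Complex.ofReal_ne_zero.2 hx0.ne')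
  refine (mul_eq_zero.1 ?_).resolve_left
    (pow_ne_zero (Fintype.card ι) (Nat.cast_ne_zero.2 hr.ne' : (r : ℂ) ≠ 0))
  rw [hid]
  refine (mul_eq_zero.1 ?_).resolve_left hx'
  have hdv : ∀ (s : ι → Fin r) (c : Fin r), dv l s c (fun _ => (0 : ℂ))
      = fun k => if s k = c then (-1 : ℂ) else 0 := fun s c => by
    funext k; simp [dv, hl k]
  rw [Finset.mul_sum]
  calc ∑ s, (x : ℂ) ^ Fintype.card ι
        * ∏ c, (pencil (G c) x (dv l s c fun _ => 0)).det
      = ∑ s, ((x : ℂ) ^ Fintype.card ι) ^ r * (pinchFam G s).charpoly.eval (x : ℂ) := by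
        refine Finset.sum_congr rfl fun s _ => ?_
        simp only [hdv]
        exact prod_pencil G s
    _ = 0 := by rw [← Finset.mul_sum, hsum, mul_zero]

/-- Roots of the expected characteristic polynomial for uniform colours. -/
theorem uniformRootBound : UniformRootBound := by
  intro n r hr G α hα hG hG1 hdiag x hx heval
  simp only [echar, Polynomial.eval_finsetSum, Polynomial.eval_mul, Polynomial.eval_C,
    weight, uniformLaw, Finset.prod_const, ← Finset.mul_sum] at heval
  rcases mul_eq_zero.1 heval with h | h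
  · exact pow_ne_zero _ (Complex.ofReal_ne_zero.2
      (one_div_ne_zero (Nat.cast_ne_zero.2 hr.ne'))) h
  · exact familyRootBound hr (fun _ => G) hα (fun _ => hG) (fun _ => hG1) (fun _ => hdiag) hx h

end Vale.Agent.P078.Cartan
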