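import Vale.Agent.P078.Cartan.OperatorModel

/-!
From two-sided trace bounds on finite sums to so-paving of regular MASAs in finite algebras.
-/

namespace Vale.Agent.P078.Cartan

open scoped InnerProductSpace ComplexOrder
open ContinuousLinearMap Polynomial

/-- Finite sums of norm at most `1` with expectation `0` have, for `N r` pieces, pinchings whose
spectral parts outside `[-lam, lam]` have arbitrarily small two-norm, for `lam` above `lvl r`. -/
def SidesBound (N : ℕ → ℕ) (lvl : ℕ → ℝ) : Prop :=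
  ∀ (H : Type) [NormedAddCommGroup H] [InnerProductSpace ℂ H] [CompleteSpace H]
    (M : VonNeumannAlgebra H) (A : StarSubalgebra ℂ (H →L[ℂ] H)) (ι : Type) (η : ι → H),
    IsMasa M A → ∀ h : IsTrace M η, ∀ x ∈ spanN M A, IsSelfAdjoint x → ‖x‖ ≤ 1 →
      expect A x = 0 → ∀ r : ℕ, 0 < r → ∀ lam δ : ℝ, lvl r < lam → 0 < δ →
      ∃ p : Fin (N r) → (H →L[ℂ] H), IsPartition A p ∧ Phi h lam (pinching p x) ≤ δ ∧
        Phi h lam (-pinching p x) ≤ δ

/-- A faithful normal finite trace, as a sum of vector states. -/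
def HasFiniteTrace {H : Type} [NormedAddCommGroup H] [InnerProductSpace ℂ H] [CompleteSpace H]
    (M : VonNeumannAlgebra H) : Prop :=
  ∃ (ι : Type) (η : ι → H), Summable (fun i => ‖η i‖ ^ 2) ∧
    (∀ x ∈ M, ∑' i, ‖x (η i)‖ ^ 2 = ∑' i, ‖star x (η i)‖ ^ 2) ∧
    ∀ x ∈ M, (∀ i, x (η i) = 0) → x = 0

variable {H : Type} [NormedAddCommGroup H] [InnerProductSpace ℂ H] [CompleteSpace H]
variable {M : VonNeumannAlgebra H} {A : StarSubalgebra ℂ (H →L[ℂ] H)} {ι : Type} {η : ι → H}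

theorem pinching_mem (hA : IsMasa M A) {r : ℕ} {p : Fin r → (H →L[ℂ] H)} (hp : IsPartition A p)
    {x : H →L[ℂ] H} (hx : x ∈ M) : pinching p x ∈ M :=
  sum_mem fun c _ => mul_mem (mul_mem (hA.le _ (hp.mem c)) hx) (hA.le _ (hp.mem c))

theorem pinching_isSelfAdjoint {r : ℕ} {p : Fin r → (H →L[ℂ] H)} (hp : IsPartition A p)
    {x : H →L[ℂ] H} (hx : IsSelfAdjoint x) : IsSelfAdjoint (pinching p x) := by
  rw [IsSelfAdjoint, pinching, star_sum]
  simp only [star_mul, (hp.proj _).isSelfAdjoint.star_eq, hx.star_eq, mul_assoc]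

omit [CompleteSpace H] in
theorem pinching_sub {r : ℕ} (p : Fin r → (H →L[ℂ] H)) (x y : H →L[ℂ] H) :
    pinching p (x - y) = pinching p x - pinching p y := by
  simp [pinching, mul_sub, sub_mul, Finset.sum_sub_distrib]

omit [CompleteSpace H] in
theorem pinching_add {r : ℕ} (p : Fin r → (H →L[ℂ] H)) (x y : H →L[ℂ] H) :
    pinching p (x + y) = pinching p x + pinching p y := by
  simp [pinching, mul_add, add_mul, Finset.sum_add_distrib]

omit [CompleteSpace H] in
theorem pinching_smul {r : ℕ} (p : Fin r → (H →L[ℂ] H)) (c : ℂ) (x : H →L[ℂ] H) :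
    pinching p (c • x) = c • pinching p x := by
  simp [pinching, Finset.smul_sum]

omit [CompleteSpace H] in
theorem pinching_neg {r : ℕ} (p : Fin r → (H →L[ℂ] H)) (x : H →L[ℂ] H) :
    pinching p (-x) = -pinching p x := by
  simp [pinching]

theorem pinching_self (hA : IsMasa M A) {r : ℕ} {p : Fin r → (H →L[ℂ] H)} (hp : IsPartition A p)
    {a : H →L[ℂ] H} (ha : a ∈ A) : pinching p a = a := by
  have e : ∀ i, p i * a * p i = a * p i := fun i => by
    rw [hA.comm _ (hp.mem i) a ha, mul_assoc, (hp.proj i).isIdempotentElem.eq]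
  simp only [pinching, e, ← Finset.mul_sum, hp.sum_eq, mul_one]

theorem norm_V_expect_le (hA : IsMasa M A) (h : IsTrace M η) {x : H →L[ℂ] H} (hx : x ∈ M) :
    ‖h.V (expect A x)‖ ≤ ‖h.V x‖ := by
  have hE := expect_mem hA hx
  have e := tau_mul_expect hA h (star_mem hE) hx
  rw [tau_star_mul, tau_star_mul] at e
  have h1 := re_inner_le_norm (𝕜 := ℂ) (h.V (expect A x)) (h.V x)
  rw [← e, inner_self_eq_norm_sq] at h1
  rcases (norm_nonneg (h.V (expect A x))).eq_or_lt with hz | hz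
  · rw [← hz]; exact norm_nonneg _
  · nlinarith

theorem re_tau_mono (h : IsTrace M η) {x y : H →L[ℂ] H} (hx : x ∈ M) (hy : y ∈ M) (hxy : x ≤ y) :
    (tau h x).re ≤ (tau h y).re := by
  have h0 := re_tau_mul_nonneg h (one_mem M) (sub_mem hy hx) zero_le_one (sub_nonneg.2 hxy)
  rw [one_mul, tau, map_sub, inner_sub_right, Complex.sub_re] at h0
  unfold tau
  linarith

/-- Cutting an element at level `θ` costs little in two-norm. -/
theorem exists_cut_trace (h : IsTrace M η) {Y : H →L[ℂ] H} (hY : IsSelfAdjoint Y) (hYM : Y ∈ M)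
    {θ : ℝ} (hθ : 0 < θ) :
    ∃ k ∈ M, IsStarProjection k ∧ (∀ v, ‖Y (k v)‖ ≤ θ * ‖k v‖) ∧
      θ * ‖h.V (1 - k)‖ ≤ ‖h.V Y‖ ∧ ∀ z, Commute Y z → Commute k z := by
  obtain ⟨k, hk, hkY, hkξ, hkc, hkN, -⟩ := exists_cut hY hθ
  refine ⟨k, hkN M hYM, hk, hkY, ?_, hkc⟩
  refine (abs_le_of_sq_le_sq' ?_ (norm_nonneg _)).2
  rw [mul_pow, norm_V_sq, norm_V_sq, ← tsum_mul_left]
  refine ((h.summable_apply _).mul_left _).tsum_le_tsum (fun i => ?_) (h.summable_apply Y)
  rw [← mul_pow]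
  exact pow_le_pow_left₀ (by positivity) (hkξ (η i)) 2

/-- The two-norm approximation by finite sums with norm at most `1` and expectation `0`. -/
theorem exists_spanN_centred (hA : IsMasa M A) (hreg : IsRegularMasa M A) (h : IsTrace M η)
    {y : H →L[ℂ] H} (hy : y ∈ M) (hys : IsSelfAdjoint y) (hy1 : ‖y‖ ≤ 1) (hy0 : expect A y = 0)
    {γ : ℝ} (hγ : 0 < γ) :
    ∃ z ∈ spanN M A, IsSelfAdjoint z ∧ ‖z‖ ≤ 1 ∧ expect A z = 0 ∧ ‖h.V (z - y)‖ ≤ γ := by
  obtain ⟨θ, hθ, hθ1, hθγ⟩ : ∃ θ : ℝ, 0 < θ ∧ θ ≤ 1 ∧ θ ≤ γ / 8 :=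
    ⟨min 1 (γ / 8), by positivity, min_le_left _ _, min_le_right _ _⟩
  obtain ⟨d, hd, hdθ⟩ : ∃ d : ℝ, 0 < d ∧ d ≤ θ ^ 2 / 16 := ⟨θ ^ 2 / 16, by positivity, le_rfl⟩
  -- a self-adjoint finite sum
  obtain ⟨b, hb, hbd⟩ := exists_spanN_near hreg h hy hd
  obtain ⟨c, hc⟩ : ∃ c : H →L[ℂ] H, c = (1 / 2 : ℂ) • (b + star b) := ⟨_, rfl⟩
  have hbM := spanN_le hA hb
  have hcS : c ∈ spanN M A := hc ▸ Submodule.smul_mem _ _ (add_mem hb (star_mem_spanN hb))
  have hcM := spanN_le hA hcS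
  have hcs : IsSelfAdjoint c := by
    rw [hc, IsSelfAdjoint, star_smul, star_add, star_star, add_comm, RCLike.star_def]
    congr 1
    simp [map_ofNat]
  have hcy : ‖h.V (c - y)‖ ≤ d := by
    have e : c - y = (1 / 2 : ℂ) • ((b - y) + star (b - y)) := by
      rw [hc, star_sub, hys.star_eq]; module
    have hb' : ‖h.V (b - y)‖ ≤ d := by
      rw [← neg_sub, map_neg, norm_neg]; exact hbd.le
    rw [e, map_smul, norm_smul, map_add]
    have h1 := norm_add_le (h.V (b - y)) (h.V (star (b - y)))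
    rw [norm_V_star h (sub_mem hbM hy)] at h1
    have : ‖(1 / 2 : ℂ)‖ = 1 / 2 := by norm_num
    rw [this]
    linarith
  -- the clamp to `[-1, 1]`
  obtain ⟨cl, hcl⟩ : ∃ cl : H →L[ℂ] H, cl = cfc (fun s : ℝ => max (-1) (min s 1)) c := ⟨_, rfl⟩
  have hcle : cl = c - posAbove 1 c + posBelow (-1) c := by
    rw [hcl, posAbove, posBelow]
    conv_rhs => arg 1; arg 1; rw [← cfc_id' ℝ c hcs]
    rw [← cfc_sub (fun s : ℝ => s) _ c, ← cfc_add c _ _]
    refine cfc_congr fun s _ => ?_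
    rcases le_total s (-1) with h1 | h1
    · rw [min_eq_left (by linarith), max_eq_left h1, max_eq_right (by linarith : s - 1 ≤ 0),
        max_eq_left (by linarith : 0 ≤ -1 - s)]
      ring
    · rcases le_total s 1 with h2 | h2
      · rw [min_eq_left h2, max_eq_right h1, max_eq_right (by linarith : s - 1 ≤ 0),
          max_eq_right (by linarith : -1 - s ≤ 0)]
        ring
      · rw [min_eq_right h2, max_eq_right (by norm_num : (-1 : ℝ) ≤ 1),
          max_eq_left (by linarith : 0 ≤ s - 1), max_eq_right (by linarith : -1 - s ≤ 0)]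
        ring
  have hclM : cl ∈ M := hcl ▸ vn_cfc_mem hcM _
  have hbound : ∀ w : H →L[ℂ] H, w ∈ M → IsSelfAdjoint w → ‖w‖ ≤ 1 → Phi h 1 w = 0 :=
    fun w _ hws hw => Phi_eq_zero h hws ((le_algebraMap_iff_spectrum_le hws).2 fun t ht => by
      have h1 := norm_apply_le_norm_cfc (fun s : ℝ => s) w ht
      rw [cfc_id' ℝ w, Real.norm_eq_abs] at h1
      linarith [le_abs_self t])
  have hcl3 : ‖h.V (cl - y)‖ ≤ 3 * d := by
    have h1 : Phi h 1 c ≤ d := (Phi_lipschitz h hcM hy hcs hys 1).trans (by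
      rw [hbound y hy hys hy1]; linarith)
    have h2 : Phi h 1 (-c) ≤ d := by
      refine (Phi_lipschitz h (neg_mem hcM) (neg_mem hy) hcs.neg hys.neg 1).trans ?_
      rw [hbound (-y) (neg_mem hy) hys.neg (by rwa [norm_neg]), zero_add,
        show -c - -y = -(c - y) by abel, map_neg, norm_neg]
      exact hcy
    rw [hcle, posBelow_eq_neg (-1) hcs, neg_neg,
      show c - posAbove 1 c + posAbove 1 (-c) - y
        = (c - y) - posAbove 1 c + posAbove 1 (-c) by abel, map_add, map_sub]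
    refine (norm_add_le _ _).trans ?_
    have h3 := norm_sub_le (h.V (c - y)) (h.V (posAbove 1 c))
    unfold Phi at h1 h2
    linarith
  -- a polynomial in place of the clamp
  obtain ⟨P, hP⟩ := exists_polynomial_near_of_continuousOn (-‖c‖) ‖c‖
    (fun s : ℝ => max (-1) (min s 1)) (by fun_prop) d hd
  obtain ⟨w, hw⟩ : ∃ w : H →L[ℂ] H, w = aeval c P := ⟨_, rfl⟩
  have hwS : w ∈ spanN M A := hw ▸ aeval_mem_spanN hcS P
  have hwM := spanN_le hA hwS
  have hwc : w = cfc (fun s => P.eval s) c := by rw [hw, cfc_polynomial P c hcs]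
  have hws : IsSelfAdjoint w := hwc ▸ cfc_predicate _ c
  have hwcl : ‖w - cl‖ ≤ d := by
    rw [hwc, hcl, ← cfc_sub _ _ c]
    refine norm_cfc_le hd.le fun s hs => ?_
    have h1 := norm_apply_le_norm_cfc (fun s : ℝ => s) c hs
    rw [cfc_id' ℝ c, Real.norm_eq_abs, abs_le] at h1
    rw [Real.norm_eq_abs]
    exact (hP s ⟨h1.1, h1.2⟩).le
  have hw1 : ‖w‖ ≤ 1 + d := by
    have h1 : ‖cl‖ ≤ 1 := hcl ▸ norm_cfc_le zero_le_one fun s _ => by
      rw [Real.norm_eq_abs, abs_le]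
      exact ⟨le_max_left _ _, max_le (by norm_num) (min_le_right _ _)⟩
    have := norm_le_insert' w cl
    linarith
  have hwy : ‖h.V (w - y)‖ ≤ 4 * d := by
    rw [show w - y = (w - cl) + (cl - y) by abel, map_add]
    refine (norm_add_le _ _).trans ?_
    have := (norm_V_le h (w - cl)).trans hwcl
    linarith
  -- the cut making the expectation small
  have hEA := expect_mem hA hwM
  have hE : ‖h.V (expect A w)‖ ≤ 4 * d := by
    have h1 := norm_V_expect_le hA h (sub_mem hwM hy)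
    rw [expect_sub, hy0, sub_zero] at h1
    exact h1.trans hwy
  obtain ⟨k, hkM, hk, hkE, hkV, hkc⟩ :=
    exists_cut_trace h (expect_isSelfAdjoint hws) (hA.le _ hEA) hθ
  have hkA : k ∈ A := hA.mem_of_commute hkM fun a ha => (hkc a (hA.comm _ hEA a ha)).eq
  have hkS : k ∈ spanN M A := by
    simpa using mem_spanN hkA (IsNormaliser.one (M := M) (A := A))
  obtain ⟨u, hu⟩ : ∃ u : H →L[ℂ] H, u = k * w * k - k * expect A w * k := ⟨_, rfl⟩
  have hES : expect A w ∈ spanN M A := by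
    simpa using mem_spanN hEA (IsNormaliser.one (M := M) (A := A))
  have huS : u ∈ spanN M A :=
    hu ▸ sub_mem (mul_mem_spanN (mul_mem_spanN hkS hwS) hkS)
      (mul_mem_spanN (mul_mem_spanN hkS hES) hkS)
  have hus : IsSelfAdjoint u := by
    rw [hu, IsSelfAdjoint, star_sub]
    simp only [star_mul, hk.isSelfAdjoint.star_eq, hws.star_eq,
      (expect_isSelfAdjoint (A := A) hws).star_eq, mul_assoc]
  have huE : expect A u = 0 := by
    rw [hu, expect_sub, expect_mul_right hA hkA, expect_mul_left hA hkA,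
      expect_self hA (mul_mem (mul_mem hkA hEA) hkA), sub_self]
  have hk1 := norm_sa_proj_le hk
  have hun : ‖u‖ ≤ 1 + d + θ := by
    rw [hu]
    refine (norm_sub_le _ _).trans (add_le_add ?_ ?_)
    · refine ((norm_mul_le _ _).trans (mul_le_of_le_one_right (norm_nonneg _) hk1)).trans ?_
      exact ((norm_mul_le _ _).trans (mul_le_of_le_one_left (norm_nonneg _) hk1)).trans hw1
    · rw [mul_assoc]
      refine ((norm_mul_le _ _).trans (mul_le_of_le_one_left (norm_nonneg _) hk1)).trans ?_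
      refine ContinuousLinearMap.opNorm_le_bound _ hθ.le fun v => ?_
      rw [mul_apply']
      exact (hkE v).trans (mul_le_mul_of_nonneg_left (proj_apply_norm_le hk v) hθ.le)
  have h1k : ‖h.V (1 - k)‖ ≤ θ / 4 := by
    have : θ * ‖h.V (1 - k)‖ ≤ θ * (θ / 4) := by nlinarith
    exact le_of_mul_le_mul_left this hθ
  have huy : ‖h.V (u - y)‖ ≤ 8 * d + θ := by
    have e : u - y = (k - 1) * w * k + w * (k - 1) + (w - y) - k * expect A w * k := by
      rw [hu]; noncomm_ring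
    have hk' : ‖h.V (k - 1)‖ ≤ θ / 4 := by rw [← neg_sub, map_neg, norm_neg]; exact h1k
    have a1 : ‖h.V ((k - 1) * w * k)‖ ≤ (1 + d) * (θ / 4) := by
      refine (norm_V_mul_right_le h hkM (mul_mem (sub_mem hkM (one_mem M)) hwM)).trans ?_
      refine (mul_le_of_le_one_left (norm_nonneg _) hk1).trans ?_
      refine (norm_V_mul_right_le h hwM (sub_mem hkM (one_mem M))).trans ?_
      exact mul_le_mul hw1 hk' (norm_nonneg _) (by positivity)
    have a2 : ‖h.V (w * (k - 1))‖ ≤ (1 + d) * (θ / 4) :=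
      (norm_V_mul_left_le h _ _).trans (mul_le_mul hw1 hk' (norm_nonneg _) (by positivity))
    have a3 : ‖h.V (k * expect A w * k)‖ ≤ 4 * d := by
      refine (norm_V_mul_right_le h hkM (mul_mem hkM (hA.le _ hEA))).trans ?_
      refine (mul_le_of_le_one_left (norm_nonneg _) hk1).trans ?_
      exact ((norm_V_mul_left_le h _ _).trans (mul_le_of_le_one_left (norm_nonneg _) hk1)).trans hE
    rw [e, map_sub, map_add, map_add]
    refine (norm_sub_le _ _).trans ?_
    have a4 := norm_add₃_le (a := h.V ((k - 1) * w * k)) (b := h.V (w * (k - 1)))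
      (c := h.V (w - y))
    nlinarith
  -- normalisation
  obtain ⟨s, hs⟩ : ∃ s : ℝ, s = (1 + d + θ)⁻¹ := ⟨_, rfl⟩
  have hs0 : 0 < s := hs ▸ by positivity
  have hns : ‖(s : ℂ)‖ = s := by rw [Complex.norm_real, Real.norm_of_nonneg hs0.le]
  refine ⟨(s : ℂ) • u, Submodule.smul_mem _ _ huS, ?_, ?_, ?_, ?_⟩
  · rw [IsSelfAdjoint, star_smul, hus.star_eq, RCLike.star_def, Complex.conj_ofReal]
  · rw [norm_smul, hns, hs, inv_mul_le_iff₀ (by positivity), mul_one]
    exact hun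
  · rw [expect_smul, huE, smul_zero]
  · rw [show (s : ℂ) • u - y = (s : ℂ) • (u - y) - (1 - (s : ℂ)) • y by module, map_sub, map_smul,
      map_smul]
    refine (norm_sub_le _ _).trans ?_
    have hs1 : s ≤ 1 := hs ▸ inv_le_one_of_one_le₀ (by linarith)
    have hn1 : ‖(1 - (s : ℂ))‖ = 1 - s := by
      rw [show (1 - (s : ℂ)) = ((1 - s : ℝ) : ℂ) by push_cast; rfl, Complex.norm_real,
        Real.norm_of_nonneg (by linarith)]
    have hs2 : 1 - s ≤ d + θ := by
      rw [hs, sub_le_iff_le_add, ← sub_le_iff_le_add', inv_eq_one_div,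
        le_div_iff₀ (by positivity)]
      nlinarith
    have hyV := (norm_V_le h y).trans hy1
    rw [norm_smul, norm_smul, hns, hn1]
    have := mul_le_mul hs1 huy (norm_nonneg _) zero_le_one
    have := mul_le_mul hs2 hyV (norm_nonneg _) (by positivity)
    nlinarith

/-- From small two-norms outside `[-lam, lam]` to a compression. -/
theorem exists_compression (h : IsTrace M η) {S : H →L[ℂ] H} (hS : S ∈ M) (hSs : IsSelfAdjoint S)
    {lam θ : ℝ} (hlam : 0 ≤ lam) (hθ : 0 < θ) :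
    ∃ k ∈ M, IsStarProjection k ∧ ‖k * S * k‖ ≤ lam + θ ∧
      θ * ‖h.V (1 - k)‖ ≤ Phi h lam S + Phi h lam (-S) := by
  obtain ⟨P, hP⟩ : ∃ P, P = posAbove lam S := ⟨_, rfl⟩
  obtain ⟨N, hN⟩ : ∃ N, N = posBelow (-lam) S := ⟨_, rfl⟩
  have hPs : IsSelfAdjoint P := hP ▸ cfc_predicate _ S
  have hNs : IsSelfAdjoint N := hN ▸ cfc_predicate _ S
  obtain ⟨k, hkM, hk, hkW, hkV, -⟩ := exists_cut_trace h (Y := P + N) (hPs.add hNs)
    (add_mem (hP ▸ vn_cfc_mem hS _) (hN ▸ vn_cfc_mem hS _)) hθ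
  refine ⟨k, hkM, hk, ?_, ?_⟩
  · obtain ⟨C, hC⟩ : ∃ C, C = cfc (fun s : ℝ => max (-lam) (min s lam)) S := ⟨_, rfl⟩
    have hdec : S = C + (P - N) := by
      rw [hC, hP, hN, posAbove, posBelow]
      conv_lhs => rw [← cfc_id' ℝ S hSs]
      rw [← cfc_sub _ _ S, ← cfc_add S _ _]
      refine cfc_congr fun s _ => ?_
      rcases le_total s (-lam) with h1 | h1
      · rw [min_eq_left (by linarith), max_eq_left h1, max_eq_right (by linarith : s - lam ≤ 0),
          max_eq_left (by linarith : 0 ≤ -lam - s)]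
        ring
      · rcases le_total s lam with h2 | h2
        · rw [min_eq_left h2, max_eq_right h1, max_eq_right (by linarith : s - lam ≤ 0),
            max_eq_right (by linarith : -lam - s ≤ 0)]
          ring
        · rw [min_eq_right h2, max_eq_right (by linarith : -lam ≤ lam),
            max_eq_left (by linarith : 0 ≤ s - lam), max_eq_right (by linarith : -lam - s ≤ 0)]
          ring
    have hCn : ‖C‖ ≤ lam := hC ▸ norm_cfc_le hlam fun s _ => by
      rw [Real.norm_eq_abs, abs_le]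
      exact ⟨le_max_left _ _, max_le (by linarith) (min_le_right _ _)⟩
    have hPN : P * N = 0 := by
      rw [hP, hN, posAbove, posBelow, ← cfc_mul _ _ S]
      refine (cfc_congr fun s _ => ?_).trans (cfc_const_zero ℝ S)
      rcases le_total s lam with h | h
      · rw [max_eq_right (by linarith : s - lam ≤ 0), zero_mul]
      · rw [max_eq_right (by linarith : -lam - s ≤ 0), mul_zero]
    have hnorm : ∀ w, ‖(P - N) w‖ = ‖(P + N) w‖ := fun w => by
      have h0 : ⟪P w, N w⟫_ℂ = 0 := by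
        rw [sa_inner hPs, ← mul_apply', hPN]; simp
      have e1 := @norm_sub_sq ℂ _ _ _ _ (P w) (N w)
      have e2 := @norm_add_sq ℂ _ _ _ _ (P w) (N w)
      rw [h0] at e1 e2
      simp only [map_zero, mul_zero, sub_zero, add_zero] at e1 e2
      simp only [sub_apply, add_apply]
      exact (pow_left_inj₀ (norm_nonneg _) (norm_nonneg _) two_ne_zero).1 (e1.trans e2.symm)
    refine ContinuousLinearMap.opNorm_le_bound _ (by positivity) fun v => ?_
    rw [mul_apply', mul_apply']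
    refine (proj_apply_norm_le hk _).trans ?_
    rw [hdec, add_apply]
    refine (norm_add_le _ _).trans ?_
    rw [hnorm, add_mul]
    have hkv := proj_apply_norm_le hk v
    exact add_le_add ((C.le_opNorm _).trans (mul_le_mul hCn hkv (norm_nonneg _) hlam))
      ((hkW v).trans (mul_le_mul_of_nonneg_left hkv hθ.le))
  · refine hkV.trans ?_
    rw [map_add]
    refine (norm_add_le _ _).trans (le_of_eq ?_)
    rw [hP, hN, posBelow_eq_neg (-lam) hSs, neg_neg]
    rfl

/-- A partition exists with any positive number of pieces. -/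
theorem exists_trivial_partition {r : ℕ} (hr : 0 < r) :
    ∃ p : Fin r → (H →L[ℂ] H), IsPartition A p := by
  refine ⟨fun i => if i = ⟨0, hr⟩ then 1 else 0, fun i => ?_, fun i => ?_, fun i j hij => ?_, ?_⟩
  · split_ifs
    · exact one_mem A
    · exact zero_mem A
  · split_ifs
    · exact IsStarProjection.one _
    · exact IsStarProjection.zero _
  · split_ifs with h1 h2
    · exact absurd (h1.trans h2.symm) hij
    all_goals simp
  · simp

/-- So-paving of regular MASAs in finite algebras from the two-sided bound. -/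
theorem allSoPavable_of_sides {N : ℕ → ℕ} {lvl : ℕ → ℝ} (hS : SidesBound N lvl)
    (hA : IsMasa M A) (hT : HasFiniteTrace M) (hreg : IsRegularMasa M A) {ε : ℝ} {r : ℕ}
    (hr : 0 < r) (hN : 0 < N r) (hlvl : 0 ≤ lvl r) (hε : 2 * lvl r < ε) :
    AllSoPavable M A ε (N r) := by
  intro x hx hxs F δ hδ
  obtain ⟨ι, η₀, hsum, hsym, hfaith⟩ := hT
  have hε0 : 0 < ε := by linarith
  have triv : ∀ _ : x = 0, ∃ p : Fin (N r) → (H →L[ℂ] H), IsPartition A p ∧
      ∃ a ∈ A, IsSelfAdjoint a ∧ ‖a‖ ≤ ‖x‖ ∧ ∃ q ∈ M, IsStarProjection q ∧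
        (∀ ξ ∈ F, ‖(1 - q) ξ‖ < δ) ∧ ‖q * (pinching p x - a) * q‖ ≤ ε * ‖x‖ := by
    intro hx0
    obtain ⟨p, hp⟩ := exists_trivial_partition (A := A) hN
    refine ⟨p, hp, 0, zero_mem A, IsSelfAdjoint.zero _, by simp, 1, one_mem M,
      IsStarProjection.one _, fun ξ _ => by simpa using hδ, ?_⟩
    simp [hx0, pinching]
  rcases eq_or_ne x 0 with hx0 | hx0
  · exact triv hx0
  obtain ⟨m, hm⟩ : ∃ m : ℝ, m = ∑' i, ‖η₀ i‖ ^ 2 := ⟨_, rfl⟩
  have hm0 : 0 < m := by
    refine lt_of_le_of_ne (hm ▸ tsum_nonneg fun i => sq_nonneg _) fun e => hx0 ?_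
    refine hfaith x hx fun i => ?_
    have := (hasSum_zero_iff_of_nonneg fun i => sq_nonneg ‖η₀ i‖).1 (e ▸ hm ▸ hsum.hasSum)
    have h0 : η₀ i = 0 := by simpa using congrFun this i
    rw [h0, map_zero]
  obtain ⟨c, hc⟩ : ∃ c : ℝ, c = (Real.sqrt m)⁻¹ := ⟨_, rfl⟩
  have hc0 : 0 < c := hc ▸ by positivity
  have hc2 : ∀ v : H, ‖(c : ℂ) • v‖ ^ 2 = m⁻¹ * ‖v‖ ^ 2 := fun v => by
    rw [norm_smul, mul_pow, Complex.norm_real, Real.norm_eq_abs, sq_abs, hc, inv_pow,
      Real.sq_sqrt hm0.le]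
  have h : IsTrace M (fun i => (c : ℂ) • η₀ i) := by
    refine ⟨?_, ?_, fun z hz => ?_, fun z hz h0 => hfaith z hz fun i => ?_⟩
    · simp only [hc2]; exact hsum.mul_left _
    · simp only [hc2]; rw [tsum_mul_left, ← hm, inv_mul_cancel₀ hm0.ne']
    · simp only [map_smul, hc2, tsum_mul_left, hsym z hz]
    · have := h0 i
      rw [map_smul, smul_eq_zero] at this
      exact this.resolve_left (by exact_mod_cast hc0.ne')
  obtain ⟨lam, hlam1, hlam2⟩ : ∃ lam, lvl r < lam ∧ 2 * lam < ε :=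
    ⟨(lvl r + ε / 2) / 2, by linarith, by linarith⟩
  obtain ⟨θ, hθ, hθε⟩ : ∃ θ, 0 < θ ∧ 2 * (lam + θ) ≤ ε := ⟨(ε - 2 * lam) / 2, by linarith, by linarith⟩
  -- the centred normalised element
  have hmx : 0 < ‖x‖ := norm_pos_iff.2 hx0
  obtain ⟨a, ha⟩ : ∃ a, a = expect A x := ⟨_, rfl⟩
  have haA : a ∈ A := ha ▸ expect_mem hA hx
  have has : IsSelfAdjoint a := ha ▸ expect_isSelfAdjoint hxs
  have han : ‖a‖ ≤ ‖x‖ := ha ▸ expect_norm_le x
  obtain ⟨y, hy⟩ : ∃ y : H →L[ℂ] H, y = ((2 * ‖x‖)⁻¹ : ℝ) • (x - a) := ⟨_, rfl⟩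
  rw [← Complex.coe_smul] at hy
  have hyM : y ∈ M := hy ▸ vn_smul_mem _ (sub_mem hx (hA.le a haA))
  have hys : IsSelfAdjoint y := by
    rw [hy, IsSelfAdjoint, star_smul, (hxs.sub has).star_eq, RCLike.star_def, Complex.conj_ofReal]
  have hy1 : ‖y‖ ≤ 1 := by
    rw [hy, norm_smul, Complex.norm_real, Real.norm_of_nonneg (by positivity),
      inv_mul_le_iff₀ (by positivity), mul_one]
    exact (norm_sub_le _ _).trans (by linarith)
  have hy0 : expect A y = 0 := by
    rw [hy, expect_smul, expect_sub, expect_self hA haA, ← ha, sub_self, smul_zero]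
  obtain ⟨γ, hγ, hsmall⟩ := strong_small h F hδ
  obtain ⟨z, hzS, hzs, hz1, hz0, hzy⟩ :=
    exists_spanN_centred hA hreg h hyM hys hy1 hy0 (γ := θ * γ / 4) (by positivity)
  obtain ⟨p, hp, hp1, hp2⟩ := hS H M A ι _ hA h z hzS hzs hz1 hz0 r hr lam (θ * γ / 4) hlam1
    (by positivity)
  have hzM := spanN_le hA hzS
  have hpM : ∀ i, p i ∈ M := fun i => hA.le _ (hp.mem i)
  obtain ⟨S, hSdef⟩ : ∃ S, S = pinching p y := ⟨_, rfl⟩
  have hSM : S ∈ M := hSdef ▸ pinching_mem hA hp hyM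
  have hSs : IsSelfAdjoint S := hSdef ▸ pinching_isSelfAdjoint hp hys
  have hclose : ‖h.V (S - pinching p z)‖ ≤ θ * γ / 4 := by
    rw [hSdef, ← pinching_sub]
    refine (norm_V_pinching_le h hpM hp.proj hp.orth (sub_mem hyM hzM)).trans ?_
    rw [← neg_sub, map_neg, norm_neg]
    exact hzy
  have hΦ1 : Phi h lam S ≤ θ * γ / 2 :=
    (Phi_lipschitz h hSM (pinching_mem hA hp hzM) hSs (pinching_isSelfAdjoint hp hzs) lam).trans
      (by linarith)
  have hΦ2 : Phi h lam (-S) ≤ θ * γ / 2 := by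
    refine (Phi_lipschitz h (neg_mem hSM) (neg_mem (pinching_mem hA hp hzM)) hSs.neg
      (pinching_isSelfAdjoint hp hzs).neg lam).trans ?_
    rw [show -S - -pinching p z = -(S - pinching p z) by abel, map_neg, norm_neg]
    linarith
  obtain ⟨k, hkM, hk, hkS, hkV⟩ := exists_compression h hSM hSs (by linarith : 0 ≤ lam) hθ
  refine ⟨p, hp, a, haA, has, han, k, hkM, hk, fun ξ hξ => ?_, ?_⟩
  · refine hsmall _ (sub_mem (one_mem M) hkM) (norm_sa_proj_le hk.one_sub) ?_ ξ hξ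
    have : θ * ‖h.V (1 - k)‖ ≤ θ * γ := by linarith
    exact le_of_mul_le_mul_left this hθ
  · have e : pinching p x - a = ((2 * ‖x‖ : ℝ) : ℂ) • S := by
      rw [hSdef, hy, pinching_smul, pinching_sub, pinching_self hA hp haA, smul_smul,
        ← Complex.ofReal_mul, mul_inv_cancel₀ (by positivity), Complex.ofReal_one, one_smul]
    rw [e, mul_smul_comm, smul_mul_assoc, norm_smul, Complex.norm_real,
      Real.norm_of_nonneg (by positivity)]
    calc 2 * ‖x‖ * ‖k * S * k‖ ≤ 2 * ‖x‖ * (lam + θ) :=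
          mul_le_mul_of_nonneg_left hkS (by positivity)
      _ ≤ ε * ‖x‖ := by nlinarith

/-- The bound of one colouring: `2 (1/√r + √(1/2))² - 1`. -/
noncomputable def lvlFour (r : ℕ) : ℝ := 2 * (1 / Real.sqrt r + Real.sqrt (1 / 2)) ^ 2 - 1

/-- A polynomial with small trace bounds the two-norm above the level. -/
theorem Phi_sq_le_of_poly (h : IsTrace M η) {S : H →L[ℂ] H} (hSM : S ∈ M) (hSs : IsSelfAdjoint S)
    (hspS : ∀ s ∈ spectrum ℝ S, s ∈ Set.Icc (0 : ℝ) 1) {t δ : ℝ} (ht0 : 0 ≤ t) {f : ℝ[X]}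
    (hf0 : ∀ x ∈ Set.Icc (0 : ℝ) 1, -δ ≤ f.eval x) (hδ : 0 ≤ δ)
    (hf1 : ∀ x ∈ Set.Icc t 1, 1 ≤ f.eval x) (htau : (tau h (aeval S f)).re ≤ δ) :
    Phi h t S ^ 2 ≤ 2 * δ := by
  have hle : posAbove t S * posAbove t S ≤ aeval S f + algebraMap ℝ (H →L[ℂ] H) δ := by
    rw [posAbove, ← cfc_mul _ _ S, ← cfc_polynomial f S hSs, ← cfc_add_const δ _ S]
    refine cfc_mono fun s hs => ?_
    obtain ⟨h0, h1⟩ := hspS s hs
    have hf := hf0 s ⟨h0, h1⟩
    rcases le_total s t with hst | hst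
    · rw [max_eq_right (by linarith : s - t ≤ 0)]; linarith
    · rw [max_eq_left (by linarith : 0 ≤ s - t)]
      have := hf1 s ⟨hst, h1⟩
      nlinarith
  have haM : aeval S f ∈ M := by rw [← cfc_polynomial f S hSs]; exact vn_cfc_mem hSM _
  have halg : algebraMap ℝ (H →L[ℂ] H) δ ∈ M := by
    rw [← cfc_const δ S hSs]; exact vn_cfc_mem hSM _
  have h1 := re_tau_mono h (mul_mem (posAbove_mem hSM t) (posAbove_mem hSM t))
    (add_mem haM halg) hle
  have e1 : (tau h (posAbove t S * posAbove t S)).re = Phi h t S ^ 2 := by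
    conv_lhs =>
      arg 1; arg 2; arg 1
      rw [← (IsSelfAdjoint.of_nonneg (posAbove_nonneg t S)).star_eq]
    rw [tau_star_mul]
    exact inner_self_eq_norm_sq (𝕜 := ℂ) _
  have e2 : (tau h (algebraMap ℝ (H →L[ℂ] H) δ)).re = δ := by
    rw [Algebra.algebraMap_eq_smul_one, ← Complex.coe_smul, tau, map_smul, inner_smul_right,
      inner_self_eq_norm_sq_to_K, norm_V_one]
    simp
  rw [e1, tau, map_add, inner_add_right, Complex.add_re] at h1
  unfold tau at e2 htau
  linarith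

/-- The positive contraction `(1 + x) / 2`. -/
noncomputable def halfUp (x : H →L[ℂ] H) : H →L[ℂ] H := (1 / 2 : ℂ) • (1 + x)

theorem halfUp_bounds {x : H →L[ℂ] H} (hxs : IsSelfAdjoint x) (hx1 : ‖x‖ ≤ 1) :
    0 ≤ halfUp x ∧ halfUp x ≤ 1 := by
  have hspec : ∀ t ∈ spectrum ℝ x, -1 ≤ t ∧ t ≤ 1 := fun t ht => by
    have h1 := norm_apply_le_norm_cfc (fun s : ℝ => s) x ht
    rw [cfc_id' ℝ x, Real.norm_eq_abs, abs_le] at h1
    exact ⟨by linarith, by linarith⟩
  have hGc : halfUp x = cfc (fun s : ℝ => (1 + s) / 2) x := by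
    have e : (fun s : ℝ => (1 + s) / 2) = fun s => (1 / 2 : ℝ) • (1 + s) := by
      funext s; simp; ring
    rw [e, cfc_smul (1 / 2 : ℝ) (fun s => 1 + s) x, cfc_const_add (1 : ℝ) (fun s => s) x,
      cfc_id' ℝ x, map_one, halfUp, ← Complex.coe_smul]
    norm_num
  exact ⟨hGc ▸ cfc_nonneg fun t ht => by linarith [hspec t ht],
    hGc ▸ cfc_le_one _ _ fun t ht => by linarith [hspec t ht]⟩

theorem halfUp_mem_spanN {x : H →L[ℂ] H} (hx : x ∈ spanN M A) : halfUp x ∈ spanN M A :=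
  Submodule.smul_mem _ _ (add_mem one_mem_spanN hx)

theorem ph_halfUp [AbelianClosed A] (hA : IsMasa M A) {x : H →L[ℂ] H} (hxM : x ∈ M)
    (hx0 : expect A x = 0) (ω : Spec A) : ph ω (halfUp x) = 1 / 2 := by
  rw [halfUp, ph_smul ω hA _ (add_mem (one_mem M) hxM), ph_add ω hA (one_mem M) hxM,
    ph_self ω hA (one_mem A), chi_one, ph, hx0, chi_zero, add_zero, mul_one]

theorem pinching_unit_interval {r : ℕ} {p : Fin r → (H →L[ℂ] H)} (hp : IsPartition A p)
    {G : H →L[ℂ] H} (hG0 : 0 ≤ G) (hG1 : G ≤ 1) :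
    ∀ s ∈ spectrum ℝ (pinching p G), s ∈ Set.Icc (0 : ℝ) 1 := by
  have hSs := pinching_isSelfAdjoint hp (IsSelfAdjoint.of_nonneg hG0)
  have hsand : ∀ i, star (p i) = p i := fun i => (hp.proj i).isSelfAdjoint.star_eq
  have hS0 : 0 ≤ pinching p G := Finset.sum_nonneg fun i _ => by
    simpa [hsand i] using star_left_conjugate_nonneg hG0 (p i)
  have hS1 : pinching p G ≤ 1 := by
    rw [← hp.sum_eq]
    refine Finset.sum_le_sum fun i _ => ?_
    have h2 := star_left_conjugate_le_conjugate hG1 (p i)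
    simpa [hsand i, (hp.proj i).isIdempotentElem.eq] using h2
  exact fun s hs => ⟨spectrum_nonneg_of_nonneg hS0 hs, (le_algebraMap_iff_spectrum_le hSs).1
    (by rwa [map_one]) s hs⟩

theorem Phi_two_sided_le (hA : IsMasa M A) (h : IsTrace M η) {x : H →L[ℂ] H} (hxM : x ∈ M)
    (hxs : IsSelfAdjoint x) (hx1 : ‖x‖ ≤ 1) {r : ℕ} {p : Fin r → (H →L[ℂ] H)}
    (hp : IsPartition A p) {lam : ℝ} :
    Phi h lam (pinching p x) ≤ 2 * Phi h ((lam + 1) / 2) (pinching p (halfUp x)) := by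
  have hG0 := (halfUp_bounds hxs hx1).1
  have hGM : halfUp x ∈ M := vn_smul_mem _ (add_mem (one_mem M) hxM)
  obtain ⟨S, hS⟩ : ∃ S, S = pinching p (halfUp x) := ⟨_, rfl⟩
  have hSM : S ∈ M := hS ▸ pinching_mem hA hp hGM
  have hSs : IsSelfAdjoint S := hS ▸ pinching_isSelfAdjoint hp (IsSelfAdjoint.of_nonneg hG0)
  rw [← hS]
  have hle2 : pinching p x - algebraMap ℝ (H →L[ℂ] H) lam
      ≤ (2 : ℝ) • posAbove ((lam + 1) / 2) S := by
    have e : pinching p x - algebraMap ℝ (H →L[ℂ] H) lam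
        = (2 : ℝ) • (S - algebraMap ℝ (H →L[ℂ] H) ((lam + 1) / 2)) := by
      rw [hS, halfUp, pinching_smul, pinching_add, pinching_self hA hp (one_mem A),
        Algebra.algebraMap_eq_smul_one, Algebra.algebraMap_eq_smul_one, ← Complex.coe_smul,
        ← Complex.coe_smul, ← Complex.coe_smul]
      push_cast
      module
    rw [e]
    exact smul_le_smul_of_nonneg_left (sub_le_posAbove hSs _) two_pos.le
  have h2M : (2 : ℝ) • posAbove ((lam + 1) / 2) S ∈ M := by
    rw [← Complex.coe_smul]; exact vn_smul_mem _ (posAbove_mem hSM _)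
  refine (Phi_le_of_le h (pinching_mem hA hp hxM) (pinching_isSelfAdjoint hp hxs) h2M lam
    hle2).trans (le_of_eq ?_)
  rw [← Complex.coe_smul, map_smul, norm_smul]
  simp [Phi]

/-- A partition killing the spectrum of the pinching of one side above the level. -/
theorem exists_side (core : CoreStatement) [AbelianClosed A] (hA : IsMasa M A) (h : IsTrace M η)
    {x : H →L[ℂ] H} (hx : x ∈ spanN M A) (hxs : IsSelfAdjoint x) (hx1 : ‖x‖ ≤ 1)
    (hx0 : expect A x = 0) {r : ℕ} (hr : 0 < r) {lam δ : ℝ} (hlam : lvlFour r < lam) (hδ : 0 < δ) :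
    ∃ p : Fin r → (H →L[ℂ] H), IsPartition A p ∧ Phi h lam (pinching p x) ≤ δ := by
  have hxM := spanN_le hA hx
  obtain ⟨hG0, hG1⟩ := halfUp_bounds hxs hx1
  have htlvl : (1 / Real.sqrt r + Real.sqrt (1 / 2)) ^ 2 < (lam + 1) / 2 := by
    unfold lvlFour at hlam; linarith
  have ht0 : 0 ≤ (lam + 1) / 2 := (sq_nonneg _).trans htlvl.le
  obtain ⟨f, hf0, hf1, p, hp, htau⟩ :=
    exists_partition_poly core hA h (halfUp_mem_spanN hx) hG0 hG1 hr (α := 1 / 2) (by norm_num)
      (fun ω => by rw [ph_halfUp hA hxM hx0]; norm_num) htlvl (δ := δ ^ 2 / 8) (by positivity)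
  refine ⟨p, hp, (Phi_two_sided_le hA h hxM hxs hx1 hp).trans ?_⟩
  have h2 := Phi_sq_le_of_poly h (pinching_mem hA hp (spanN_le hA (halfUp_mem_spanN hx)))
    (pinching_isSelfAdjoint hp (IsSelfAdjoint.of_nonneg hG0)) (pinching_unit_interval hp hG0 hG1)
    ht0 hf0 (by positivity) hf1 htau
  have := Phi_nonneg h ((lam + 1) / 2) (pinching p (halfUp x))
  nlinarith

/-- Two colourings, one for each side. -/
theorem sidesBound_four (core : CoreStatement) : SidesBound (fun r => r * r) lvlFour := by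
  intro H _ _ _ M A ι η hA h x hx hxs hx1 hx0 r hr lam δ hlam hδ
  have := hA.abelianClosed
  obtain ⟨p, hp, hp'⟩ := exists_side core hA h hx hxs hx1 hx0 hr hlam hδ
  obtain ⟨q, hq, hq'⟩ := exists_side core hA h (neg_mem hx) hxs.neg (by rwa [norm_neg])
    (by rw [← neg_one_smul ℂ x, expect_smul, hx0, smul_zero]) hr hlam hδ
  obtain ⟨c, hc⟩ : ∃ c : Fin (r * r) → (H →L[ℂ] H),
      c = fun i => p (finProdFinEquiv.symm i).1 * q (finProdFinEquiv.symm i).2 := ⟨_, rfl⟩
  have hcm : ∀ i j, p i * q j = q j * p i := fun i j => hA.comm _ (hp.mem i) _ (hq.mem j)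
  have hpc : IsPartition A c := by
    rw [hc]
    refine ⟨fun i => mul_mem (hp.mem _) (hq.mem _),
      fun i => (hp.proj _).mul (hq.proj _) (hcm _ _), fun i j hij => ?_, ?_⟩
    · have hne : finProdFinEquiv.symm i ≠ finProdFinEquiv.symm j := fun e => hij
        (finProdFinEquiv.symm.injective e)
      revert hne
      generalize finProdFinEquiv.symm i = ij
      generalize finProdFinEquiv.symm j = kl
      obtain ⟨i₁, i₂⟩ := ij
      obtain ⟨j₁, j₂⟩ := kl
      intro hne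
      show p i₁ * q i₂ * (p j₁ * q j₂) = 0
      rw [mul_assoc, ← mul_assoc (q i₂), ← hcm, mul_assoc, ← mul_assoc (p i₁)]
      by_cases h1 : i₁ = j₁
      · rw [hq.orth i₂ j₂ (fun h2 => hne (by rw [h1, h2])), mul_zero]
      · rw [hp.orth i₁ j₁ h1, zero_mul]
    · rw [Equiv.sum_comp finProdFinEquiv.symm (fun i => p i.1 * q i.2), Fintype.sum_prod_type]
      simp only [← Finset.mul_sum, hq.sum_eq, mul_one, hp.sum_eq]
  have hcomp : ∀ z, pinching c z = pinching q (pinching p z) ∧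
      pinching c z = pinching p (pinching q z) := by
    intro z
    have e : pinching c z = ∑ i, ∑ j, p i * q j * z * (p i * q j) := by
      simp only [hc, pinching]
      rw [Equiv.sum_comp finProdFinEquiv.symm (fun i => p i.1 * q i.2 * z * (p i.1 * q i.2)),
        Fintype.sum_prod_type]
    constructor
    · rw [e, Finset.sum_comm]
      simp only [pinching, Finset.mul_sum, Finset.sum_mul]
      refine Finset.sum_congr rfl fun j _ => Finset.sum_congr rfl fun i _ => ?_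
      conv_lhs => arg 1; rw [hcm]
      simp only [mul_assoc]
    · rw [e]
      simp only [pinching, Finset.mul_sum, Finset.sum_mul]
      refine Finset.sum_congr rfl fun i _ => Finset.sum_congr rfl fun j _ => ?_
      conv_lhs => arg 2; rw [hcm]
      simp only [mul_assoc]
  have hxM := spanN_le hA hx
  refine ⟨c, hpc, ?_, ?_⟩
  · rw [(hcomp x).1]
    exact (Phi_pinching_le h (fun i => hA.le _ (hq.mem i)) hq.proj hq.orth hq.sum_eq
      (pinching_mem hA hp hxM) (pinching_isSelfAdjoint hp hxs) lam).trans hp'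
  · rw [(hcomp x).2, ← pinching_neg]
    refine (Phi_pinching_le h (fun i => hA.le _ (hp.mem i)) hp.proj hp.orth hp.sum_eq
      (neg_mem (pinching_mem hA hq hxM)) (pinching_isSelfAdjoint hq hxs).neg lam).trans ?_
    rwa [← pinching_neg]

/-- Regular MASAs of finite algebras have so-paving with `O(ε⁻⁴)` pieces, given the core. -/
theorem allSoPavable_regular (core : CoreStatement) (hA : IsMasa M A) (hT : HasFiniteTrace M)
    (hreg : IsRegularMasa M A) {ε : ℝ} (hε : 0 < ε) (hε1 : ε ≤ 1) :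
    ∃ r : ℕ, (r : ℝ) ≤ 22500 / ε ^ 4 ∧ AllSoPavable M A ε r := by
  obtain ⟨r, hr⟩ : ∃ r : ℕ, r = ⌈144 / ε ^ 2⌉₊ + 1 := ⟨_, rfl⟩
  have hr1 : (144 / ε ^ 2 : ℝ) < r := by
    rw [hr]; push_cast; linarith [Nat.le_ceil (144 / ε ^ 2 : ℝ)]
  have hr2 : (r : ℝ) ≤ 146 / ε ^ 2 := by
    have h1 := Nat.ceil_lt_add_one (show 0 ≤ 144 / ε ^ 2 by positivity)
    have h2 : (1 : ℝ) ≤ 1 / ε ^ 2 := by
      rw [le_div_iff₀ (by positivity)]; nlinarith
    rw [hr]; push_cast
    rw [show 146 / ε ^ 2 = 144 / ε ^ 2 + 2 * (1 / ε ^ 2) by ring]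
    linarith
  have hr0 : 0 < r := by omega
  refine ⟨r * r, ?_, allSoPavable_of_sides (sidesBound_four core) hA hT hreg hr0 (by positivity)
    ?_ ?_⟩
  · push_cast
    calc (r : ℝ) * r ≤ 146 / ε ^ 2 * (146 / ε ^ 2) := by gcongr
      _ ≤ 22500 / ε ^ 4 := by rw [div_mul_div_comm, ← pow_add]; gcongr; norm_num
  all_goals
    obtain ⟨u, hu⟩ : ∃ u : ℝ, u = 1 / Real.sqrt r := ⟨_, rfl⟩
    have hu0 : 0 ≤ u := hu ▸ by positivity
    have hu2 : u ^ 2 * r = 1 := by
      rw [hu, div_pow, one_pow, Real.sq_sqrt (by positivity), one_div, inv_mul_cancel₀]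
      positivity
    have hs : Real.sqrt (1 / 2) ^ 2 = 1 / 2 := Real.sq_sqrt (by norm_num)
    have hs0 := Real.sqrt_nonneg (1 / 2 : ℝ)
    have hs1 : Real.sqrt (1 / 2) ≤ 1 := by nlinarith
    unfold lvlFour
    rw [← hu]
  · nlinarith
  · have h1 : u ^ 2 * (144 / ε ^ 2) < 1 := by
      rw [← hu2]
      refine mul_lt_mul_of_pos_left hr1 ?_
      rcases hu0.eq_or_lt with e | e
      · rw [← e] at hu2; norm_num at hu2
      · positivity
    rw [mul_div_assoc', div_lt_one (by positivity)] at h1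
    have h2 : 12 * u < ε := by nlinarith
    nlinarith

end Vale.Agent.P078.Cartan
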