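import Vale.Agent.P078.Cartan.OperatorTrace

/-!
Normalisers of a MASA and two-norm density of the sums `∑ a * u`.
-/

namespace Vale.Agent.P078.Cartan

open scoped InnerProductSpace
open ContinuousLinearMap

variable {H : Type} [NormedAddCommGroup H] [InnerProductSpace ℂ H] [CompleteSpace H]
variable {M : VonNeumannAlgebra H} {A : StarSubalgebra ℂ (H →L[ℂ] H)} {ι : Type} {η : ι → H}

/-- A unitary of `M` normalising `A`. -/
structure IsNormaliser (M : VonNeumannAlgebra H) (A : StarSubalgebra ℂ (H →L[ℂ] H))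
    (u : H →L[ℂ] H) : Prop where
  mem : u ∈ M
  star_mul : star u * u = 1
  mul_star : u * star u = 1
  conj_mem : ∀ a ∈ A, star u * a * u ∈ A
  conj_mem' : ∀ a ∈ A, u * a * star u ∈ A

/-- `M` is generated by the unitaries normalising `A`: `A` is regular (Cartan) in `M`. -/
def IsRegularMasa (M : VonNeumannAlgebra H) (A : StarSubalgebra ℂ (H →L[ℂ] H)) : Prop :=
  ∀ z : H →L[ℂ] H, (∀ u, IsNormaliser M A u → z * u = u * z) → z ∈ M.commutant

namespace IsNormaliser

variable {u v : H →L[ℂ] H}

theorem one : IsNormaliser M A 1 :=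
  ⟨one_mem M, by simp, by simp, fun a ha => by simpa, fun a ha => by simpa⟩

theorem star' (hu : IsNormaliser M A u) : IsNormaliser M A (star u) :=
  ⟨star_mem hu.mem, by simpa using hu.mul_star, by simpa using hu.star_mul,
    fun a ha => by simpa using hu.conj_mem' a ha, fun a ha => by simpa using hu.conj_mem a ha⟩

theorem mul (hu : IsNormaliser M A u) (hv : IsNormaliser M A v) : IsNormaliser M A (u * v) := by
  refine ⟨mul_mem hu.mem hv.mem, ?_, ?_, fun a ha => ?_, fun a ha => ?_⟩
  · rw [StarMul.star_mul, mul_assoc, ← mul_assoc (star u), hu.star_mul, one_mul, hv.star_mul]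
  · rw [StarMul.star_mul, mul_assoc, ← mul_assoc v, hv.mul_star, one_mul, hu.mul_star]
  · simpa [StarMul.star_mul, mul_assoc] using hv.conj_mem _ (hu.conj_mem a ha)
  · simpa [StarMul.star_mul, mul_assoc] using hu.conj_mem' _ (hv.conj_mem' a ha)

theorem push (hu : IsNormaliser M A u) (a : H →L[ℂ] H) : a * u = u * (star u * a * u) := by
  rw [← mul_assoc, ← mul_assoc, hu.mul_star, one_mul]

theorem push' (hu : IsNormaliser M A u) (a : H →L[ℂ] H) : u * a = u * a * star u * u := by
  rw [mul_assoc, hu.star_mul, mul_one]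

end IsNormaliser

/-- The finite sums `∑ a * u`. -/
def spanN (M : VonNeumannAlgebra H) (A : StarSubalgebra ℂ (H →L[ℂ] H)) :
    Submodule ℂ (H →L[ℂ] H) :=
  Submodule.span ℂ {y | ∃ a ∈ A, ∃ u, IsNormaliser M A u ∧ y = a * u}

theorem spanN_le (hA : IsMasa M A) {x : H →L[ℂ] H} (hx : x ∈ spanN M A) : x ∈ M := by
  induction hx using Submodule.span_induction with
  | mem y hy => obtain ⟨a, ha, u, hu, rfl⟩ := hy; exact mul_mem (hA.le a ha) hu.mem
  | zero => exact zero_mem M
  | add y z _ _ hy hz => exact add_mem hy hz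
  | smul c y _ hy => exact vn_smul_mem c hy

theorem mem_spanN {a u : H →L[ℂ] H} (ha : a ∈ A) (hu : IsNormaliser M A u) :
    a * u ∈ spanN M A :=
  Submodule.subset_span ⟨a, ha, u, hu, rfl⟩

theorem one_mem_spanN : (1 : H →L[ℂ] H) ∈ spanN M A := by
  simpa using mem_spanN (one_mem A) (IsNormaliser.one (M := M) (A := A))

theorem mul_mem_spanN {x y : H →L[ℂ] H} (hx : x ∈ spanN M A) (hy : y ∈ spanN M A) :
    x * y ∈ spanN M A := by
  induction hx using Submodule.span_induction with
  | mem x hx =>
    obtain ⟨a, ha, u, hu, rfl⟩ := hx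
    induction hy using Submodule.span_induction with
    | mem y hy =>
      obtain ⟨b, hb, v, hv, rfl⟩ := hy
      have e : a * u * (b * v) = a * (u * b * star u) * (u * v) := by
        simp only [mul_assoc]
        rw [← mul_assoc (star u) u v, hu.star_mul, one_mul]
      rw [e]
      exact mem_spanN (mul_mem ha (hu.conj_mem' b hb)) (hu.mul hv)
    | zero => simp
    | add y z _ _ hy hz => rw [mul_add]; exact add_mem hy hz
    | smul c y _ hy => rw [mul_smul_comm]; exact Submodule.smul_mem _ c hy
  | zero => simp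
  | add x z _ _ hx hz => rw [add_mul]; exact add_mem hx hz
  | smul c x _ hx => rw [smul_mul_assoc]; exact Submodule.smul_mem _ c hx

theorem star_mem_spanN {x : H →L[ℂ] H} (hx : x ∈ spanN M A) : star x ∈ spanN M A := by
  induction hx using Submodule.span_induction with
  | mem x hx =>
    obtain ⟨a, ha, u, hu, rfl⟩ := hx
    rw [star_mul, show star u * star a = star u * star a * u * star u by
      rw [mul_assoc _ u, hu.mul_star, mul_one]]
    exact mem_spanN (hu.conj_mem _ (star_mem ha)) hu.star'
  | zero => simp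
  | add x z _ _ hx hz => rw [star_add]; exact add_mem hx hz
  | smul c x _ hx => rw [star_smul]; exact Submodule.smul_mem _ _ hx

theorem aeval_mem_spanN {x : H →L[ℂ] H} (hx : x ∈ spanN M A) (p : Polynomial ℝ) :
    Polynomial.aeval x p ∈ spanN M A := by
  induction p using Polynomial.induction_on' with
  | add p q hp hq => rw [map_add]; exact add_mem hp hq
  | monomial n c =>
    rw [Polynomial.aeval_monomial, ← Algebra.smul_def, ← Complex.coe_smul]
    refine Submodule.smul_mem _ _ ?_
    induction n with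
    | zero => simpa using one_mem_spanN
    | succ n ih => rw [pow_succ]; exact mul_mem_spanN ih hx

/-- Left multiplication on `ℓ²`. -/
noncomputable def diagMul (u : H →L[ℂ] H) :
    lp (fun _ : ι => H) 2 →L[ℂ] lp (fun _ : ι => H) 2 :=
  LinearMap.mkContinuous
    { toFun := fun f => ⟨fun i => u (f i), by
        refine memℓp_gen ?_
        have := (lp.memℓp f).summable (by norm_num : 0 < (2 : ENNReal).toReal)
        simp only [ENNReal.toReal_ofNat, Real.rpow_two] at this ⊢
        exact Summable.of_nonneg_of_le (fun i => sq_nonneg _)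
          (fun i => (pow_le_pow_left₀ (norm_nonneg _) (u.le_opNorm (f i)) 2).trans_eq
            (mul_pow _ _ _)) (this.mul_left _)⟩
      map_add' := fun f g => by ext i; simp; rfl
      map_smul' := fun c f => by ext i; simp }
    ‖u‖ (fun f => by
      refine (abs_le_of_sq_le_sq' ?_ (by positivity)).2
      have h1 : ∀ g : lp (fun _ : ι => H) 2, ‖g‖ ^ 2 = ∑' i, ‖g i‖ ^ 2 := fun g => by
        simpa using lp.norm_rpow_eq_tsum (p := 2) (by norm_num) g
      have h2 : ∀ g : lp (fun _ : ι => H) 2, Summable fun i => ‖g i‖ ^ 2 := fun g => by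
        simpa using (lp.memℓp g).summable (by norm_num : 0 < (2 : ENNReal).toReal)
      rw [mul_pow, h1, h1, ← tsum_mul_left]
      exact (h2 _).tsum_le_tsum (fun i => (pow_le_pow_left₀ (norm_nonneg _)
        (u.le_opNorm (f i)) 2).trans_eq (mul_pow _ _ _)) ((h2 f).mul_left _))

omit [CompleteSpace H] in
theorem diagMul_apply (u : H →L[ℂ] H) (f : lp (fun _ : ι => H) 2) (i : ι) :
    diagMul u f i = u (f i) := rfl

theorem diagMul_V (h : IsTrace M η) (u x : H →L[ℂ] H) : diagMul u (h.V x) = h.V (u * x) := rfl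

theorem diagMul_inner (u : H →L[ℂ] H) (f g : lp (fun _ : ι => H) 2) :
    ⟪f, diagMul u g⟫_ℂ = ⟪diagMul (star u) f, g⟫_ℂ := by
  rw [lp.inner_eq_tsum, lp.inner_eq_tsum]
  refine tsum_congr fun i => ?_
  rw [diagMul_apply, diagMul_apply, ContinuousLinearMap.star_eq_adjoint,
    ContinuousLinearMap.adjoint_inner_left]

/-- Two-norm density of `spanN` in a regular inclusion. -/
theorem exists_spanN_near (hreg : IsRegularMasa M A) (h : IsTrace M η) {x : H →L[ℂ] H}
    (hx : x ∈ M) {γ : ℝ} (hγ : 0 < γ) : ∃ b ∈ spanN M A, ‖h.V (x - b)‖ < γ := by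
  classical
  obtain ⟨K, hK⟩ : ∃ K : Submodule ℂ (lp (fun _ : ι => H) 2),
      K = ((spanN M A).map h.V).topologicalClosure := ⟨_, rfl⟩
  have : CompleteSpace K := hK ▸ (Submodule.isClosed_topologicalClosure _).completeSpace_coe
  have hinv : ∀ u, IsNormaliser M A u → ∀ f ∈ K, diagMul u f ∈ K := by
    intro u hu f hf
    rw [hK] at hf ⊢
    refine map_mem_closure (diagMul u).continuous hf ?_
    rintro _ ⟨b, hb, rfl⟩
    refine ⟨u * b, mul_mem_spanN ?_ hb, (diagMul_V h u b).symm⟩
    simpa using mem_spanN (one_mem A) hu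
  have hcomm : ∀ u, IsNormaliser M A u → ∀ f, K.starProjection (diagMul u f)
      = diagMul u (K.starProjection f) := by
    intro u hu f
    refine Submodule.eq_starProjection_of_mem_of_inner_eq_zero
      (hinv u hu _ (Submodule.starProjection_apply_mem _ _)) fun w hw => ?_
    rw [← map_sub, ← inner_conj_symm, diagMul_inner, inner_conj_symm]
    exact Submodule.starProjection_inner_eq_zero f _ (hinv _ hu.star' w hw)
  have hV1 : K.starProjection (h.V 1) = h.V 1 := by
    rw [Submodule.starProjection_eq_self_iff, hK]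
    exact Submodule.le_topologicalClosure _ ⟨1, one_mem_spanN, rfl⟩
  obtain ⟨T, hT⟩ : ∃ T : ι → ι → (H →L[ℂ] H), T = fun i j =>
      ((lp.evalCLM ℂ (fun _ : ι => H) 2 i).comp K.starProjection).comp
        (lp.singleContinuousLinearMap ℂ (fun _ : ι => H) 2 j) := ⟨_, rfl⟩
  have hTapp : ∀ i j v, T i j v = K.starProjection (lp.single 2 j v) i := fun i j v => by
    rw [hT]; rfl
  have hTM : ∀ i j, T i j ∈ M.commutant := fun i j => hreg _ fun u hu => by
    ext v
    simp only [mul_apply', hTapp]
    have e : lp.single (E := fun _ : ι => H) 2 j (u v) = diagMul u (lp.single 2 j v) := by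
      refine lp.ext (funext fun k => ?_)
      rw [diagMul_apply]
      by_cases hk : k = j
      · subst hk; rw [lp.single_apply_self, lp.single_apply_self]
      · rw [lp.single_apply_ne 2 j _ hk, lp.single_apply_ne 2 j _ hk, map_zero]
    rw [e, hcomm u hu, diagMul_apply]
  have hsum : ∀ y : H →L[ℂ] H, ∀ i,
      HasSum (fun j => T i j (y (η j))) (K.starProjection (h.V y) i) := by
    intro y i
    have := (lp.hasSum_single (by norm_num : (2 : ENNReal) ≠ ⊤) (h.V y)).mapL
      ((lp.evalCLM ℂ (fun _ : ι => H) 2 i).comp K.starProjection)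
    simp only [hTapp]
    exact this
  have hPx : K.starProjection (h.V x) = h.V x := by
    refine lp.ext (funext fun i => ?_)
    have h1 := hsum x i
    have h2 := (hsum 1 i).mapL x
    rw [hV1] at h2
    have e : (fun j => x (T i j ((1 : H →L[ℂ] H) (η j)))) = fun j => T i j (x (η j)) := by
      funext j
      have := congrArg (fun S : H →L[ℂ] H => S (η j)) ((mem_vn_iff.1 hx) _ (hTM i j))
      simpa using this.symm
    rw [e] at h2
    simpa [V_apply] using h1.unique h2
  have hmem : h.V x ∈ K := Submodule.starProjection_eq_self_iff.1 hPx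
  rw [hK] at hmem
  obtain ⟨_, ⟨b, hb, rfl⟩, hd⟩ := Metric.mem_closure_iff.1 hmem γ hγ
  exact ⟨b, hb, by rwa [map_sub, ← dist_eq_norm]⟩

end Vale.Agent.P078.Cartan
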