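import Vale.Agent.P078.Cartan.Pick

/-!
Enlarging nonnegative residues spreads the zeros: for `P = (X - a) den L - q` the sum of a convex
function over the zeros increases with the residues of `q / den L`. The zeros are the eigenvalues
of an arrowhead matrix, and the trace of a convex function is convex (Peierls).
-/

namespace Vale.Agent.P078.Cartan

open Polynomial Matrix
open scoped ComplexConjugate

variable {μ : Type*} [Fintype μ] [DecidableEq μ]

/-- The sum of a real function over the real parts of the zeros. -/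
noncomputable def zeroSum (φ : ℝ → ℝ) (P : ℂ[X]) : ℝ :=
  ((P.roots.map Complex.re).map φ).sum

theorem zeroSum_charpoly (φ : ℝ → ℝ) {M : Matrix μ μ ℂ} (hM : M.IsHermitian) :
    zeroSum φ M.charpoly = ∑ i, φ (hM.eigenvalues i) := by
  rw [zeroSum, hM.roots_charpoly_eq_eigenvalues, Multiset.map_map, Multiset.map_map]
  rfl

/-- All zeros have real part in `I`. -/
def ZerosIn (I : Set ℝ) (P : ℂ[X]) : Prop := ∀ x ∈ P.roots.map Complex.re, x ∈ I

theorem zerosIn_charpoly (I : Set ℝ) {M : Matrix μ μ ℂ} (hM : M.IsHermitian) :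
    ZerosIn I M.charpoly ↔ ∀ i, hM.eigenvalues i ∈ I := by
  simp [ZerosIn, hM.roots_charpoly_eq_eigenvalues]

theorem diag_unitary_conj (W : Matrix.unitaryGroup μ ℂ) (d : μ → ℝ) (i : μ) :
    ((W : Matrix μ μ ℂ) * diagonal (fun k => (d k : ℂ)) * star (W : Matrix μ μ ℂ)) i i
      = ((∑ k, Complex.normSq ((W : Matrix μ μ ℂ) i k) * d k : ℝ) : ℂ) := by
  rw [Matrix.mul_apply, Complex.ofReal_sum]
  refine Finset.sum_congr rfl fun k _ => ?_
  rw [mul_diagonal, Matrix.star_apply, Complex.ofReal_mul, Complex.normSq_eq_conj_mul_self]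
  simp only [RCLike.star_def]
  ring

theorem normSq_row (W : Matrix.unitaryGroup μ ℂ) (i : μ) :
    ∑ k, Complex.normSq ((W : Matrix μ μ ℂ) i k) = 1 := by
  have h := congrFun (congrFun (Unitary.coe_mul_star_self W) i) i
  rw [Matrix.mul_apply, Matrix.one_apply_eq] at h
  have h2 : ((∑ k, Complex.normSq ((W : Matrix μ μ ℂ) i k) : ℝ) : ℂ) = 1 := by
    rw [Complex.ofReal_sum, ← h]
    refine Finset.sum_congr rfl fun k _ => ?_
    rw [show ((star W : Matrix.unitaryGroup μ ℂ) : Matrix μ μ ℂ) k i = star ((W : Matrix μ μ ℂ) i k)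
      from rfl, Complex.normSq_eq_conj_mul_self, RCLike.star_def, mul_comm]
  exact_mod_cast h2

theorem normSq_col (W : Matrix.unitaryGroup μ ℂ) (k : μ) :
    ∑ i, Complex.normSq ((W : Matrix μ μ ℂ) i k) = 1 := by
  have h := normSq_row (star W) k
  simpa [Matrix.star_apply] using h

/-- Peierls: the diagonal in any orthonormal basis has the smaller convex sum. -/
theorem peierls {φ : ℝ → ℝ} {I : Set ℝ} (hφ : ConvexOn ℝ I φ) {M : Matrix μ μ ℂ}
    (hM : M.IsHermitian) (hI : ∀ i, hM.eigenvalues i ∈ I) (U : Matrix.unitaryGroup μ ℂ) :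
    (∀ i, (((U : Matrix μ μ ℂ) * M * star (U : Matrix μ μ ℂ)) i i).re ∈ I) ∧
      ∑ i, φ (((U : Matrix μ μ ℂ) * M * star (U : Matrix μ μ ℂ)) i i).re
        ≤ ∑ i, φ (hM.eigenvalues i) := by
  set W : Matrix.unitaryGroup μ ℂ := U * hM.eigenvectorUnitary
  have e : ∀ i, (((U : Matrix μ μ ℂ) * M * star (U : Matrix μ μ ℂ)) i i).re
      = ∑ k, Complex.normSq ((W : Matrix μ μ ℂ) i k) • hM.eigenvalues k := fun i => by
    conv_lhs => rw [hM.spectral_theorem, Unitary.conjStarAlgAut_apply]
    have : (U : Matrix μ μ ℂ) * ((hM.eigenvectorUnitary : Matrix μ μ ℂ) *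
        diagonal (RCLike.ofReal ∘ hM.eigenvalues) * star (hM.eigenvectorUnitary : Matrix μ μ ℂ)) *
        star (U : Matrix μ μ ℂ) =
        (W : Matrix μ μ ℂ) * diagonal (fun k => (hM.eigenvalues k : ℂ)) * star (W : Matrix μ μ ℂ) := by
      simp only [W, Submonoid.coe_mul, star_mul, mul_assoc]
      rfl
    rw [this, diag_unitary_conj, Complex.ofReal_re]
    simp [smul_eq_mul]
  have hnn : ∀ i, ∀ k ∈ Finset.univ, 0 ≤ Complex.normSq ((W : Matrix μ μ ℂ) i k) :=
    fun i k _ => Complex.normSq_nonneg _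
  refine ⟨fun i => ?_, ?_⟩
  · rw [e]
    exact hφ.1.sum_mem (hnn i) (normSq_row W i) fun k _ => hI k
  · calc ∑ i, φ _ ≤ ∑ i, ∑ k, Complex.normSq ((W : Matrix μ μ ℂ) i k) • φ (hM.eigenvalues k) :=
          Finset.sum_le_sum fun i _ => by
            rw [e]
            exact hφ.map_sum_le (hnn i) (normSq_row W i) fun k _ => hI k
      _ = ∑ k, φ (hM.eigenvalues k) := by
          rw [Finset.sum_comm]
          refine Finset.sum_congr rfl fun k _ => ?_
          rw [← Finset.sum_smul, normSq_col, one_smul]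

/-- The trace of a convex function is convex. -/
theorem convex_trace {φ : ℝ → ℝ} {I : Set ℝ} (hφ : ConvexOn ℝ I φ) {A B : Matrix μ μ ℂ}
    (hA : A.IsHermitian) (hB : B.IsHermitian) {p q : ℝ} (hp : 0 ≤ p) (hq : 0 ≤ q)
    (hpq : p + q = 1) (hIA : ∀ i, hA.eigenvalues i ∈ I) (hIB : ∀ i, hB.eigenvalues i ∈ I)
    {C : Matrix μ μ ℂ} (hC : C.IsHermitian) (hCe : C = (p : ℂ) • A + (q : ℂ) • B) :
    (∀ i, hC.eigenvalues i ∈ I) ∧ ∑ i, φ (hC.eigenvalues i)
      ≤ p * ∑ i, φ (hA.eigenvalues i) + q * ∑ i, φ (hB.eigenvalues i) := by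
  set U : Matrix.unitaryGroup μ ℂ := star hC.eigenvectorUnitary
  obtain ⟨hA1, hA2⟩ := peierls hφ hA hIA U
  obtain ⟨hB1, hB2⟩ := peierls hφ hB hIB U
  have e : ∀ i, hC.eigenvalues i
      = p • (((U : Matrix μ μ ℂ) * A * star (U : Matrix μ μ ℂ)) i i).re
        + q • (((U : Matrix μ μ ℂ) * B * star (U : Matrix μ μ ℂ)) i i).re := fun i => by
    have h := congrFun (congrFun hC.conjStarAlgAut_star_eigenvectorUnitary i) i
    rw [Unitary.conjStarAlgAut_apply, diagonal_apply_eq] at h
    have h2 : (((U : Matrix μ μ ℂ) * C * star (U : Matrix μ μ ℂ)) i i).re = hC.eigenvalues i := by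
      rw [show ((U : Matrix μ μ ℂ) * C * star (U : Matrix μ μ ℂ)) i i
        = ((RCLike.ofReal ∘ hC.eigenvalues) i : ℂ) from h]
      simp
    rw [← h2]
    conv_lhs => rw [hCe]
    simp [mul_add, add_mul]
  refine ⟨fun i => by rw [e]; exact hφ.1 (hA1 i) (hB1 i) hp hq hpq, ?_⟩
  calc ∑ i, φ (hC.eigenvalues i)
      ≤ ∑ i, (p * φ (((U : Matrix μ μ ℂ) * A * star (U : Matrix μ μ ℂ)) i i).re
          + q * φ (((U : Matrix μ μ ℂ) * B * star (U : Matrix μ μ ℂ)) i i).re) :=
        Finset.sum_le_sum fun i _ => by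
          rw [e]; exact hφ.2 (hA1 i) (hB1 i) hp hq hpq
    _ ≤ _ := by
        rw [Finset.sum_add_distrib, ← Finset.mul_sum, ← Finset.mul_sum]
        exact add_le_add (mul_le_mul_of_nonneg_left hA2 hp) (mul_le_mul_of_nonneg_left hB2 hq)

variable {n : ℕ}

/-- The arrowhead matrix. -/
noncomputable def arrow (a : ℝ) (t b : Fin n → ℝ) : Matrix (Fin n ⊕ Unit) (Fin n ⊕ Unit) ℂ :=
  Matrix.fromBlocks (diagonal fun k => (t k : ℂ)) (Matrix.of fun k _ => (b k : ℂ))
    (Matrix.of fun _ k => (b k : ℂ)) (diagonal fun _ => (a : ℂ))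

theorem isHermitian_arrow (a : ℝ) (t b : Fin n → ℝ) : (arrow a t b).IsHermitian := by
  ext (i | i) (j | j) <;> simp [arrow, diagonal_apply, Matrix.conjTranspose_apply]
  · by_cases h : i = j
    · subst h; simp
    · simp [h, Ne.symm h]

theorem arrow_charpoly (a : ℝ) (t b : Fin n → ℝ) :
    (arrow a t b).charpoly = (X - C (a : ℂ)) * ∏ k, (X - C (t k : ℂ))
      - ∑ k, C ((b k ^ 2 : ℝ) : ℂ) * ∏ l ∈ Finset.univ.erase k, (X - C (t l : ℂ)) := by
  refine Polynomial.eq_of_infinite_eval_eq _ _ (Set.Infinite.mono (s := (Set.range fun k =>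
    (t k : ℂ))ᶜ) ?_ (Set.finite_range _).infinite_compl)
  intro z hz
  have hne : ∀ k, z - t k ≠ 0 := fun k e => hz ⟨k, (sub_eq_zero.1 e).symm⟩
  rw [Set.mem_ofPred_eq, eval_charpoly]
  have e1 : Matrix.scalar (Fin n ⊕ Unit) z - arrow a t b = Matrix.fromBlocks
      (diagonal fun k => z - t k) (-Matrix.of fun k _ => (b k : ℂ))
      (-Matrix.of fun _ k => (b k : ℂ)) (diagonal fun _ => z - a) := by
    ext (i | i) (j | j) <;> simp [arrow, diagonal_apply] <;>
      (by_cases h : i = j) <;> simp [h]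
  let : Invertible (diagonal fun k => z - (t k : ℂ)) :=
    ⟨diagonal fun k => (z - t k)⁻¹, by simp [hne, diagonal_one], by simp [hne, diagonal_one]⟩
  rw [e1, det_fromBlocks₁₁, det_diagonal, det_unique]
  simp only [eval_sub, eval_mul, eval_X, eval_C, eval_prod, eval_finsetSum]
  have e2 : ((-Matrix.of fun (_ : Unit) k => (b k : ℂ)) * ⅟(diagonal fun k => z - (t k : ℂ)) *
      (-Matrix.of fun k (_ : Unit) => (b k : ℂ))) default default
      = ∑ k, (b k : ℂ) ^ 2 / (z - t k) := by
    rw [show ⅟(diagonal fun k => z - (t k : ℂ)) = diagonal fun k => (z - t k)⁻¹ from rfl,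
      Matrix.mul_apply]
    refine Finset.sum_congr rfl fun k _ => ?_
    rw [mul_diagonal]
    simp only [Matrix.neg_apply, Matrix.of_apply]
    ring
  rw [Matrix.sub_apply, e2, diagonal_apply_eq, mul_sub, Finset.mul_sum,
    mul_comm (∏ k, (z - (t k : ℂ))) (z - (a : ℂ))]
  congr 1
  refine Finset.sum_congr rfl fun k _ => ?_
  rw [← Finset.mul_prod_erase Finset.univ _ (Finset.mem_univ k), Complex.ofReal_pow]
  have := hne k
  field_simp

/-- Shrinking one border entry. -/
theorem arrow_shrink {φ : ℝ → ℝ} {I : Set ℝ} (hφ : ConvexOn ℝ I φ) (a : ℝ) (t b : Fin n → ℝ)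
    (j : Fin n) {s : ℝ} (hs : s ∈ Set.Icc (0 : ℝ) 1)
    (hI : ZerosIn I (arrow a t b).charpoly) :
    ZerosIn I (arrow a t (Function.update b j (s * b j))).charpoly ∧
      zeroSum φ (arrow a t (Function.update b j (s * b j))).charpoly
        ≤ zeroSum φ (arrow a t b).charpoly := by
  set b₂ := Function.update b j (-b j) with hb₂
  have h2 : (arrow a t b₂).charpoly = (arrow a t b).charpoly := by
    rw [arrow_charpoly, arrow_charpoly]
    congr 1
    refine Finset.sum_congr rfl fun k _ => ?_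
    rcases eq_or_ne k j with rfl | hk
    · simp [b₂]
    · simp [b₂, Function.update_of_ne hk]
  have hA := isHermitian_arrow a t b
  have hB := isHermitian_arrow a t b₂
  have hC := isHermitian_arrow a t (Function.update b j (s * b j))
  have hIA := (zerosIn_charpoly I hA).1 hI
  have hIB := (zerosIn_charpoly I hB).1 (h2 ▸ hI)
  obtain ⟨h3, h4⟩ := convex_trace hφ hA hB (p := (1 + s) / 2) (q := (1 - s) / 2)
    (by linarith [hs.1]) (by linarith [hs.2]) (by ring) hIA hIB hC (by
      ext (i | i) (k | k)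
      · simp [arrow, diagonal_apply]
        by_cases h : i = k <;> simp [h]
        ring
      · simp [arrow, b₂, Function.update_apply]
        by_cases h : i = j <;> simp [h] <;> ring
      · simp [arrow, b₂, Function.update_apply]
        by_cases h : k = j <;> simp [h] <;> ring
      · simp [arrow]
        ring)
  refine ⟨(zerosIn_charpoly I hC).2 h3, ?_⟩
  rw [zeroSum_charpoly φ hC, zeroSum_charpoly φ hA]
  have e : ∑ i, φ (hB.eigenvalues i) = ∑ i, φ (hA.eigenvalues i) := by
    rw [← zeroSum_charpoly φ hB, ← zeroSum_charpoly φ hA, h2]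
  rw [e, ← add_mul, show (1 + s) / 2 + (1 - s) / 2 = (1 : ℝ) by ring, one_mul] at h4
  exact h4

/-- Shrinking the border. -/
theorem arrow_mono {φ : ℝ → ℝ} {I : Set ℝ} (hφ : ConvexOn ℝ I φ) (a : ℝ) (t : Fin n → ℝ)
    {b b' : Fin n → ℝ} (hb : ∀ k, 0 ≤ b' k ∧ b' k ≤ b k)
    (hI : ZerosIn I (arrow a t b).charpoly) :
    zeroSum φ (arrow a t b').charpoly ≤ zeroSum φ (arrow a t b).charpoly := by
  have key : ∀ S : Finset (Fin n), ZerosIn I (arrow a t (S.piecewise b' b)).charpoly ∧
      zeroSum φ (arrow a t (S.piecewise b' b)).charpoly ≤ zeroSum φ (arrow a t b).charpoly := by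
    intro S
    induction S using Finset.induction with
    | empty => simpa using hI
    | insert j S hj ih =>
      have hbj : S.piecewise b' b j = b j := Finset.piecewise_eq_of_notMem _ _ _ hj
      have hs : b' j / b j ∈ Set.Icc (0 : ℝ) 1 :=
        ⟨div_nonneg (hb j).1 ((hb j).1.trans (hb j).2),
          div_le_one_of_le₀ (hb j).2 ((hb j).1.trans (hb j).2)⟩
      obtain ⟨h1, h2⟩ := arrow_shrink hφ a t (S.piecewise b' b) j hs ih.1
      have e : Function.update (S.piecewise b' b) j (b' j / b j * S.piecewise b' b j)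
          = (insert j S).piecewise b' b := by
        rw [Finset.piecewise_insert, hbj]
        congr 1
        rcases eq_or_ne (b j) 0 with h0 | h0
        · rw [h0, mul_zero]; linarith [(hb j).1, (hb j).2]
        · exact div_mul_cancel₀ _ h0
      rw [e] at h1 h2
      exact ⟨h1, h2.trans ih.2⟩
  simpa using (key Finset.univ).2

omit [Fintype μ] [DecidableEq μ] in
theorem PickLike.residues : ∀ {n : ℕ} (t : Fin n → ℝ) (q : ℂ[X]),
    Decomp (Finset.univ.val.map t) q → q.degree < n →
    ∃ ρ : Fin n → ℝ, (∀ k, 0 ≤ ρ k) ∧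
      q = ∑ k, C (ρ k : ℂ) * ∏ l ∈ Finset.univ.erase k, (X - C (t l : ℂ)) := by
  suffices key : ∀ (L : Multiset ℝ) (q : ℂ[X]), Decomp L q → q.degree < L.card →
      ∀ {n : ℕ} (t : Fin n → ℝ), Finset.univ.val.map t = L →
      ∃ ρ : Fin n → ℝ, (∀ k, 0 ≤ ρ k) ∧
        q = ∑ k, C (ρ k : ℂ) * ∏ l ∈ Finset.univ.erase k, (X - C (t l : ℂ)) by
    intro n t q h hdeg
    exact key _ q h (by simpa using hdeg) t rfl
  intro L q h
  induction h with
  | @base q hq _ _ =>
    intro hdeg n t ht
    obtain rfl : n = 0 := by simpa using congrArg Multiset.card ht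
    have : q = 0 := by
      by_contra hq0
      rw [degree_eq_natDegree hq0, Multiset.card_zero, Nat.cast_lt] at hdeg
      exact Nat.not_lt_zero _ hdeg
    exact ⟨fun k => k.elim0, fun k => k.elim0, by simpa using this⟩
  | @pole L q₁ a c hc _ ih =>
    intro hdeg n t ht
    obtain ⟨j, hj⟩ : ∃ j, t j = a := by
      have : a ∈ Finset.univ.val.map t := ht ▸ Multiset.mem_cons_self a L
      simpa using this
    obtain ⟨m, rfl⟩ : ∃ m, n = m + 1 := ⟨n - 1, by have := j.isLt; omega⟩
    have hL : Finset.univ.val.map (fun k => t (j.succAbove k)) = L := by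
      rw [Fin.univ_succAbove m j, Finset.cons_val, Multiset.map_cons, hj,
        Finset.map_val, Multiset.map_map] at ht
      exact Multiset.cons_inj_right a |>.1 ht
    have hcardL : Multiset.card L = m := by simpa using (congrArg Multiset.card hL).symm
    have hdenm : (den L).Monic := monic_multiset_prod_of_monic _ _ fun x _ => monic_X_sub_C _
    have hdend : (den L).natDegree = m := by
      rw [den, natDegree_multiset_prod_of_monic _ fun f hf => ?_]
      · rw [Multiset.map_map]
        simp [hcardL]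
      · obtain ⟨x, -, rfl⟩ := Multiset.mem_map.1 hf
        exact monic_X_sub_C _
    have hdeg₁ : q₁.degree < Multiset.card L := by
      rcases eq_or_ne q₁ 0 with h0 | h0
      · rw [h0, degree_zero]; exact WithBot.bot_lt_coe _
      rw [hcardL]
      by_contra hge
      push Not at hge
      rw [degree_eq_natDegree h0, Nat.cast_le] at hge
      have hbig : ((X - C (a : ℂ)) * q₁).natDegree = q₁.natDegree + 1 := by
        rw [natDegree_mul (X_sub_C_ne_zero _) h0, natDegree_X_sub_C, add_comm]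
      have hsmall : (C (c : ℂ) * den L).natDegree < ((X - C (a : ℂ)) * q₁).natDegree := by
        refine (natDegree_C_mul_le _ _).trans_lt ?_
        rw [hbig, hdend]; omega
      have hsum := natDegree_add_eq_left_of_natDegree_lt hsmall
      have hne : (X - C (a : ℂ)) * q₁ + C (c : ℂ) * den L ≠ 0 := fun e => by
        rw [e, natDegree_zero, hbig] at hsum; omega
      rw [degree_eq_natDegree hne, hsum, hbig, Nat.cast_lt, Multiset.card_cons, hcardL] at hdeg
      omega
    obtain ⟨ρ, hρ, e⟩ := ih hdeg₁ _ hL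
    refine ⟨j.insertNth c ρ, fun k => ?_, ?_⟩
    · rcases Fin.eq_self_or_eq_succAbove j k with rfl | ⟨k, rfl⟩ <;> simp [hc, hρ]
    · have herase : ∀ k : Fin m, Finset.univ.erase (j.succAbove k) =
          insert j ((Finset.univ.erase k).map j.succAboveEmb) := by
        intro k
        ext l
        rcases Fin.eq_self_or_eq_succAbove j l with rfl | ⟨l, rfl⟩
        · simp [(Fin.succAbove_ne l k).symm]
        · simp [Fin.succAbove_ne]
      rw [Fin.sum_univ_succAbove _ j]
      simp only [Fin.insertNth_apply_same, Fin.insertNth_apply_succAbove]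
      rw [e, Finset.mul_sum, add_comm]
      congr 1
      · congr 1
        rw [den, ← hL, Multiset.map_map]
        have : Finset.univ.erase j = Finset.univ.map j.succAboveEmb := by
          ext l
          rcases Fin.eq_self_or_eq_succAbove j l with rfl | ⟨l, rfl⟩ <;> simp [Fin.succAbove_ne]
        rw [this, Finset.prod_map]
        rfl
      · refine Finset.sum_congr rfl fun k _ => ?_
        rw [herase, Finset.prod_insert (by simp [Fin.succAbove_ne]), Finset.prod_map, hj]
        simp only [Fin.coe_succAboveEmb]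
        ring

/-- Dropping part of the residues decreases convex sums over the zeros. -/
theorem zeroSum_mono {φ : ℝ → ℝ} {I : Set ℝ} (hφ : ConvexOn ℝ I φ) (L : Multiset ℝ) (a : ℝ)
    {q q' : ℂ[X]} (hq : RealPoly q) (hq' : RealPoly q') (hd : q.degree < L.card)
    (hd' : q'.degree < L.card) (hsub : PickLike L (q - q')) (hq'p : PickLike L q')
    (hI : ZerosIn I ((X - C (a : ℂ)) * den L - q)) :
    zeroSum φ ((X - C (a : ℂ)) * den L - q') ≤ zeroSum φ ((X - C (a : ℂ)) * den L - q) := by
  classical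
  obtain ⟨n, t, ht⟩ : ∃ (n : ℕ) (t : Fin n → ℝ), Finset.univ.val.map t = L :=
    ⟨L.toList.length, L.toList.get, by rw [Fin.univ_val_map, List.ofFn_get, Multiset.coe_toList]⟩
  subst ht
  have hcard : Multiset.card (Finset.univ.val.map t) = n := by simp
  rw [hcard] at hd hd'
  have hsubr : RealPoly (q - q') := by
    rw [RealPoly, Polynomial.map_sub, show q.map _ = q from hq, show q'.map _ = q' from hq']
  obtain ⟨ρ', hρ', e'⟩ := PickLike.residues t q' (pickLike_decomp _ _ hq' hq'p) hd'
  obtain ⟨δ, hδ, eδ⟩ := PickLike.residues t (q - q') (pickLike_decomp _ _ hsubr hsub)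
    ((degree_sub_le _ _).trans_lt (max_lt hd hd'))
  have hden : den (Finset.univ.val.map t) = ∏ k, (X - C (t k : ℂ)) := by
    rw [den, Multiset.map_map]; rfl
  have h1 : (X - C (a : ℂ)) * den (Finset.univ.val.map t) - q'
      = (arrow a t fun k => Real.sqrt (ρ' k)).charpoly := by
    rw [arrow_charpoly, hden, e']
    simp only [Real.sq_sqrt (hρ' _)]
  have h2 : (X - C (a : ℂ)) * den (Finset.univ.val.map t) - q
      = (arrow a t fun k => Real.sqrt (ρ' k + δ k)).charpoly := by
    rw [arrow_charpoly, hden, show q = q' + (q - q') by ring, eδ, e', ← Finset.sum_add_distrib]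
    congr 1
    refine Finset.sum_congr rfl fun k _ => ?_
    rw [Real.sq_sqrt (add_nonneg (hρ' k) (hδ k)), Complex.ofReal_add, map_add, add_mul]
  rw [h1, h2]
  rw [h2] at hI
  exact arrow_mono hφ a t (fun k =>
    ⟨Real.sqrt_nonneg _, Real.sqrt_le_sqrt (le_add_of_nonneg_right (hδ k))⟩) hI

end Vale.Agent.P078.Cartan
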