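import Vale.Agent.P078.Cartan.SetFun

/-!
The core theorem: colours chosen batch by batch keep the traced averaged increment small.
-/

namespace Vale.Agent.P078.Cartan

open Filter Topology Polynomial Function
open scoped ComplexOrder Real

namespace OrbitModel

set_option linter.unusedSectionVars false

variable {Ω : Type} [TopologicalSpace Ω] [CompactSpace Ω] [T2Space Ω] [TotallyDisconnectedSpace Ω]
  [DecidableEq Ω]
  {L : ℕ} {α : ℝ} (O : OrbitModel Ω L α) {r : ℕ}

theorem act_name_ball {ω : Ω} {m : ℕ} (a : O.ball ω m) : O.act (O.name ω a) ω = a := by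
  obtain ⟨w, -, hw⟩ := O.mem_ball.1 a.2
  exact O.act_name hw

theorem injective_name_ball (ω : Ω) (m : ℕ) :
    Injective fun a : O.ball ω m => O.act (O.name ω a) ω := fun a b h =>
  Subtype.ext (by simpa only [O.act_name_ball] using h)

theorem image_name_ball (ω : Ω) (m : ℕ) :
    (Finset.univ.image fun a : O.ball ω m => O.act (O.name ω a) ω) = O.ball ω m := by
  ext x
  simp only [O.act_name_ball, Finset.mem_image, Finset.mem_univ, true_and]
  exact ⟨fun ⟨a, ha⟩ => ha ▸ a.2, fun h => ⟨⟨x, h⟩, rfl⟩⟩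

theorem V_congr {w w' : Ω → Fin r → ℝ} {S : Finset Ω} (h : ∀ a ∈ S, w a = w' a) (f : ℝ[X]) :
    O.V w f S = O.V w' f S := by
  unfold V
  split_ifs with hne
  · congr 1
    exact funext fun a => h a a.2
  · rfl

theorem isLaw_update {w : Ω → Fin r → ℝ} (hw : IsLaw w) (v : Ω) (c : Fin r) :
    IsLaw (update w v (dirac c)) := fun u => by
  rcases eq_or_ne u v with rfl | h
  · rw [update_self]
    exact ⟨fun c' => by simp only [dirac]; split_ifs <;> simp, by simp [dirac]⟩
  · rw [update_of_ne h]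
    exact hw u

/-- Uniform laws: the increment at a point of a window is small. -/
theorem abs_V_uniform_sub_le (hB : UniformRootBound) {t t₀ η γ : ℝ} {f : ℝ[X]}
    (hf : NearStep t η γ f) (hη : 0 < η) (hr : 0 < r) (hα : 0 ≤ α)
    (ht₀ : (1 / Real.sqrt r + Real.sqrt α) ^ 2 ≤ t₀) (ht : t₀ < t) {ω : Ω} {m : ℕ}
    {U : Finset Ω} (hU : U ⊆ O.ball ω m) (hωU : ω ∈ U) :
    |O.V (fun _ : Ω => uniformLaw Unit r ()) f U -
      O.V (fun _ : Ω => uniformLaw Unit r ()) f (U.erase ω)| ≤ γ + η / (π * (t - t₀) ^ 2) := by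
  set φ : O.ball ω m → List (Fin L) := fun a => O.name ω a
  have hinj := O.injective_name_ball ω m
  set emb : O.ball ω m ↪ Ω := ⟨fun a => O.act (φ a) ω, hinj⟩ with hemb
  let U' : Finset (O.ball ω m) := Finset.univ.filter fun a => (a : Ω) ∈ U
  set i₀ : O.ball ω m := ⟨ω, O.self_mem_ball ω m⟩ with hi₀def
  have hval : ∀ a : O.ball ω m, emb a = (a : Ω) := fun a => O.act_name_ball a
  have e1 : U'.map emb = U := by
    ext x
    simp only [U', Finset.mem_map, Finset.mem_filter, Finset.mem_univ, true_and, hval]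
    exact ⟨fun ⟨a, ha, e⟩ => e ▸ ha, fun h => ⟨⟨x, hU h⟩, h, rfl⟩⟩
  have e2 : (U'.erase i₀).map emb = U.erase ω := by
    rw [Finset.map_erase, e1, hval]
  have hw : ∀ v : Ω, (∀ c, 0 ≤ uniformLaw Unit r () c) ∧ ∑ c, uniformLaw Unit r () c = 1 :=
    fun _ => isLaw_uniform hr ()
  have v1 : O.V _ f U = potential (mask (O.lblMat ω φ) U') (uniformLaw (O.ball ω m) r) f :=
    (congrArg (O.V _ f) e1.symm).trans (O.V_map _ hw hf.zero φ ω hinj U')
  have v2 : O.V _ f (U.erase ω) =
      potential (mask (O.lblMat ω φ) (U'.erase i₀)) (uniformLaw (O.ball ω m) r) f :=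
    (congrArg (O.V _ f) e2.symm).trans (O.V_map _ hw hf.zero φ ω hinj (U'.erase i₀))
  have hi₀ : i₀ ∈ U' := by simp [U', hi₀def, hωU]
  have e3 : mask (O.lblMat ω φ) (U'.erase i₀) = maskE (mask (O.lblMat ω φ) U') i₀ := by
    ext a b
    rw [maskE_apply]
    simp only [mask, Matrix.of_apply, Finset.mem_erase]
    by_cases ha : a = i₀ <;> by_cases hb : b = i₀ <;> simp [ha, hb]
  obtain ⟨hG, hG1⟩ := O.posSemidef_lblMat (φ := φ) hinj
  obtain ⟨hm, hm1⟩ := posSemidef_mask hG hG1 U'
  have hd : ∀ a, (mask (O.lblMat ω φ) U' a a).re ≤ α := fun a => by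
    simp only [mask, Matrix.of_apply]
    split_ifs
    · exact O.diag_le _ _
    · simpa using hα
  have := uniform_increment_le hf hη hB hr hα ht₀ ht hm hm1 hd i₀
  rw [← e3, ← v1, ← v2] at this
  exact this

/-- Changing the colour of a point: some colour raises the potential of its window by at most
`2 γ`. -/
theorem exists_colour_V_le {t η γ : ℝ} {f : ℝ[X]} (hf : NearStep t η γ f) (hη : 0 < η)
    {w : Ω → Fin r → ℝ} (hw : IsLaw w) (ω : Ω) (m : ℕ) :
    ∃ c, O.V (update w ω (dirac c)) f (O.ball ω m) - O.V w f (O.ball ω m) ≤ 2 * γ := by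
  set φ : O.ball ω m → List (Fin L) := fun a => O.name ω a
  have hinj := O.injective_name_ball ω m
  obtain ⟨hG, hG1⟩ := O.posSemidef_lblMat (φ := φ) hinj
  set i₀ : O.ball ω m := ⟨ω, O.self_mem_ball ω m⟩ with hi₀
  obtain ⟨c, hc⟩ := exists_colour_potential_le hf hη hG hG1
    (w := fun a : O.ball ω m => w (O.act (φ a) ω)) (fun a => hw _) i₀
  refine ⟨c, ?_⟩
  have hV : ∀ w' : Ω → Fin r → ℝ, O.V w' f (O.ball ω m) =
      potential (O.lblMat ω φ) (fun a : O.ball ω m => w' (O.act (φ a) ω)) f := fun w' => by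
    conv_lhs => rw [← O.image_name_ball ω m]
    exact O.V_eq w' f φ ω hinj
  rw [hV, hV]
  have : (fun a : O.ball ω m => update w ω (dirac c) (O.act (φ a) ω)) =
      update (fun a : O.ball ω m => w (O.act (φ a) ω)) i₀ (dirac c) := by
    funext a
    rcases eq_or_ne a i₀ with rfl | h
    · rw [update_self, show O.act (φ i₀) ω = ω from O.act_name_ball i₀, update_self]
    · rw [update_of_ne h, update_of_ne]
      rw [show O.act (φ a) ω = a from O.act_name_ball a]
      exact fun e => h (Subtype.ext e)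
  rw [this]
  linarith

/-- A chart of a ball that is valid nearby. -/
theorem exists_chart (ω₀ : Ω) (m : ℕ) :
    ∃ (n : ℕ) (ψ : Fin n → List (Fin L)) (i₀ : Fin n), ∀ᶠ ω in 𝓝 ω₀,
      Injective (fun i => O.act (ψ i) ω) ∧
      O.ball ω m = Finset.univ.image (fun i => O.act (ψ i) ω) ∧ O.act (ψ i₀) ω = ω := by
  have hex : ∀ x : O.ball ω₀ m, ∃ w : List (Fin L), w.length ≤ m ∧ O.act w ω₀ = x :=
    fun x => O.mem_ball.1 x.2
  choose φ hφlen hφ using hex
  let e := (O.ball ω₀ m).equivFin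
  let ψ : Fin (O.ball ω₀ m).card → List (Fin L) := fun i => φ (e.symm i)
  have hinj : Injective fun i => O.act (ψ i) ω₀ := fun i j h => by
    simp only [ψ, hφ] at h
    exact e.symm.injective (Subtype.ext h)
  refine ⟨_, ψ, e ⟨ω₀, O.self_mem_ball ω₀ m⟩, ?_⟩
  have h : ∀ x ∈ wordsLE L m, ∀ᶠ ω in 𝓝 ω₀, ∃ i, O.act (ψ i) ω = O.act x ω := by
    intro x hx
    have hmem : O.act x ω₀ ∈ O.ball ω₀ m := O.mem_ball.2 ⟨x, mem_wordsLE.1 hx, rfl⟩
    filter_upwards [O.eventually_eq_iff (ψ (e ⟨_, hmem⟩)) x ω₀] with ω hω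
    exact ⟨_, hω.2 (by simp [ψ, hφ])⟩
  filter_upwards [(wordsLE L m).eventually_all.2 h, O.eventually_injective hinj,
    O.eventually_eq_iff (ψ (e ⟨ω₀, O.self_mem_ball ω₀ m⟩)) [] ω₀] with ω h1 h2 h3
  refine ⟨h2, ?_, h3.2 (by simp [ψ, hφ, act_nil])⟩
  ext v
  simp only [Finset.mem_image, Finset.mem_univ, true_and, mem_ball]
  constructor
  · rintro ⟨w, hw, rfl⟩; exact h1 w (mem_wordsLE.2 hw)
  · rintro ⟨i, rfl⟩; exact ⟨_, hφlen _, rfl⟩

theorem continuous_V_update {w : Ω → Fin r → ℝ} (hwc : IsLocallyConstant w) (hw : IsLaw w)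
    {f : ℝ[X]} (hf : f.eval 0 = 0) (m : ℕ) (c : Fin r) :
    Continuous fun ω => O.V (update w ω (dirac c)) f (O.ball ω m) := by
  rw [continuous_iff_continuousAt]
  intro ω₀
  obtain ⟨n, ψ, i₀, hev⟩ := O.exists_chart ω₀ m
  have hev' : ∀ᶠ ω in 𝓝 ω₀, (Injective (fun i => O.act (ψ i) ω) ∧
      O.ball ω m = Finset.univ.image (fun i => O.act (ψ i) ω) ∧ O.act (ψ i₀) ω = ω) ∧
      ∀ i, w (O.act (ψ i) ω) = w (O.act (ψ i) ω₀) :=
    hev.and (eventually_all.2 fun i =>
      (hwc.comp_continuous (O.continuous_act (ψ i))).eventually_eq ω₀)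
  obtain ⟨U, hU, hUo, hω₀⟩ := eventually_nhds_iff.1 hev'
  let w₀ : Fin n → Fin r → ℝ := update (fun i => w (O.act (ψ i) ω₀)) i₀ (dirac c)
  have hw₀ : IsLaw w₀ := isLaw_dirac_update (fun i => hw _) i₀ c
  have hM : Continuous fun ω : U => O.lblMat (ω : Ω) ψ :=
    continuous_matrix fun i j => (O.ent (ψ i) (ψ j)).continuous.comp continuous_subtype_val
  have hH : ∀ ω : U, (O.lblMat (ω : Ω) ψ).IsHermitian := fun ω =>
    (O.posSemidef_lblMat (hU ω.1 ω.2).1.1).1.1
  have hc := continuous_potential (G := fun ω : U => O.lblMat (ω : Ω) ψ) hH hM hw₀ hf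
  have : ContinuousOn (fun ω => O.V (update w ω (dirac c)) f (O.ball ω m)) U := by
    rw [continuousOn_iff_continuous_restrict]
    refine hc.congr fun ω => ?_
    obtain ⟨⟨hi, hb, h0⟩, hwe⟩ := hU ω.1 ω.2
    rw [Set.restrict_apply, hb, O.V_eq _ f ψ ω hi]
    congr 1
    funext i
    rcases eq_or_ne i i₀ with rfl | h
    · simp only [w₀]
      rw [update_self, h0, update_self]
    · simp only [w₀]
      rw [update_of_ne h, update_of_ne, hwe]
      exact fun e => h (hi (e.trans h0.symm))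
  exact this.continuousAt (hUo.mem_nhds hω₀)

theorem LocCont.sub {g g' : Ω → Finset Ω → ℝ} (hg : O.LocCont g) (hg' : O.LocCont g') :
    O.LocCont fun v S => g v S - g' v S := fun n φ a ω₀ h =>
  (hg n φ a ω₀ h).sub (hg' n φ a ω₀ h)

theorem LocCont.indicator {g : Ω → Finset Ω → ℝ} (hg : O.LocCont g) {p : Ω → Prop}
    [DecidablePred p] (hp : IsLocallyConstant p) :
    O.LocCont fun v S => if p v then g v S else 0 := fun n φ a ω₀ h => by
  have hev : ∀ᶠ ω in 𝓝 ω₀, p (O.act a ω) = p (O.act a ω₀) :=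
    (hp.comp_continuous (O.continuous_act a)).eventually_eq ω₀
  by_cases hp₀ : p (O.act a ω₀)
  · refine (hg n φ a ω₀ h).congr ?_
    filter_upwards [hev] with ω hω
    rw [if_pos (hω.symm ▸ hp₀)]
  · refine (continuousAt_const (y := (0 : ℝ))).congr ?_
    filter_upwards [hev] with ω hω
    rw [if_neg (hω.symm ▸ hp₀)]

theorem continuous_spread_self {g : Ω → Finset Ω → ℝ} (hg : O.LocCont g) (m : ℕ) :
    Continuous fun ω => O.spread g m ω ω :=
  O.continuous_spread hg m []

/-- The averaged increment of a state of colour laws. -/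
noncomputable def shareC {w : Ω → Fin r → ℝ} (hwc : IsLocallyConstant w) (hw : IsLaw w)
    {f : ℝ[X]} (hf : f.eval 0 = 0) (m : ℕ) : C(Ω, ℝ) :=
  ⟨fun ω => O.spread (fun _ S => mob (O.V w f) S) m ω ω,
    O.continuous_spread_self (O.locCont_V hwc hw hf).mob m⟩

theorem shareC_apply {w : Ω → Fin r → ℝ} (hwc : IsLocallyConstant w) (hw : IsLaw w)
    {f : ℝ[X]} (hf : f.eval 0 = 0) (m : ℕ) (ω : Ω) :
    O.shareC hwc hw hf m ω =
      ∑ S ∈ (O.ball ω m).powerset with ω ∈ S, mob (O.V w f) S / S.card := by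
  simp only [shareC, ContinuousMap.coe_mk, spread, and_self]

/-- The indicator of a batch. -/
noncomputable def batchC {N : ℕ} {B : Ω → Fin N} (hB : IsLocallyConstant B) (i : Fin N) :
    C(Ω, ℝ) :=
  ⟨fun ω => if B ω = i then 1 else 0, (hB.comp fun j => if j = i then (1 : ℝ) else 0).continuous⟩

theorem sum_batchC {N : ℕ} {B : Ω → Fin N} (hB : IsLocallyConstant B) :
    ∑ i, batchC hB i = 1 := by
  ext ω
  simp [batchC, ContinuousMap.sum_apply, Finset.sum_ite_eq]

/-- Colouring one batch. -/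
theorem exists_batch_step {t η γ : ℝ} {f : ℝ[X]} (hf : NearStep t η γ f) (hη : 0 < η) (hγ : 0 < γ)
    {N : ℕ} {B : Ω → Fin N} (hB : IsLocallyConstant B)
    (hsep : ∀ u v, v ∈ O.ball u f.natDegree → B u = B v → u = v) (i : Fin N)
    {w : Ω → Fin r → ℝ} (hwc : IsLocallyConstant w) (hw : IsLaw w) :
    ∃ (w' : Ω → Fin r → ℝ) (hwc' : IsLocallyConstant w') (hw' : IsLaw w'),
      (∀ ω, B ω ≠ i → w' ω = w ω) ∧ (∀ ω, B ω = i → ∃ c, w' ω = dirac c) ∧
      O.μ (O.shareC hwc' hw' hf.zero f.natDegree) ≤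
        O.μ (O.shareC hwc hw hf.zero f.natDegree) + 3 * γ * O.μ (batchC hB i) := by
  set m := f.natDegree
  have hcV : Continuous fun ω => O.V w f (O.ball ω m) := by
    have h := O.shareC hwc hw hf.zero m
    rw [continuous_iff_continuousAt]
    intro ω₀
    obtain ⟨n, ψ, i₀, hev⟩ := O.exists_chart ω₀ m
    obtain ⟨hi, -, -⟩ := hev.self_of_nhds
    refine ((O.locCont_V hwc hw hf.zero) n ψ [] ω₀ hi).congr ?_
    filter_upwards [hev] with ω hω
    rw [hω.2.1]
  obtain ⟨κ, hκ, hκle⟩ := exists_choice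
    (fun c ω => O.V (update w ω (dirac c)) f (O.ball ω m) - O.V w f (O.ball ω m))
    (fun c => (O.continuous_V_update hwc hw hf.zero m c).sub hcV) (3 * γ)
    (fun ω => by
      obtain ⟨c, hc⟩ := O.exists_colour_V_le hf hη hw ω m
      exact ⟨c, by linarith⟩)
  let w' : Ω → Fin r → ℝ := fun ω => if B ω = i then dirac (κ ω) else w ω
  have hwc' : IsLocallyConstant w' := by
    rw [IsLocallyConstant.iff_eventually_eq]
    intro ω
    filter_upwards [hB.eventually_eq ω, hκ.eventually_eq ω, hwc.eventually_eq ω] with y h1 h2 h3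
    simp only [w', h1, h2, h3]
  have hw' : IsLaw w' := fun ω => by
    simp only [w']
    split_ifs
    · exact ⟨fun c' => by simp only [dirac]; split_ifs <;> simp, by simp [dirac]⟩
    · exact hw ω
  refine ⟨w', hwc', hw', fun ω h => if_neg h, fun ω h => ⟨κ ω, if_pos h⟩, ?_⟩
  set D : Finset Ω → ℝ := fun S => mob (O.V w' f) S - mob (O.V w f) S with hD
  set g : Ω → Finset Ω → ℝ := fun v S => if B v = i then D S else 0 with hgdef
  have hg : O.LocCont g := by
    have hp : IsLocallyConstant fun v => B v = i := hB.comp fun j => j = i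
    have h1 : O.LocCont fun _ S => mob (O.V w' f) S := (O.locCont_V hwc' hw' hf.zero).mob
    have h2 : O.LocCont fun _ S => mob (O.V w f) S := (O.locCont_V hwc hw hf.zero).mob
    exact (h1.sub O h2).indicator O hp
  -- the change is supported on small connected sets containing exactly one point of the batch
  have hsupp : ∀ S, O.SameOrbit S → D S ≠ 0 → ∀ a ∈ S, S ⊆ O.ball a m := by
    intro S hS hne a ha
    by_cases hc : S.card ≤ m
    · refine O.subset_ball_of_no_gap (Nat.le_succ_of_le hc) (fun hgap => hne ?_) ha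
      simp only [hD, O.mob_V_eq_zero hw' hf.zero hS (Or.inr hgap),
        O.mob_V_eq_zero hw hf.zero hS (Or.inr hgap), sub_zero]
    · refine absurd ?_ hne
      push Not at hc
      simp only [hD, O.mob_V_eq_zero hw' hf.zero hS (Or.inl hc),
        O.mob_V_eq_zero hw hf.zero hS (Or.inl hc), sub_zero]
  have hsum : ∀ S, O.SameOrbit S → ∑ v ∈ S, g v S = D S := by
    intro S hS
    by_cases hne : D S = 0
    · simp [hgdef, hne]
    by_cases hex : ∃ v ∈ S, B v = i
    · obtain ⟨v, hv, hBv⟩ := hex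
      rw [Finset.sum_eq_single v]
      · simp [hgdef, hBv]
      · intro u hu huv
        simp only [hgdef]
        rw [if_neg]
        exact fun hBu => huv (hsep v u (hsupp S hS hne v hv hu) (hBv.trans hBu.symm)).symm
      · exact fun h => absurd hv h
    · push Not at hex
      refine absurd ?_ hne
      simp only [hD, sub_eq_zero]
      exact mob_congr fun T hT => O.V_congr (fun a ha => if_neg (hex a (hT ha))) f
  obtain ⟨F, G, hF, hG, hμ⟩ := O.transport (O.spread g m) m (O.continuous_spread hg m)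
  have hG' : G = O.shareC hwc' hw' hf.zero m - O.shareC hwc hw hf.zero m := by
    ext ω
    rw [hG, O.sum_spread_right (g := g)
      (fun v S _ hS hne a ha => hsupp S hS (fun e => hne (by simp [hgdef, e])) a ha)]
    simp only [ContinuousMap.sub_apply, shareC_apply, ← Finset.sum_sub_distrib]
    refine Finset.sum_congr rfl fun S hS => ?_
    simp only [Finset.mem_filter, Finset.mem_powerset] at hS
    rw [hsum S (O.sameOrbit_of_subset_ball hS.1), ← sub_div]
  have hF' : ∀ ω, F ω ≤ ((3 * γ) • batchC hB i) ω := by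
    intro ω
    rw [hF, O.sum_spread_left]
    show _ ≤ 3 * γ * (if B ω = i then (1 : ℝ) else 0)
    by_cases hBω : B ω = i
    · rw [if_pos hBω, mul_one]
      simp only [hgdef, if_pos hBω, hD, Finset.sum_sub_distrib, sum_mob_mem]
      have e1 : O.V w' f ((O.ball ω m).erase ω) = O.V w f ((O.ball ω m).erase ω) :=
        O.V_congr (fun a ha => if_neg fun hBa => (Finset.mem_erase.1 ha).1
          (hsep ω a (Finset.mem_erase.1 ha).2 (hBω.trans hBa.symm)).symm) f
      have e2 : O.V w' f (O.ball ω m) = O.V (update w ω (dirac (κ ω))) f (O.ball ω m) :=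
        O.V_congr (fun a ha => by
          rcases eq_or_ne a ω with rfl | h
          · rw [update_self]; exact if_pos hBω
          · rw [update_of_ne h]
            exact if_neg fun hBa => h (hsep ω a ha (hBω.trans hBa.symm)).symm) f
      rw [e1, e2]
      linarith [hκle ω]
    · simp [hgdef, if_neg hBω]
  have := O.μ_mono hF'
  rw [hμ, hG', map_sub, map_smul, smul_eq_mul] at this
  linarith

/-- Deterministic colours: the traced averaged increment is the traced diagonal value. -/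
theorem exists_det_transport {κ : Ω → Fin r} (hκ : IsLocallyConstant κ) {f : ℝ[X]}
    (hf : f.eval 0 = 0) {w : Ω → Fin r → ℝ} (hwc : IsLocallyConstant w) (hw : IsLaw w)
    (hdir : ∀ ω, w ω = dirac (κ ω)) :
    ∃ F : C(Ω, ℝ), (∀ ω, F ω = O.Ψ κ f ω (O.ball ω f.natDegree)) ∧
      O.μ F = O.μ (O.shareC hwc hw hf f.natDegree) := by
  set m := f.natDegree
  set g : Ω → Finset Ω → ℝ := fun v S => mob (O.Ψ κ f v) S with hgdef
  have hsupp : ∀ v S, v ∈ S → O.SameOrbit S → g v S ≠ 0 → ∀ a ∈ S, S ⊆ O.ball a m := by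
    intro v S hv hS hne a ha
    by_cases hc : S.card ≤ m + 1
    · exact O.subset_ball_of_no_gap hc
        (fun hgap => hne (O.mob_Ψ_eq_zero κ hf hv hS (Or.inr hgap))) ha
    · exact absurd (O.mob_Ψ_eq_zero κ hf hv hS (Or.inl (Nat.lt_of_not_le hc))) hne
  have hΨ0 : ∀ {v : Ω} {S : Finset Ω}, v ∉ S → O.Ψ κ f v S = 0 := fun h => by
    rw [Ψ, dif_neg h]
  have hVΨ : ∀ T, O.SameOrbit T → O.V w f T = ∑ v ∈ T, O.Ψ κ f v T := by
    intro T hT
    obtain ⟨φ, ω, hφ⟩ := O.exists_labels hT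
    have hinj : Injective fun a : T => O.act (φ a) ω := fun a b e =>
      Subtype.ext (by simpa [hφ] using e)
    have himg : (Finset.univ.image fun a : T => O.act (φ a) ω) = T := by
      ext x; simp [hφ]
    have h1 := O.V_eq w f φ ω hinj
    rw [himg] at h1
    rw [h1, show (fun a : T => w (O.act (φ a) ω)) =
      fun a : T => dirac (κ (O.act (φ a) ω)) from funext fun a => hdir _,
      potential_dirac (O.posSemidef_lblMat hinj).1.1 _ hf, ← Finset.sum_coe_sort T]
    refine Finset.sum_congr rfl fun a _ => ?_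
    have h2 := O.Ψ_eq κ hf φ ω hinj a
    rw [himg, hφ] at h2
    exact h2.symm
  have hg : O.LocCont g := (O.locCont_Ψ hκ hf).mob
  obtain ⟨F, G, hF, hG, hμ⟩ := O.transport (O.spread g m) m (O.continuous_spread hg m)
  refine ⟨F, fun ω => ?_, ?_⟩
  · rw [hF, O.sum_spread_left]
    simp only [hgdef]
    rw [sum_mob_mem, hΨ0 (Finset.notMem_erase ω _), sub_zero]
  · rw [hμ]
    congr 1
    ext ω
    rw [hG, O.sum_spread_right hsupp, shareC_apply]
    refine Finset.sum_congr rfl fun S hS => ?_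
    simp only [Finset.mem_filter, Finset.mem_powerset] at hS
    congr 1
    rw [← mob_sum]
    refine (mob_congr fun T hT => ?_).symm
    rw [hVΨ T (O.sameOrbit_of_subset_ball (hT.trans hS.1))]
    exact Finset.sum_subset hT fun v _ hv => hΨ0 hv

/-- The starting state. -/
theorem μ_share_uniform_le (hB : UniformRootBound) {t t₀ η γ : ℝ} {f : ℝ[X]}
    (hf : NearStep t η γ f) (hη : 0 < η) (hr : 0 < r) (hα : 0 ≤ α)
    (ht₀ : (1 / Real.sqrt r + Real.sqrt α) ^ 2 ≤ t₀) (ht : t₀ < t) (m : ℕ)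
    (hwc : IsLocallyConstant fun _ : Ω => uniformLaw Unit r ())
    (hw : IsLaw fun _ : Ω => uniformLaw Unit r ()) :
    O.μ (O.shareC hwc hw hf.zero m) ≤ γ + η / (π * (t - t₀) ^ 2) := by
  refine (O.μ_mono (g := ContinuousMap.const Ω _) fun ω => ?_).trans (O.μ_const _).le
  rw [shareC_apply, ContinuousMap.const_apply]
  exact (le_abs_self _).trans (abs_share_le (φ := O.V _ f) (O.self_mem_ball ω m)
    fun U hU hωU => O.abs_V_uniform_sub_le hB hf hη hr hα ht₀ ht hU hωU)

theorem polyDiag_eq (κ : Ω → Fin r) (f : ℝ[X]) (ω : Ω) (k : ℕ) (hk : f.natDegree = k) :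
    O.polyDiag κ f ω = diagVal (O.window κ ω k) f ⟨ω, O.self_mem_ball ω k⟩ := by
  subst hk
  unfold polyDiag diagVal
  obtain rfl : ‹DecidableEq Ω› = fun a b => Classical.propDecidable (a = b) := Subsingleton.elim _ _
  rfl

theorem Ψ_ball (κ : Ω → Fin r) (f : ℝ[X]) (ω : Ω) (k : ℕ) :
    O.Ψ κ f ω (O.ball ω k) = diagVal (O.window κ ω k) f ⟨ω, O.self_mem_ball ω k⟩ := by
  rw [Ψ, dif_pos (O.self_mem_ball ω k)]
  rfl

end OrbitModel

/-- The core theorem. -/
theorem coreStatement (hB : UniformRootBound) : CoreStatement := by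
  intro Ω _ _ _ _ L r α t δ O hr hα ht hδ
  classical
  have hpi := Real.pi_pos
  set s := (1 / Real.sqrt r + Real.sqrt α) ^ 2 with hs
  set t₀ := (s + t) / 2 with ht₀def
  have ht₀ : s ≤ t₀ := by rw [ht₀def]; linarith
  have ht₀t : t₀ < t := by rw [ht₀def]; linarith
  have ht0 : 0 < t := lt_of_le_of_lt (sq_nonneg _) ht
  have hd : 0 < t - t₀ := sub_pos.2 ht₀t
  set η := min t (δ * π * (t - t₀) ^ 2 / 10) with hηdef
  set γ := min (1 / 20) (δ / 40) with hγdef
  have hη : 0 < η := lt_min ht0 (by positivity)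
  have hγ : 0 < γ := lt_min (by norm_num) (by positivity)
  obtain ⟨f, hf⟩ := exists_nearStep (t := t) hη hγ
  set m := f.natDegree with hm
  obtain ⟨N, B, hBc, hsep⟩ := O.exists_batches m
  have main : ∀ J : Finset (Fin N), ∃ (w : Ω → Fin r → ℝ) (hwc : IsLocallyConstant w)
      (hw : IsLaw w), (∀ ω, B ω ∈ J → ∃ c, w ω = dirac c) ∧
      O.μ (O.shareC hwc hw hf.zero m) ≤ γ + η / (π * (t - t₀) ^ 2) +
        3 * γ * ∑ j ∈ J, O.μ (OrbitModel.batchC hBc j) := by
    intro J
    induction J using Finset.induction_on with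
    | empty =>
      have hwc : IsLocallyConstant fun _ : Ω => uniformLaw Unit r () := IsLocallyConstant.const _
      have hw : IsLaw fun _ : Ω => uniformLaw Unit r () := fun _ => isLaw_uniform hr ()
      have h0 := O.μ_share_uniform_le hB hf hη hr hα ht₀ ht₀t m hwc hw
      refine ⟨fun _ : Ω => uniformLaw Unit r (), hwc, hw,
        fun ω h => absurd h (Finset.notMem_empty _), ?_⟩
      rw [Finset.sum_empty, mul_zero, add_zero]
      exact h0
    | @insert i J hi ih =>
      obtain ⟨w, hwc, hw, hdir, hle⟩ := ih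
      obtain ⟨w', hwc', hw', hsame, hnew, hle'⟩ :=
        O.exists_batch_step hf hη hγ hBc hsep i hwc hw
      refine ⟨w', hwc', hw', fun ω hω => ?_, ?_⟩
      · rcases eq_or_ne (B ω) i with h | h
        · exact hnew ω h
        · rw [hsame ω h]
          exact hdir ω ((Finset.mem_insert.1 hω).resolve_left h)
      · rw [Finset.sum_insert hi]
        linarith
  obtain ⟨w, hwc, hw, hdir, hle⟩ := main Finset.univ
  have : Nonempty (Fin r) := ⟨⟨0, hr⟩⟩
  let pick : (Fin r → ℝ) → Fin r := fun v =>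
    if h : ∃ c, v = dirac c then h.choose else Classical.arbitrary _
  have hpick : ∀ ω, w ω = dirac (pick (w ω)) := fun ω => by
    have h := hdir ω (Finset.mem_univ _)
    simp only [pick, dif_pos h]
    exact h.choose_spec
  obtain ⟨F, hF, hμF⟩ := O.exists_det_transport (hwc.comp pick) hf.zero hwc hw hpick
  refine ⟨C 5 * f, fun x hx => ?_, fun x hx => ?_, pick ∘ w, hwc.comp pick, (5 : ℝ) • F,
    fun ω => ?_, ?_⟩
  · have h1 := abs_le.1 (hf.close hη hx)
    have h2 : 0 ≤ step t η x := by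
      have := monotone_step (t := t) hη hx.1
      simpa [step] using this
    have h3 : γ ≤ δ / 40 := min_le_right _ _
    rw [eval_mul, eval_C]
    linarith
  · have hx' : x ∈ Set.Icc (0 : ℝ) 1 := ⟨ht0.le.trans hx.1, hx.2⟩
    have h1 := abs_le.1 (hf.close hη hx')
    have h2 := quarter_le_step hη (min_le_left _ _) hx.1
    have h3 : γ ≤ 1 / 20 := min_le_left _ _
    rw [eval_mul, eval_C]
    linarith
  · rw [O.polyDiag_eq _ _ ω m (natDegree_C_mul (by norm_num)), ContinuousMap.smul_apply, hF,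
      O.Ψ_ball, smul_eq_mul]
    simp only [diagVal, map_mul, aeval_C, Matrix.algebraMap_eq_diagonal, Matrix.diagonal_mul]
    simp
    rfl
  · rw [map_smul, smul_eq_mul, hμF]
    have hsum : ∑ j, O.μ (OrbitModel.batchC hBc j) = 1 := by
      rw [← map_sum, OrbitModel.sum_batchC hBc, O.μ_one]
    rw [hsum] at hle
    have h1 : η / (π * (t - t₀) ^ 2) ≤ δ / 10 := by
      rw [div_le_iff₀ (by positivity)]
      calc η ≤ δ * π * (t - t₀) ^ 2 / 10 := min_le_right _ _
        _ = _ := by ring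
    have h3 : γ ≤ δ / 40 := min_le_right _ _
    linarith

end Vale.Agent.P078.Cartan
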