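import Vale.Agent.P078.Cartan.Local

/-!
The smoothed step, its polynomial approximation and the estimates for one point.
-/

namespace Vale.Agent.P078.Cartan

open Polynomial Function
open scoped Real ComplexOrder

/-- The smoothed step at `t` of width `η`, vanishing at `0`. -/
noncomputable def step (t η x : ℝ) : ℝ :=
  (Real.arctan (t / η) - Real.arctan ((t - x) / η)) / π

/-- Its derivative. -/
noncomputable def step' (t η x : ℝ) : ℝ :=
  η / (π * ((t - x) ^ 2 + η ^ 2))

theorem hasDerivAt_step {t η : ℝ} (hη : 0 < η) (x : ℝ) :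
    HasDerivAt (step t η) (step' t η x) x := by
  have h := (((((hasDerivAt_id x).const_sub t).div_const η).arctan).const_sub
    (Real.arctan (t / η))).div_const π
  refine h.congr_deriv ?_
  simp only [step', id_eq]
  have hpi := Real.pi_ne_zero
  field_simp
  ring

theorem continuous_step' {t η : ℝ} (hη : 0 < η) : Continuous (step' t η) := by
  unfold step'
  refine continuous_const.div (by fun_prop) fun x => ?_
  have := Real.pi_pos
  positivity

theorem step'_nonneg {t η : ℝ} (hη : 0 < η) (x : ℝ) : 0 ≤ step' t η x := by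
  have := Real.pi_pos
  unfold step'
  positivity

theorem step'_le {t t₀ η x : ℝ} (hη : 0 < η) (ht : t₀ < t) (hx : x ≤ t₀) :
    step' t η x ≤ η / (π * (t - t₀) ^ 2) := by
  have hpi := Real.pi_pos
  have h0 : 0 < t - t₀ := by linarith
  unfold step'
  gcongr
  nlinarith

theorem monotone_step {t η : ℝ} (hη : 0 < η) : Monotone (step t η) :=
  monotone_of_hasDerivAt_nonneg (hasDerivAt_step hη) (step'_nonneg hη)

theorem quarter_le_step {t η x : ℝ} (hη : 0 < η) (hηt : η ≤ t) (hx : t ≤ x) :
    1 / 4 ≤ step t η x := by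
  refine le_trans ?_ (monotone_step hη hx)
  have hpi := Real.pi_pos
  have h : π / 4 ≤ Real.arctan (t / η) := by
    rw [← Real.arctan_one]
    exact Real.arctan_mono ((one_le_div hη).2 hηt)
  simp only [step, sub_self, zero_div, Real.arctan_zero, sub_zero]
  rw [le_div_iff₀ hpi]
  linarith

theorem arg_sub_eq {t η : ℝ} (hη : 0 < η) (x : ℝ) :
    Complex.arg ((t : ℂ) + η * Complex.I - x) = π / 2 - Real.arctan ((t - x) / η) := by
  set u := (t - x) / η
  have e : (t : ℂ) + η * Complex.I - x =
      ((η : ℝ) : ℂ) * ((u : ℂ) + Complex.I) := by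
    have : (η : ℂ) * (u : ℂ) = (t - x : ℝ) := by
      rw [← Complex.ofReal_mul]; congr 1; simp only [u]; field_simp
    rw [mul_add, this]
    push_cast
    ring
  rw [e, Complex.arg_real_mul _ hη]
  have hs : 0 < √(1 + u ^ 2) := Real.sqrt_pos.2 (by positivity)
  have e2 : (u : ℂ) + Complex.I = (√(1 + u ^ 2) : ℂ) *
      (Complex.cos ((π / 2 - Real.arctan u : ℝ) : ℂ) +
        Complex.sin ((π / 2 - Real.arctan u : ℝ) : ℂ) * Complex.I) := by
    rw [← Complex.ofReal_cos, ← Complex.ofReal_sin, Real.cos_pi_div_two_sub,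
      Real.sin_pi_div_two_sub, Real.sin_arctan, Real.cos_arctan, mul_add, ← mul_assoc,
      ← Complex.ofReal_mul, ← Complex.ofReal_mul, mul_div_cancel₀ _ hs.ne',
      mul_div_cancel₀ _ hs.ne']
    push_cast
    ring
  rw [e2, Complex.arg_mul_cos_add_sin_mul_I hs]
  constructor <;> linarith [Real.neg_pi_div_two_lt_arctan u, Real.arctan_lt_pi_div_two u,
    Real.pi_pos]

theorem sum_step_eq {t η : ℝ} (hη : 0 < η) (R : Multiset ℝ) :
    (R.map (step t η)).sum =
      (argSum R ((t : ℂ) + η * Complex.I) +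
        Multiset.card R * (Real.arctan (t / η) - π / 2)) / π := by
  induction R using Multiset.induction_on with
  | empty => simp [argSum]
  | cons a R ih =>
    simp only [argSum, Multiset.map_cons, Multiset.sum_cons, Multiset.card_cons, ih,
      arg_sub_eq hη, step]
    push_cast
    ring

/-- The antiderivative vanishing at `0`. -/
noncomputable def antider (g : ℝ[X]) : ℝ[X] :=
  ∑ k ∈ Finset.range (g.natDegree + 1), C (g.coeff k / (k + 1)) * X ^ (k + 1)

theorem derivative_antider (g : ℝ[X]) : derivative (antider g) = g := by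
  conv_rhs => rw [g.as_sum_range]
  rw [antider, derivative_sum]
  refine Finset.sum_congr rfl fun k _ => ?_
  rw [derivative_C_mul_X_pow, ← C_mul_X_pow_eq_monomial, Nat.add_sub_cancel]
  congr 2
  push_cast
  field_simp

theorem antider_eval_zero (g : ℝ[X]) : (antider g).eval 0 = 0 := by
  simp [antider, eval_finsetSum]

/-- A polynomial close to the step on `[0, 1]`, together with the derivative. -/
structure NearStep (t η γ : ℝ) (f : ℝ[X]) : Prop where
  zero : f.eval 0 = 0
  deriv : ∀ x ∈ Set.Icc (0 : ℝ) 1, |(derivative f).eval x - step' t η x| ≤ γ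

theorem exists_nearStep {t η γ : ℝ} (hη : 0 < η) (hγ : 0 < γ) :
    ∃ f : ℝ[X], NearStep t η γ f := by
  obtain ⟨g, hg⟩ := exists_polynomial_near_of_continuousOn 0 1 (step' t η)
    (continuous_step' hη).continuousOn γ hγ
  exact ⟨antider g, antider_eval_zero g, fun x hx => by
    rw [derivative_antider]; exact (hg x hx).le⟩

variable {t η γ : ℝ} {f : ℝ[X]}

theorem NearStep.close (h : NearStep t η γ f) (hη : 0 < η) {x : ℝ}
    (hx : x ∈ Set.Icc (0 : ℝ) 1) : |f.eval x - step t η x| ≤ γ := by
  have hd : ∀ y ∈ Set.Icc (0 : ℝ) 1, HasDerivWithinAt (fun y => f.eval y - step t η y)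
      ((derivative f).eval y - step' t η y) (Set.Icc 0 1) y :=
    fun y _ => ((f.hasDerivAt y).sub (hasDerivAt_step hη y)).hasDerivWithinAt
  have := (convex_Icc (0 : ℝ) 1).norm_image_sub_le_of_norm_hasDerivWithin_le hd
    (fun y hy => by simpa using h.deriv y hy) (Set.left_mem_Icc.2 zero_le_one) hx
  simp only [h.zero, step, sub_zero, sub_self, zero_div, Real.norm_eq_abs] at this
  rw [abs_of_nonneg hx.1] at this
  have hγ : 0 ≤ γ := (abs_nonneg _).trans (h.deriv 0 (Set.left_mem_Icc.2 zero_le_one))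
  exact this.trans (by nlinarith [hx.2])

/-- Interlacing bound for the approximation error. -/
theorem NearStep.pick_error (h : NearStep t η γ f) (hη : 0 < η) {P Q : Multiset ℝ}
    (hPQ : Pick P Q) {b : ℝ} (hb : b ∈ Set.Icc (0 : ℝ) 1)
    (hP : ∀ s ∈ P, s ∈ Set.Icc 0 b) (hQ : ∀ s ∈ Q, s ∈ Set.Icc 0 b) :
    |((P.map fun x => f.eval x).sum - (P.map (step t η)).sum) -
      ((Q.map fun x => f.eval x).sum - (Q.map (step t η)).sum)| ≤ γ := by
  have hγ : 0 ≤ γ := (abs_nonneg _).trans (h.deriv 0 (Set.left_mem_Icc.2 zero_le_one))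
  have := hPQ.abs_sum_sub_le (e := fun x => f.eval x - step t η x)
    (e' := fun x => (derivative f).eval x - step' t η x) (a := 0) (b := b) (M := γ)
    (fun x => (f.hasDerivAt x).sub (hasDerivAt_step hη x))
    ((derivative f).continuous.sub (continuous_step' hη))
    (fun x hx => h.deriv x ⟨hx.1, hx.2.trans hb.2⟩) ⟨le_rfl, hb.1⟩ hP hQ
  simp only [Multiset.sum_map_sub, h.zero, step, sub_zero, sub_self, zero_div, abs_zero,
    add_zero, zero_add] at this
  refine le_trans ?_ (this.trans (by nlinarith [hb.1, hb.2]))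
  exact le_of_eq rfl

set_option linter.unusedSectionVars false

variable {ι : Type*} [Fintype ι] [DecidableEq ι] {r : ℕ}

theorem mask_eq_mul (G : Matrix ι ι ℂ) (U : Finset ι) :
    mask G U = (Matrix.diagonal fun i => if i ∈ U then (1 : ℂ) else 0).conjTranspose * G *
      Matrix.diagonal fun i => if i ∈ U then (1 : ℂ) else 0 := by
  ext a b
  simp only [mask, Matrix.of_apply, Matrix.diagonal_conjTranspose, Matrix.mul_diagonal,
    Matrix.diagonal_mul, Pi.star_apply]
  split_ifs <;> simp_all

theorem posSemidef_mask {G : Matrix ι ι ℂ} (hG : G.PosSemidef) (hG1 : (1 - G).PosSemidef)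
    (U : Finset ι) : (mask G U).PosSemidef ∧ (1 - mask G U).PosSemidef := by
  constructor
  · rw [mask_eq_mul]; exact hG.conjTranspose_mul_mul_same _
  · have e : 1 - mask G U = mask (1 - G) U +
        Matrix.diagonal fun i => if i ∈ U then (0 : ℂ) else 1 := by
      ext a b
      rcases eq_or_ne a b with rfl | hab
      · simp only [mask, Matrix.of_apply, Matrix.sub_apply, Matrix.one_apply_eq,
          Matrix.add_apply, Matrix.diagonal_apply_eq, and_self]
        split_ifs <;> simp
      · simp only [mask, Matrix.of_apply, Matrix.sub_apply, Matrix.one_apply_ne hab,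
          Matrix.add_apply, Matrix.diagonal_apply_ne _ hab, zero_sub, add_zero]
        split_ifs <;> simp
    rw [e, mask_eq_mul]
    refine (hG1.conjTranspose_mul_mul_same _).add (Matrix.PosSemidef.diagonal fun i => ?_)
    split_ifs <;> simp

/-- Some colour of a point raises the potential by at most `2 γ`. -/
theorem exists_colour_potential_le (h : NearStep t η γ f) (hη : 0 < η) {G : Matrix ι ι ℂ}
    (hG : G.PosSemidef) (hG1 : (1 - G).PosSemidef) {w : ι → Fin r → ℝ} (hw : IsLaw w) (i : ι) :
    ∃ c, potential G (update w i (dirac c)) f ≤ potential G w f + 2 * γ := by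
  have hz : 0 < ((t : ℂ) + η * Complex.I).im := by simpa using hη
  obtain ⟨c, hc⟩ := exists_colour_le hG.1 hw i hz
  refine ⟨c, ?_⟩
  have hwc := isLaw_dirac_update hw i c
  obtain ⟨hm, hm1⟩ := posSemidef_mask hG hG1 (Finset.univ.erase i)
  have e1 := h.pick_error hη (pick_maskE hG.1 hwc i) ⟨zero_le_one, le_rfl⟩
    (fun s hs => roots_mem_Icc hG hG1 hwc hs) (fun s hs => roots_mem_Icc hm hm1 hwc hs)
  have e2 := h.pick_error hη (pick_maskE hG.1 hw i) ⟨zero_le_one, le_rfl⟩
    (fun s hs => roots_mem_Icc hG hG1 hw hs) (fun s hs => roots_mem_Icc hm hm1 hw hs)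
  rw [roots_maskE_dirac hw] at e1
  rw [abs_le] at e1 e2
  have hstep : ((roots G (update w i (dirac c))).map (step t η)).sum ≤
      ((roots G w).map (step t η)).sum := by
    rw [sum_step_eq hη, sum_step_eq hη, card_roots G hwc, card_roots G hw]
    have := Real.pi_pos
    gcongr
  simp only [potential]
  linarith [e1.1, e1.2, e2.1, e2.2]

theorem isLaw_uniform (hr : 0 < r) : IsLaw (uniformLaw ι r) := fun i =>
  ⟨fun c => by simp [uniformLaw], by
    simp [uniformLaw, Finset.card_univ]
    field_simp⟩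

/-- Uniform laws: roots lie below the MSS bound. -/
theorem roots_le_of_uniform (hB : UniformRootBound) {α : ℝ} (hr : 0 < r) (hα : 0 ≤ α)
    {G : Matrix ι ι ℂ} (hG : G.PosSemidef) (hG1 : (1 - G).PosSemidef)
    (hd : ∀ i, (G i i).re ≤ α) {s : ℝ} (hs : s ∈ roots G (uniformLaw ι r)) :
    s ≤ (1 / Real.sqrt r + Real.sqrt α) ^ 2 := by
  by_contra hlt
  push Not at hlt
  let e := (Fintype.equivFin ι).symm
  apply hB _ r hr (G.submatrix e e) α hα (hG.submatrix e)
    (by
      have := hG1.submatrix e
      rwa [Matrix.submatrix_sub, Pi.sub_apply, Pi.sub_apply, Matrix.submatrix_one_equiv] at this)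
    (fun i => hd _) s hlt
  have e1 : echar (G.submatrix e e) (uniformLaw (Fin (Fintype.card ι)) r) =
      echar G (uniformLaw ι r) :=
    echar_reindex G (uniformLaw ι r) e
  rw [e1, echar_eval_eq hG.1 (isLaw_uniform hr)]
  exact Multiset.prod_eq_zero (Multiset.mem_map.2 ⟨s, hs, sub_self _⟩)

/-- The initial increment at a point is small. -/
theorem uniform_increment_le (h : NearStep t η γ f) (hη : 0 < η) (hB : UniformRootBound)
    {α t₀ : ℝ} (hr : 0 < r) (hα : 0 ≤ α) (ht₀ : (1 / Real.sqrt r + Real.sqrt α) ^ 2 ≤ t₀)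
    (ht : t₀ < t) {G : Matrix ι ι ℂ} (hG : G.PosSemidef) (hG1 : (1 - G).PosSemidef)
    (hd : ∀ i, (G i i).re ≤ α) (i : ι) :
    |potential G (uniformLaw ι r) f - potential (maskE G i) (uniformLaw ι r) f| ≤
      γ + η / (π * (t - t₀) ^ 2) := by
  have hw := isLaw_uniform (ι := ι) hr
  obtain ⟨hm, hm1⟩ := posSemidef_mask hG hG1 (Finset.univ.erase i)
  have hpick := pick_maskE hG.1 hw i
  set b := min t₀ 1
  have hb : b ∈ Set.Icc (0 : ℝ) 1 :=
    ⟨le_min ((sq_nonneg _).trans ht₀) zero_le_one, min_le_right _ _⟩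
  have hdm : ∀ j, (maskE G i j j).re ≤ α := fun j => by
    rw [maskE_apply]
    split_ifs
    · exact hd j
    · simpa using hα
  have hP : ∀ s ∈ roots G (uniformLaw ι r), s ∈ Set.Icc 0 b := fun s hs =>
    ⟨(roots_mem_Icc hG hG1 hw hs).1,
      le_min ((roots_le_of_uniform hB hr hα hG hG1 hd hs).trans ht₀)
        (roots_mem_Icc hG hG1 hw hs).2⟩
  have hQ : ∀ s ∈ roots (maskE G i) (uniformLaw ι r), s ∈ Set.Icc 0 b := fun s hs =>
    ⟨(roots_mem_Icc hm hm1 hw hs).1,
      le_min ((roots_le_of_uniform hB hr hα hm hm1 hdm hs).trans ht₀)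
        (roots_mem_Icc hm hm1 hw hs).2⟩
  have e1 := h.pick_error hη hpick hb hP hQ
  have e2 := hpick.abs_sum_sub_le (e := step t η) (e' := step' t η) (a := 0) (b := b)
    (M := η / (π * (t - t₀) ^ 2)) (fun x => hasDerivAt_step hη x) (continuous_step' hη)
    (fun x hx => by
      rw [abs_of_nonneg (step'_nonneg hη x)]
      exact step'_le hη ht (hx.2.trans (min_le_left _ _))) ⟨le_rfl, hb.1⟩ hP hQ
  have hz : step t η 0 = 0 := by simp [step]
  simp only [hz, abs_zero, add_zero, zero_add, sub_zero] at e2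
  have hM : 0 ≤ η / (π * (t - t₀) ^ 2) := by have := Real.pi_pos; positivity
  simp only [potential]
  have e3 := e2.trans (mul_le_of_le_one_right hM hb.2)
  rw [abs_le] at e1 e3 ⊢
  constructor <;> linarith [e1.1, e1.2, e3.1, e3.2]

end Vale.Agent.P078.Cartan
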