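import Vale.Agent.P078.Cartan.Model
import Vale.Agent.P078.Cartan.Window

/-!
Orbits of an `OrbitModel`: words, balls, mass transport, and separated clopen batches.
-/

namespace Vale.Agent.P078.Cartan

namespace OrbitModel

open Function Filter Topology

set_option linter.unusedSectionVars false

variable {Ω : Type} [TopologicalSpace Ω] [CompactSpace Ω] [T2Space Ω] [TotallyDisconnectedSpace Ω]
  {L : ℕ} {α : ℝ} (O : OrbitModel Ω L α)

theorem act_nil (ω : Ω) : O.act [] ω = ω := rfl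

theorem act_cons (g : Fin L) (w : List (Fin L)) (ω : Ω) :
    O.act (g :: w) ω = O.T g (O.act w ω) := rfl

theorem act_append (w w' : List (Fin L)) (ω : Ω) :
    O.act (w ++ w') ω = O.act w (O.act w' ω) := by
  simp [act]

/-- The inverse word. -/
def rev (w : List (Fin L)) : List (Fin L) := w.reverse.map O.inv

theorem length_rev (w : List (Fin L)) : (O.rev w).length = w.length := by simp [rev]

theorem act_rev (w : List (Fin L)) (ω : Ω) : O.act (O.rev w) (O.act w ω) = ω := by
  induction w with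
  | nil => rfl
  | cons g w ih =>
    have : O.rev (g :: w) = O.rev w ++ [O.inv g] := by simp [rev]
    rw [this, act_append, act_cons, act_cons, act_nil, O.T_inv, ih]

theorem act_act_rev (w : List (Fin L)) (ω : Ω) : O.act w (O.act (O.rev w) ω) = ω := by
  induction w generalizing ω with
  | nil => rfl
  | cons g w ih =>
    have : O.rev (g :: w) = O.rev w ++ [O.inv g] := by simp [rev]
    rw [this, act_append, act_cons, act_cons, act_nil, ih]
    have h := O.T_inv g ((O.T g).symm ω)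
    rw [(O.T g).apply_symm_apply] at h
    rw [h, (O.T g).apply_symm_apply]

theorem continuous_act (w : List (Fin L)) : Continuous (O.act w) := by
  induction w with
  | nil => exact continuous_id
  | cons g w ih => exact (O.T g).continuous.comp ih

/-- The action of a word as a permutation. -/
def perm (w : List (Fin L)) : Equiv.Perm Ω :=
  ⟨O.act w, O.act (O.rev w), O.act_rev w, O.act_act_rev w⟩

/-- The words of length at most `k`. -/
def wordsLE (L : ℕ) : ℕ → Finset (List (Fin L))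
  | 0 => {[]}
  | k + 1 => wordsLE L k ∪ ((Finset.univ : Finset (Fin L)) ×ˢ wordsLE L k).image fun p => p.1 :: p.2

theorem mem_wordsLE {w : List (Fin L)} {k : ℕ} : w ∈ wordsLE L k ↔ w.length ≤ k := by
  induction k generalizing w with
  | zero => simp [wordsLE]
  | succ k ih =>
    simp only [wordsLE, Finset.mem_union, Finset.mem_image, Finset.mem_product, Finset.mem_univ,
      true_and, Prod.exists, ih]
    constructor
    · rintro (h | ⟨g, v, hv, rfl⟩)
      · omega
      · simp; omega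
    · intro h
      cases w with
      | nil => exact Or.inl (by simp)
      | cons g v => exact Or.inr ⟨g, v, by simpa using h, rfl⟩

theorem mem_ball {ω v : Ω} {k : ℕ} :
    v ∈ O.ball ω k ↔ ∃ w : List (Fin L), w.length ≤ k ∧ O.act w ω = v := by
  classical
  induction k generalizing v with
  | zero => simp [ball, act_nil, eq_comm]
  | succ k ih =>
    simp only [ball, Finset.mem_union, Finset.mem_biUnion, Finset.mem_image, Finset.mem_univ,
      true_and, ih]
    constructor
    · rintro (⟨w, hw, e⟩ | ⟨u, ⟨w, hw, rfl⟩, g, rfl⟩)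
      · exact ⟨w, by omega, e⟩
      · exact ⟨g :: w, by simp; omega, rfl⟩
    · rintro ⟨w, hw, e⟩
      cases w with
      | nil => exact Or.inl ⟨[], by simp, e⟩
      | cons g v' => exact Or.inr ⟨_, ⟨v', by simpa using hw, rfl⟩, g, e⟩

theorem mem_ball_comm {ω v : Ω} {k : ℕ} : v ∈ O.ball ω k ↔ ω ∈ O.ball v k := by
  simp only [mem_ball]
  constructor <;> rintro ⟨w, hw, rfl⟩ <;>
    exact ⟨O.rev w, by rwa [length_rev], O.act_rev w _⟩

theorem ball_eq_image [DecidableEq Ω] (ω : Ω) (k : ℕ) :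
    O.ball ω k = (wordsLE L k).image fun w => O.act w ω := by
  ext v
  simp [mem_ball, mem_wordsLE]

theorem ball_mono (ω : Ω) {a b : ℕ} (h : a ≤ b) : O.ball ω a ⊆ O.ball ω b := fun v hv => by
  rw [mem_ball] at hv ⊢
  obtain ⟨w, hw, e⟩ := hv
  exact ⟨w, hw.trans h, e⟩

theorem act_name {ω v : Ω} {w : List (Fin L)} (h : O.act w ω = v) :
    O.act (O.name ω v) ω = v := by
  classical
  unfold name
  split_ifs with h1 h2
  · rw [act_nil, h1]
  · exact h2.choose_spec
  · exact absurd ⟨w, h⟩ h2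

theorem isClopen_eq (w w' : List (Fin L)) : IsClopen {ω | O.act w ω = O.act w' ω} :=
  ⟨isClosed_eq (O.continuous_act w) (O.continuous_act w'), O.isOpen_eq w w'⟩

theorem eventually_eq_iff (w w' : List (Fin L)) (ω₀ : Ω) :
    ∀ᶠ ω in 𝓝 ω₀, (O.act w ω = O.act w' ω ↔ O.act w ω₀ = O.act w' ω₀) := by
  by_cases h : O.act w ω₀ = O.act w' ω₀
  · filter_upwards [(O.isClopen_eq w w').2.mem_nhds h] with ω hω
    exact iff_of_true hω h
  · filter_upwards [(O.isClopen_eq w w').compl.2.mem_nhds h] with ω hω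
    exact iff_of_false hω h

/-! ### Mass transport -/

open Classical in
/-- The permutations given by words of length at most `k`. -/
noncomputable def perms (k : ℕ) : Finset (Equiv.Perm Ω) := (wordsLE L k).image O.perm

theorem mem_perms {k : ℕ} {g : Equiv.Perm Ω} :
    g ∈ O.perms k ↔ ∃ w : List (Fin L), w.length ≤ k ∧ O.perm w = g := by
  classical
  simp [perms, mem_wordsLE]

theorem symm_mem_perms {k : ℕ} {g : Equiv.Perm Ω} (h : g ∈ O.perms k) : g.symm ∈ O.perms k := by
  rw [mem_perms] at h ⊢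
  obtain ⟨w, hw, rfl⟩ := h
  exact ⟨O.rev w, by rwa [length_rev], Equiv.ext fun _ => rfl⟩

open Classical in
/-- The number of permutations taking `ω` to `u`. -/
noncomputable def mult (k : ℕ) (ω u : Ω) : ℝ := ((O.perms k).filter fun g => g ω = u).card

theorem mult_comm (k : ℕ) (ω u : Ω) : O.mult k ω u = O.mult k u ω := by
  classical
  unfold mult
  congr 1
  refine Finset.card_nbij' (fun g => g.symm) (fun g => g.symm) ?_ ?_
    (fun g _ => g.symm_symm) (fun g _ => g.symm_symm)
  all_goals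
    intro g hg
    simp only [Finset.coe_filter, Set.mem_ofPred_eq] at hg ⊢
    exact ⟨O.symm_mem_perms hg.1, by rw [Equiv.symm_apply_eq, hg.2]⟩

theorem sum_ball_eq_sum_perms (k : ℕ) (ω : Ω) (F : Ω → ℝ) :
    ∑ u ∈ O.ball ω k, F u = ∑ g ∈ O.perms k, F (g ω) / O.mult k ω (g ω) := by
  classical
  have hball : O.ball ω k = (O.perms k).image fun g => g ω := by
    ext v
    simp only [Finset.mem_image, mem_perms, mem_ball]
    constructor
    · rintro ⟨w, hw, e⟩; exact ⟨_, ⟨w, hw, rfl⟩, e⟩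
    · rintro ⟨_, ⟨w, hw, rfl⟩, e⟩; exact ⟨w, hw, e⟩
  rw [hball, ← Finset.sum_fiberwise_of_maps_to (g := fun g : Equiv.Perm Ω => g ω)
    (fun g hg => Finset.mem_image_of_mem _ hg)]
  refine Finset.sum_congr rfl fun u hu => ?_
  have hc : ∀ g ∈ (O.perms k).filter (fun g => g ω = u),
      F (g ω) / O.mult k ω (g ω) = F u / O.mult k ω u := fun g hg => by
    rw [(Finset.mem_filter.1 hg).2]
  rw [Finset.sum_congr rfl hc, Finset.sum_const, nsmul_eq_mul]
  obtain ⟨g, hg, e⟩ := Finset.mem_image.1 hu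
  have : O.mult k ω u ≠ 0 := by
    have : 0 < ((O.perms k).filter fun g => g ω = u).card :=
      Finset.card_pos.2 ⟨g, Finset.mem_filter.2 ⟨hg, e⟩⟩
    rw [mult]
    exact_mod_cast this.ne'
  rw [mult] at this ⊢
  field_simp

theorem continuous_mult (k : ℕ) (w : List (Fin L)) :
    Continuous fun ω => O.mult k ω (O.act w ω) := by
  classical
  refine (IsLocallyConstant.continuous ?_)
  rw [IsLocallyConstant.iff_eventually_eq]
  intro ω₀
  have h : ∀ g ∈ O.perms k, ∀ᶠ ω in 𝓝 ω₀, (g ω = O.act w ω ↔ g ω₀ = O.act w ω₀) := by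
    intro g hg
    obtain ⟨v, -, rfl⟩ := O.mem_perms.1 hg
    exact O.eventually_eq_iff v w ω₀
  filter_upwards [(O.perms k).eventually_all.2 h] with ω hω
  simp only [mult]
  congr 2
  exact Finset.filter_congr hω

theorem μ_inv_act (w : List (Fin L)) (f : C(Ω, ℝ)) :
    O.μ (f.comp ⟨O.act w, O.continuous_act w⟩) = O.μ f := by
  induction w generalizing f with
  | nil => rfl
  | cons g w ih =>
    have : f.comp ⟨O.act (g :: w), O.continuous_act _⟩ =
        (f.comp (O.T g : C(Ω, Ω))).comp ⟨O.act w, O.continuous_act w⟩ := rfl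
    rw [this, ih, O.μ_inv]

/-- Mass transport. -/
theorem transport (H : Ω → Ω → ℝ) (k : ℕ)
    (hH : ∀ w : List (Fin L), Continuous fun ω => H ω (O.act w ω)) :
    ∃ F G : C(Ω, ℝ), (∀ ω, F ω = ∑ u ∈ O.ball ω k, H ω u) ∧
      (∀ ω, G ω = ∑ u ∈ O.ball ω k, H u ω) ∧ O.μ F = O.μ G := by
  classical
  have hcont : ∀ g : Equiv.Perm Ω, g ∈ O.perms k →
      Continuous fun ω => H ω (g ω) / O.mult k ω (g ω) := by
    intro g hg
    obtain ⟨w, -, rfl⟩ := O.mem_perms.1 hg
    refine (hH w).div (O.continuous_mult k w) fun ω => ?_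
    have : 0 < ((O.perms k).filter fun g => g ω = O.act w ω).card :=
      Finset.card_pos.2 ⟨O.perm w, Finset.mem_filter.2 ⟨hg, rfl⟩⟩
    show O.mult k ω (O.act w ω) ≠ 0
    rw [mult]
    exact_mod_cast this.ne'
  let term : {g // g ∈ O.perms k} → C(Ω, ℝ) := fun g => ⟨_, hcont g.1 g.2⟩
  have hperm : ∀ g : {g // g ∈ O.perms k}, Continuous (g.1.symm : Ω → Ω) := fun g => by
    obtain ⟨w, -, e⟩ := O.mem_perms.1 g.2
    rw [← e]
    exact O.continuous_act _
  refine ⟨∑ g, term g, ∑ g, (term g).comp ⟨g.1.symm, hperm g⟩, fun ω => ?_, fun ω => ?_, ?_⟩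
  · rw [ContinuousMap.sum_apply, O.sum_ball_eq_sum_perms k ω]
    exact Finset.sum_coe_sort (O.perms k) fun g => H ω (g ω) / O.mult k ω (g ω)
  · rw [ContinuousMap.sum_apply, O.sum_ball_eq_sum_perms k ω]
    show ∑ g : {g // g ∈ O.perms k}, H (g.1.symm ω) (g.1 (g.1.symm ω)) /
      O.mult k (g.1.symm ω) (g.1 (g.1.symm ω)) = _
    simp only [Equiv.apply_symm_apply]
    rw [Finset.sum_coe_sort (O.perms k) fun g => H (g.symm ω) ω / O.mult k (g.symm ω) ω]
    refine Finset.sum_nbij' (fun g => g.symm) (fun g => g.symm)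
      (fun g hg => O.symm_mem_perms hg) (fun g hg => O.symm_mem_perms hg)
      (fun g _ => g.symm_symm) (fun g _ => g.symm_symm) fun g _ => ?_
    rw [O.mult_comm k (g.symm ω) ω]
  · rw [map_sum, map_sum]
    refine Finset.sum_congr rfl fun g _ => ?_
    obtain ⟨w, -, e⟩ := O.mem_perms.1 g.2
    have : (⟨g.1.symm, hperm g⟩ : C(Ω, Ω)) = ⟨O.act (O.rev w), O.continuous_act _⟩ := by
      ext ω; show g.1.symm ω = _; rw [← e]; rfl
    rw [this, O.μ_inv_act]

theorem μ_mono {f g : C(Ω, ℝ)} (h : ∀ ω, f ω ≤ g ω) : O.μ f ≤ O.μ g := by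
  have := O.μ_nonneg (g - f) fun ω => sub_nonneg.2 (h ω)
  rw [map_sub] at this
  linarith

theorem μ_const (c : ℝ) : O.μ (ContinuousMap.const Ω c) = c := by
  have : ContinuousMap.const Ω c = c • (1 : C(Ω, ℝ)) := by ext; simp
  rw [this, map_smul, O.μ_one, smul_eq_mul, mul_one]

/-! ### Separated clopen batches -/

/-- Finitely many disjoint clopen batches covering everything, each `m`-separated. -/
theorem exists_batches (m : ℕ) : ∃ (N : ℕ) (B : Ω → Fin N), IsLocallyConstant B ∧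
    ∀ u v, v ∈ O.ball u m → B u = B v → u = v := by
  classical
  have hnb : ∀ ω₀ : Ω, ∃ C : Set Ω, IsClopen C ∧ ω₀ ∈ C ∧
      ∀ u ∈ C, ∀ w ∈ wordsLE L m, O.act w u ∈ C → O.act w u = u := by
    intro ω₀
    have h : ∀ w ∈ wordsLE L m, ∃ D : Set Ω, IsClopen D ∧ ω₀ ∈ D ∧
        ∀ u ∈ D, O.act w u ∈ D → O.act w u = u := by
      intro w _
      by_cases hw : O.act w ω₀ = ω₀
      · exact ⟨{ω | O.act w ω = O.act [] ω}, O.isClopen_eq w [], hw, fun u hu _ => hu⟩
      · obtain ⟨U, V, hU, hV, hωU, hwV, hdis⟩ := t2_separation (Ne.symm hw)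
        obtain ⟨D, hD, hωD, hDsub⟩ := compact_exists_isClopen_in_isOpen
          (hU.inter (hV.preimage (O.continuous_act w))) ⟨hωU, hwV⟩
        exact ⟨D, hD, hωD, fun u hu hu' =>
          (Set.disjoint_left.1 hdis (hDsub hu').1 (hDsub hu).2).elim⟩
    choose D hD hωD hDP using h
    refine ⟨⋂ w : {w // w ∈ wordsLE L m}, D w.1 w.2,
      ⟨isClosed_iInter fun w => (hD w.1 w.2).1, isOpen_iInter_of_finite fun w => (hD w.1 w.2).2⟩,
      Set.mem_iInter.2 fun w => hωD w.1 w.2, fun u hu w hw hwu => ?_⟩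
    exact hDP w hw u (Set.mem_iInter.1 hu ⟨w, hw⟩) (Set.mem_iInter.1 hwu ⟨w, hw⟩)
  choose C hC hωC hCP using hnb
  obtain ⟨s, hs⟩ := isCompact_univ.elim_finite_subcover C (fun ω => (hC ω).2)
    fun ω _ => Set.mem_iUnion.2 ⟨ω, hωC ω⟩
  let l := s.toList
  have hex : ∀ ω, ∃ i : Fin l.length, ω ∈ C (l.get i) := fun ω => by
    obtain ⟨x, hx, hωx⟩ := Set.mem_iUnion₂.1 (hs (Set.mem_univ ω))
    obtain ⟨i, hi⟩ := List.get_of_mem (Finset.mem_toList.2 hx)
    exact ⟨i, hi ▸ hωx⟩
  refine ⟨l.length, fun ω => Fin.find (fun i => ω ∈ C (l.get i)) (hex ω), ?_, ?_⟩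
  · rw [IsLocallyConstant.iff_eventually_eq]
    intro ω₀
    have : ∀ i : Fin l.length, ∀ᶠ ω in 𝓝 ω₀, (ω ∈ C (l.get i) ↔ ω₀ ∈ C (l.get i)) := by
      intro i
      by_cases h : ω₀ ∈ C (l.get i)
      · filter_upwards [(hC _).2.mem_nhds h] with ω hω
        exact iff_of_true hω h
      · filter_upwards [(hC _).compl.2.mem_nhds h] with ω hω
        exact iff_of_false hω h
    filter_upwards [eventually_all.2 this] with ω hω
    simp only [hω]
  · intro u v hv huv
    obtain ⟨w, hw, rfl⟩ := O.mem_ball.1 hv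
    have h1 := Fin.find_spec (hex u)
    have h2 := Fin.find_spec (hex (O.act w u))
    simp only [← huv] at h2
    exact (hCP _ u h1 w (mem_wordsLE.2 hw) h2).symm

/-- A locally constant choice of an index at which a continuous family is below the level. -/
theorem exists_choice {r : ℕ} (F : Fin r → Ω → ℝ) (hF : ∀ c, Continuous (F c)) (γ : ℝ)
    (h : ∀ ω, ∃ c, F c ω < γ) : ∃ κ : Ω → Fin r, IsLocallyConstant κ ∧ ∀ ω, F (κ ω) ω < γ := by
  classical
  have hnb : ∀ ω, ∃ C : Set Ω, IsClopen C ∧ ω ∈ C ∧ ∀ u ∈ C, F (h ω).choose u < γ := fun ω => by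
    obtain ⟨C, hC, hωC, hCsub⟩ := compact_exists_isClopen_in_isOpen
      (isOpen_lt (hF (h ω).choose) continuous_const) (h ω).choose_spec
    exact ⟨C, hC, hωC, fun u hu => hCsub hu⟩
  choose C hC hωC hCP using hnb
  obtain ⟨s, hs⟩ := isCompact_univ.elim_finite_subcover C (fun ω => (hC ω).2)
    fun ω _ => Set.mem_iUnion.2 ⟨ω, hωC ω⟩
  let l := s.toList
  have hex : ∀ ω, ∃ i : Fin l.length, ω ∈ C (l.get i) := fun ω => by
    obtain ⟨x, hx, hωx⟩ := Set.mem_iUnion₂.1 (hs (Set.mem_univ ω))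
    obtain ⟨i, hi⟩ := List.get_of_mem (Finset.mem_toList.2 hx)
    exact ⟨i, hi ▸ hωx⟩
  refine ⟨fun ω => (h (l.get (Fin.find (fun i => ω ∈ C (l.get i)) (hex ω)))).choose, ?_,
    fun ω => hCP _ ω (Fin.find_spec (hex ω))⟩
  rw [IsLocallyConstant.iff_eventually_eq]
  intro ω₀
  have : ∀ i : Fin l.length, ∀ᶠ ω in 𝓝 ω₀, (ω ∈ C (l.get i) ↔ ω₀ ∈ C (l.get i)) := by
    intro i
    by_cases h : ω₀ ∈ C (l.get i)
    · filter_upwards [(hC _).2.mem_nhds h] with ω hω
      exact iff_of_true hω h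
    · filter_upwards [(hC _).compl.2.mem_nhds h] with ω hω
      exact iff_of_false hω h
  filter_upwards [eventually_all.2 this] with ω hω
  simp only [hω]

end OrbitModel

end Vale.Agent.P078.Cartan
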