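import Mathlib

/-!
Sums of arguments `arg (z - root)` of real-rooted polynomials whose ratio lies in the upper
half plane: exact branch, and the resulting interlacing bound for sums over roots.
-/

namespace Vale.Agent.P078.Cartan

open Filter Topology MeasureTheory
open scoped Real

/-- The sum of `arg (z - t)` over a multiset of real numbers. -/
noncomputable def argSum (R : Multiset ℝ) (z : ℂ) : ℝ :=
  (R.map fun t : ℝ => Complex.arg (z - t)).sum

/-- The monic product at `z`. -/
noncomputable def rootProd (R : Multiset ℝ) (z : ℂ) : ℂ :=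
  (R.map fun t : ℝ => z - t).prod

/-- The number of elements above `t`. -/
noncomputable def countAbove (R : Multiset ℝ) (t : ℝ) : ℝ :=
  (R.map fun s : ℝ => if t < s then (1 : ℝ) else 0).sum

theorem continuousAt_argSum (R : Multiset ℝ) {z : ℂ} (hz : 0 < z.im) :
    ContinuousAt (argSum R) z := by
  induction R using Multiset.induction_on with
  | empty =>
    have : argSum 0 = fun _ : ℂ => (0 : ℝ) := by ext w; simp [argSum]
    rw [this]; exact continuousAt_const
  | cons a R ih =>
    have h : ContinuousAt (fun w : ℂ => Complex.arg (w - a)) z :=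
      ContinuousAt.comp (Complex.continuousAt_arg
        (Complex.mem_slitPlane_iff.2 (Or.inr (by simp [hz.ne']))))
        (continuousAt_id.sub continuousAt_const)
    refine (h.add ih).congr (Eventually.of_forall fun w => ?_)
    simp [argSum]

theorem rootProd_eq (R : Multiset ℝ) (z : ℂ) :
    rootProd R z = (‖rootProd R z‖ : ℂ) * Complex.exp (argSum R z * Complex.I) := by
  induction R using Multiset.induction_on with
  | empty => simp [rootProd, argSum]
  | cons a R ih =>
    have h1 : rootProd (a ::ₘ R) z = (z - a) * rootProd R z := by simp [rootProd]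
    have h2 : argSum (a ::ₘ R) z = Complex.arg (z - a) + argSum R z := by simp [argSum]
    rw [h1, h2, norm_mul, Complex.ofReal_mul, Complex.ofReal_add, add_mul, Complex.exp_add]
    conv_lhs => rw [ih, ← Complex.norm_mul_exp_arg_mul_I (z - a)]
    ring

theorem rootProd_ne_zero (R : Multiset ℝ) {z : ℂ} (hz : z.im ≠ 0) : rootProd R z ≠ 0 := by
  unfold rootProd
  apply Multiset.prod_ne_zero
  intro h
  obtain ⟨t, -, ht⟩ := Multiset.mem_map.1 h
  have := congrArg Complex.im ht
  simp at this
  exact hz this

/-- For large imaginary part every argument is close to `π / 2`. -/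
theorem tendsto_argSum (R : Multiset ℝ) (x : ℝ) :
    Tendsto (fun T : ℝ => argSum R ((x : ℂ) + T * Complex.I)) atTop
      (𝓝 (Multiset.card R * (π / 2))) := by
  induction R using Multiset.induction_on with
  | empty => simpa [argSum] using tendsto_const_nhds
  | cons a R ih =>
    have h : Tendsto (fun T : ℝ => Complex.arg (((x - a) / T : ℝ) + Complex.I)) atTop
        (𝓝 (Complex.arg Complex.I)) := by
      refine (Complex.continuousAt_arg (Complex.mem_slitPlane_iff.2 (Or.inr (by simp)))).tendsto.comp ?_
      have h0 : Tendsto (fun T : ℝ => (x - a) / T) atTop (𝓝 0) :=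
        Tendsto.div_atTop tendsto_const_nhds tendsto_id
      have h1 : Tendsto (fun T : ℝ => (((x - a) / T : ℝ) : ℂ)) atTop (𝓝 0) := by
        exact (Complex.continuous_ofReal.tendsto' 0 0 Complex.ofReal_zero).comp h0
      simpa using h1.add_const Complex.I
    have h' : Tendsto (fun T : ℝ => Complex.arg ((x : ℂ) + T * Complex.I - a)) atTop
        (𝓝 (π / 2)) := by
      rw [Complex.arg_I] at h
      refine h.congr' ?_
      filter_upwards [eventually_gt_atTop 0] with T hT
      have : (x : ℂ) + T * Complex.I - a = (T : ℂ) * (((x - a) / T : ℝ) + Complex.I) := by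
        have hT0 : (T : ℂ) ≠ 0 := by exact_mod_cast hT.ne'
        push_cast
        rw [mul_add, mul_div_cancel₀ _ hT0]
        ring
      rw [this, Complex.arg_real_mul _ hT]
    have := h'.add ih
    simp only [argSum, Multiset.map_cons, Multiset.sum_cons, Multiset.card_cons] at this ⊢
    convert this using 2
    push_cast
    ring

/-- A pair of root systems whose ratio, times `z`, maps the upper half plane into itself. -/
def Pick (P Q : Multiset ℝ) : Prop :=
  Multiset.card P = Multiset.card Q ∧
    ∀ z : ℂ, 0 < z.im → 0 < (z * rootProd P z / rootProd Q z).im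

/-- The branch of the argument is exact. -/
theorem Pick.argSum_eq {P Q : Multiset ℝ} (h : Pick P Q) {z : ℂ} (hz : 0 < z.im) :
    argSum P z - argSum Q z + Complex.arg z =
      Complex.arg (z * rootProd P z / rootProd Q z) := by
  set D : ℂ → ℝ := fun w => argSum P w - argSum Q w + Complex.arg w with hD
  have key : ∀ w : ℂ, 0 < w.im → ∃ c : ℝ, 0 < c ∧
      w * rootProd P w / rootProd Q w = (c : ℂ) * Complex.exp (D w * Complex.I) := by
    intro w hw
    refine ⟨‖w‖ * ‖rootProd P w‖ / ‖rootProd Q w‖, ?_, ?_⟩
    · have h0 : w ≠ 0 := fun e => by simp [e] at hw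
      exact div_pos (mul_pos (norm_pos_iff.2 h0) (norm_pos_iff.2 (rootProd_ne_zero P hw.ne')))
        (norm_pos_iff.2 (rootProd_ne_zero Q hw.ne'))
    · have h1 := rootProd_eq P w
      have h2 := rootProd_eq Q w
      have h3 := (Complex.norm_mul_exp_arg_mul_I w).symm
      rw [hD]
      set eP := Complex.exp (argSum P w * Complex.I) with heP
      set eQ := Complex.exp (argSum Q w * Complex.I) with heQ
      set eW := Complex.exp (Complex.arg w * Complex.I) with heW
      have hexp : Complex.exp (((argSum P w - argSum Q w + Complex.arg w : ℝ) : ℂ) * Complex.I) =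
          eP / eQ * eW := by
        rw [heP, heQ, heW, ← Complex.exp_sub, ← Complex.exp_add]
        congr 1
        push_cast
        ring
      simp only [hexp]
      calc w * rootProd P w / rootProd Q w
          = ((‖w‖ : ℂ) * eW) * ((‖rootProd P w‖ : ℂ) * eP) / ((‖rootProd Q w‖ : ℂ) * eQ) := by
            rw [← h1, ← h2, ← h3]
        _ = _ := by push_cast; ring
  have hsin : ∀ w : ℂ, 0 < w.im → 0 < Real.sin (D w) := by
    intro w hw
    obtain ⟨c, hc, e⟩ := key w hw
    have := h.2 w hw
    rw [e, Complex.im_ofReal_mul, Complex.exp_ofReal_mul_I_im] at this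
    exact (pos_iff_pos_of_mul_pos this).1 hc
  -- along the vertical ray through `z`
  set g : ℝ → ℝ := fun T => D ((z.re : ℂ) + T * Complex.I) with hg
  have him : ∀ T : ℝ, ((z.re : ℂ) + T * Complex.I).im = T := fun T => by simp
  have hcont : ContinuousOn g (Set.Ici z.im) := by
    intro T hT
    have hT0 : 0 < ((z.re : ℂ) + T * Complex.I).im := by
      rw [him]; exact hz.trans_le hT
    have hc : ContinuousAt D ((z.re : ℂ) + T * Complex.I) :=
      ((continuousAt_argSum P hT0).sub (continuousAt_argSum Q hT0)).add
        (Complex.continuousAt_arg (Complex.mem_slitPlane_iff.2 (Or.inr hT0.ne')))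
    exact (hc.comp (f := fun T : ℝ => (z.re : ℂ) + T * Complex.I)
      (by fun_prop)).continuousWithinAt
  have hlim : Tendsto g atTop (𝓝 (π / 2)) := by
    have h1 := (tendsto_argSum P z.re).sub (tendsto_argSum Q z.re)
    have h2 := tendsto_argSum {0} z.re
    have := h1.add h2
    simp only [hg, hD]
    rw [h.1] at this
    simpa [argSum] using this
  have hpi := Real.pi_pos
  have hrange : 0 < D z ∧ D z < π := by
    have hz' : g z.im = D z := by simp [hg, Complex.re_add_im]
    obtain ⟨T, hT, hT1, hT2⟩ := ((eventually_ge_atTop z.im).and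
      ((hlim.eventually (eventually_gt_nhds (by positivity))).and
        (hlim.eventually (eventually_lt_nhds (show π / 2 < π by linarith))))).exists
    have hne : ∀ S ∈ Set.Icc z.im T, g S ≠ 0 ∧ g S ≠ π := by
      intro S hS
      have := hsin _ (show 0 < ((z.re : ℂ) + S * Complex.I).im by rw [him]; exact hz.trans_le hS.1)
      constructor <;> intro e <;> simp only [hg] at e <;> rw [e] at this <;> simp at this
    have hc := hcont.mono (Set.Icc_subset_Ici_self : Set.Icc z.im T ⊆ _)
    rw [← hz']
    constructor
    · by_contra hle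
      push Not at hle
      obtain ⟨S, hS, e⟩ := intermediate_value_Icc hT hc ⟨hle, hT1.le⟩
      exact (hne S hS).1 e
    · by_contra hle
      push Not at hle
      obtain ⟨S, hS, e⟩ := intermediate_value_Icc' hT hc ⟨hT2.le, hle⟩
      exact (hne S hS).2 e
  obtain ⟨c, hc, e⟩ := key z hz
  rw [e, Complex.arg_real_mul _ hc, Complex.arg_exp]
  simp only [Complex.mul_im, Complex.ofReal_re, Complex.I_im, Complex.ofReal_im, Complex.I_re,
    mul_one, mul_zero, add_zero]
  exact ((toIocMod_eq_self _).2 ⟨by linarith [hrange.1], by linarith [hrange.2]⟩).symm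

/-- Boundary values of the argument sums. -/
theorem tendsto_argSum_boundary (R : Multiset ℝ) {t : ℝ} (ht : t ∉ R) :
    Tendsto (fun η : ℝ => argSum R ((t : ℂ) + η * Complex.I)) (𝓝[>] 0)
      (𝓝 (π * countAbove R t)) := by
  induction R using Multiset.induction_on with
  | empty => simpa [argSum, countAbove] using tendsto_const_nhds
  | cons a R ih =>
    rw [Multiset.mem_cons, not_or] at ht
    have h' : Tendsto (fun η : ℝ => Complex.arg ((t : ℂ) + η * Complex.I - a)) (𝓝[>] 0)
        (𝓝 (if t < a then π else 0)) := by
      have hc : Tendsto (fun η : ℝ => (t : ℂ) + η * Complex.I - a) (𝓝[>] 0)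
          (𝓝 ((t - a : ℝ) : ℂ)) := by
        have : Continuous (fun η : ℝ => (t : ℂ) + η * Complex.I - a) := by fun_prop
        have h0 := (this.tendsto 0).mono_left (nhdsWithin_le_nhds (s := Set.Ioi 0))
        simpa using h0
      rcases lt_or_gt_of_ne ht.1 with hlt | hgt
      · rw [if_pos hlt]
        have hcw : Tendsto (fun η : ℝ => (t : ℂ) + η * Complex.I - a) (𝓝[>] 0)
            (𝓝[{w : ℂ | 0 ≤ w.im}] ((t - a : ℝ) : ℂ)) := by
          refine tendsto_nhdsWithin_iff.2 ⟨hc, ?_⟩
          filter_upwards [self_mem_nhdsWithin] with η hη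
          simpa using le_of_lt (Set.mem_Ioi.1 hη)
        exact (Complex.tendsto_arg_nhdsWithin_im_nonneg_of_re_neg_of_im_zero
          (z := ((t - a : ℝ) : ℂ)) (by simpa using hlt) (by simp)).comp hcw
      · rw [if_neg (not_lt.2 hgt.le)]
        have := (Complex.continuousAt_arg (Complex.mem_slitPlane_iff.2
          (Or.inl (show 0 < ((t - a : ℝ) : ℂ).re by simpa using hgt)))).tendsto.comp hc
        rwa [Complex.arg_ofReal_of_nonneg (by linarith)] at this
    have := h'.add (ih ht.2)
    simp only [argSum, countAbove, Multiset.map_cons, Multiset.sum_cons] at this ⊢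
    convert this using 2
    split_ifs <;> ring

/-- Interlacing: the counting functions differ by at most one. -/
theorem Pick.count_bounds {P Q : Multiset ℝ} (h : Pick P Q) {t : ℝ} (hP : t ∉ P) (hQ : t ∉ Q)
    (h0 : t ≠ 0) :
    0 ≤ countAbove P t - countAbove Q t + (if t < 0 then 1 else 0) ∧
      countAbove P t - countAbove Q t + (if t < 0 then 1 else 0) ≤ 1 := by
  have h1 := ((tendsto_argSum_boundary P hP).sub (tendsto_argSum_boundary Q hQ)).add
    (tendsto_argSum_boundary {0} (t := t) (by simpa using h0))
  have hev : ∀ᶠ η : ℝ in 𝓝[>] 0, (argSum P ((t : ℂ) + η * Complex.I) -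
      argSum Q ((t : ℂ) + η * Complex.I) + argSum {0} ((t : ℂ) + η * Complex.I)) ∈
        Set.Icc (0 : ℝ) π := by
    filter_upwards [self_mem_nhdsWithin] with η hη
    have hz : 0 < ((t : ℂ) + η * Complex.I).im := by simpa using hη
    have := h.argSum_eq hz
    have e : argSum {0} ((t : ℂ) + η * Complex.I) = Complex.arg ((t : ℂ) + η * Complex.I) := by
      simp [argSum]
    rw [e, this]
    exact ⟨Complex.arg_nonneg_iff.2 (h.2 _ hz).le, Complex.arg_le_pi _⟩
  have := isClosed_Icc.mem_of_tendsto h1 hev
  have e0 : countAbove {0} t = if t < 0 then 1 else 0 := by simp [countAbove]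
  rw [e0] at this
  have hpi := Real.pi_pos
  constructor
  · have h2 := this.1
    nlinarith
  · have h2 := this.2
    nlinarith

/-- Sums of a `C¹` function over the roots. -/
theorem sum_eq_integral {a b : ℝ} {e e' : ℝ → ℝ} (he : ∀ t, HasDerivAt e (e' t) t)
    (he' : Continuous e') (R : Multiset ℝ) (hR : ∀ s ∈ R, s ∈ Set.Icc a b) :
    (R.map e).sum = Multiset.card R * e a + ∫ t in a..b, countAbove R t * e' t ∧
      IntervalIntegrable (fun t => countAbove R t * e' t) volume a b := by
  induction R using Multiset.induction_on with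
  | empty => simp [countAbove]
  | cons s R ih =>
    obtain ⟨hs, hR'⟩ := Multiset.forall_mem_cons.1 hR
    obtain ⟨ih1, ih2⟩ := ih hR'
    have hind : (fun t => (if t < s then (1 : ℝ) else 0) * e' t) =
        Set.indicator (Set.Iio s) e' := by
      ext t; simp [Set.indicator, Set.mem_Iio]
    have hint : IntervalIntegrable (fun t => (if t < s then (1 : ℝ) else 0) * e' t) volume a b := by
      rw [hind, intervalIntegrable_iff]
      exact (intervalIntegrable_iff.1 (he'.intervalIntegrable a b)).indicator measurableSet_Iio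
    have hval : ∫ t in a..b, (if t < s then (1 : ℝ) else 0) * e' t = e s - e a := by
      rw [hind, intervalIntegral.integral_of_le (hs.1.trans hs.2), setIntegral_indicator measurableSet_Iio,
        setIntegral_congr_set (show (Set.Ioc a b ∩ Set.Iio s : Set ℝ) =ᵐ[volume] Set.Ioc a s by
          have : Set.Ioc a b ∩ Set.Iio s = Set.Ioo a s := by
            ext t; simp only [Set.mem_inter_iff, Set.mem_Ioc, Set.mem_Iio, Set.mem_Ioo]
            constructor
            · exact fun h => ⟨h.1.1, h.2⟩
            · exact fun h => ⟨⟨h.1, (h.2.trans_le hs.2).le⟩, h.2⟩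
          rw [this]; exact Ioo_ae_eq_Ioc),
        ← intervalIntegral.integral_of_le hs.1,
        intervalIntegral.integral_eq_sub_of_hasDerivAt (fun t _ => he t)
          (he'.intervalIntegrable a s)]
    have hfun : (fun t => countAbove (s ::ₘ R) t * e' t) =
        fun t => (if t < s then (1 : ℝ) else 0) * e' t + countAbove R t * e' t := by
      ext t; simp only [countAbove, Multiset.map_cons, Multiset.sum_cons]; ring
    refine ⟨?_, hfun ▸ hint.add ih2⟩
    rw [hfun, intervalIntegral.integral_add hint ih2, hval]
    simp only [Multiset.map_cons, Multiset.sum_cons, Multiset.card_cons, ih1]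
    push_cast
    ring

/-- Interlacing bound for sums over roots in `[a, b]`, `0 ∈ [a, b]`. -/
theorem Pick.abs_sum_sub_le {P Q : Multiset ℝ} (h : Pick P Q) {a b M : ℝ} {e e' : ℝ → ℝ}
    (he : ∀ t, HasDerivAt e (e' t) t) (he' : Continuous e')
    (hM : ∀ t ∈ Set.Icc a b, |e' t| ≤ M) (h0 : 0 ∈ Set.Icc a b)
    (hP : ∀ s ∈ P, s ∈ Set.Icc a b) (hQ : ∀ s ∈ Q, s ∈ Set.Icc a b) :
    |(P.map e).sum - (Q.map e).sum + e 0| ≤ |e a| + M * (b - a) := by
  obtain ⟨p1, p2⟩ := sum_eq_integral he he' P hP
  obtain ⟨q1, q2⟩ := sum_eq_integral he he' Q hQ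
  obtain ⟨z1, z2⟩ := sum_eq_integral (a := a) (b := b) he he' {(0 : ℝ)} (by simpa using h0)
  have e1 : (P.map e).sum - (Q.map e).sum + e 0 = e a +
      ∫ t in a..b, (countAbove P t - countAbove Q t + countAbove {0} t) * e' t := by
    have hf : (fun t => (countAbove P t - countAbove Q t + countAbove {0} t) * e' t) =
        fun t => countAbove P t * e' t - countAbove Q t * e' t + countAbove {0} t * e' t := by
      ext t; ring
    rw [hf, intervalIntegral.integral_add (p2.sub q2) z2, intervalIntegral.integral_sub p2 q2]
    simp only [Multiset.map_singleton, Multiset.sum_singleton, Multiset.card_singleton,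
      Nat.cast_one, one_mul] at z1
    rw [p1, q1, z1, h.1]
    ring
  rw [e1]
  refine (abs_add_le _ _).trans (add_le_add le_rfl ?_)
  have hfin : (↑(P + Q + {0}).toFinset : Set ℝ).Finite := Finset.finite_toSet _
  have := intervalIntegral.norm_integral_le_of_norm_le_const_ae (a := a) (b := b) (C := M)
    (f := fun t => (countAbove P t - countAbove Q t + countAbove {0} t) * e' t) ?_
  · rwa [Real.norm_eq_abs, abs_of_nonneg (by linarith [h0.1, h0.2] : 0 ≤ b - a)] at this
  · have hae : ∀ᵐ t ∂volume, t ∉ (↑(P + Q + {0}).toFinset : Set ℝ) :=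
      measure_eq_zero_iff_ae_notMem.1 (hfin.measure_zero _)
    filter_upwards [hae] with t ht hmem
    simp only [Multiset.mem_add, Multiset.mem_singleton, Finset.mem_coe, Multiset.mem_toFinset,
      not_or] at ht
    obtain ⟨l, u⟩ := h.count_bounds ht.1.1 ht.1.2 ht.2
    have e0 : countAbove {0} t = if t < 0 then 1 else 0 := by simp [countAbove]
    rw [Real.norm_eq_abs, abs_mul, e0, abs_of_nonneg l]
    have htI : t ∈ Set.Icc a b := by
      rw [Set.uIoc_of_le (h0.1.trans h0.2)] at hmem
      exact Set.Ioc_subset_Icc_self hmem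
    calc _ ≤ 1 * M := mul_le_mul u (hM t htI) (abs_nonneg _) zero_le_one
      _ = M := one_mul M

end Vale.Agent.P078.Cartan
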