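import Mathlib

/-!
Expected characteristic polynomials of random pinchings (local MSS for Cartan MASAs).
-/

namespace Vale.Agent.P078.Cartan

open Polynomial
open scoped ComplexOrder

variable {ι : Type*} [Fintype ι] [DecidableEq ι] {r : ℕ}

/-- The pinching of a matrix by a colouring. -/
def pinch (G : Matrix ι ι ℂ) (s : ι → Fin r) : Matrix ι ι ℂ :=
  Matrix.of fun i j => if s i = s j then G i j else 0

/-- The probability of a colouring for independent colours with the laws `w i`. -/
def weight (w : ι → Fin r → ℝ) (s : ι → Fin r) : ℂ := ∏ i, (w i (s i) : ℂ)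

/-- Independent colour laws. -/
def IsLaw (w : ι → Fin r → ℝ) : Prop := ∀ i, (∀ c, 0 ≤ w i c) ∧ ∑ c, w i c = 1

/-- The uniform colour law. -/
noncomputable def uniformLaw (ι : Type*) (r : ℕ) : ι → Fin r → ℝ := fun _ _ => 1 / r

/-- The expected `det (diag z - pinching)`. -/
noncomputable def Fdet (G : Matrix ι ι ℂ) (w : ι → Fin r → ℝ) (z : ι → ℂ) : ℂ :=
  ∑ s : ι → Fin r, weight w s * (Matrix.diagonal z - pinch G s).det

/-- The expected characteristic polynomial. -/
noncomputable def echar (G : Matrix ι ι ℂ) (w : ι → Fin r → ℝ) : ℂ[X] :=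
  ∑ s : ι → Fin r, C (weight w s) * (pinch G s).charpoly

/-- A matrix with the rows and columns outside `U` set to zero. -/
def mask (G : Matrix ι ι ℂ) (U : Finset ι) : Matrix ι ι ℂ :=
  Matrix.of fun i j => if i ∈ U ∧ j ∈ U then G i j else 0

/-- The statement of the MSS root bound, with a uniform colour law. -/
def UniformRootBound : Prop :=
  ∀ (n r : ℕ), 0 < r → ∀ (G : Matrix (Fin n) (Fin n) ℂ) (α : ℝ), 0 ≤ α →
    G.PosSemidef → (1 - G).PosSemidef → (∀ i, (G i i).re ≤ α) →
    ∀ x : ℝ, (1 / Real.sqrt r + Real.sqrt α) ^ 2 < x →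
      ((echar G (uniformLaw (Fin n) r)).eval (x : ℂ)) ≠ 0

end Vale.Agent.P078.Cartan
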