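import Mathlib

/-!
Moebius coefficients of set functions: inversion, vanishing for bounded support and for
additive splittings, and the averaged increment.
-/

namespace Vale.Agent.P078.Cartan

open Finset

variable {X : Type*} [DecidableEq X]

/-- The Moebius coefficient of a set function. -/
def mob (φ : Finset X → ℝ) (S : Finset X) : ℝ :=
  ∑ T ∈ S.powerset, (-1) ^ (S \ T).card * φ T

theorem mob_congr {φ ψ : Finset X → ℝ} {S : Finset X} (h : ∀ T ⊆ S, φ T = ψ T) :
    mob φ S = mob ψ S :=
  Finset.sum_congr rfl fun T hT => by rw [h T (mem_powerset.1 hT)]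

theorem mob_add (φ ψ : Finset X → ℝ) (S : Finset X) :
    mob (fun T => φ T + ψ T) S = mob φ S + mob ψ S := by
  simp [mob, mul_add, Finset.sum_add_distrib]

theorem mob_sum {κ : Type*} (K : Finset κ) (φ : κ → Finset X → ℝ) (S : Finset X) :
    mob (fun T => ∑ k ∈ K, φ k T) S = ∑ k ∈ K, mob (φ k) S := by
  simp only [mob, Finset.mul_sum]
  exact Finset.sum_comm

theorem mob_insert (φ : Finset X → ℝ) {x : X} {S : Finset X} (hx : x ∉ S) :
    mob φ (insert x S) = mob (fun T => φ (insert x T)) S - mob φ S := by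
  rw [mob, Finset.sum_powerset_insert hx]
  have h1 : ∀ T ∈ S.powerset, (-1 : ℝ) ^ (insert x S \ T).card * φ T =
      -((-1) ^ (S \ T).card * φ T) := by
    intro T hT
    have hxT : x ∉ T := fun h => hx (mem_powerset.1 hT h)
    rw [insert_sdiff_of_notMem _ hxT, card_insert_of_notMem (by simp [hx]), pow_succ]
    ring
  have h2 : ∀ T ∈ S.powerset, (-1 : ℝ) ^ (insert x S \ insert x T).card * φ (insert x T) =
      (-1) ^ (S \ T).card * φ (insert x T) := by
    intro T hT
    congr 3
    ext y
    simp only [mem_sdiff, mem_insert]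
    constructor
    · rintro ⟨rfl | h, h'⟩
      · exact absurd (Or.inl rfl) h'
      · exact ⟨h, fun hh => h' (Or.inr hh)⟩
    · rintro ⟨h, h'⟩
      exact ⟨Or.inr h, by rintro (rfl | hh); exacts [hx h, h' hh]⟩
  rw [Finset.sum_congr rfl h1, Finset.sum_congr rfl h2, Finset.sum_neg_distrib]
  simp only [mob]
  ring

/-- Moebius inversion. -/
theorem sum_mob (φ : Finset X → ℝ) (U : Finset X) : ∑ S ∈ U.powerset, mob φ S = φ U := by
  induction U using Finset.induction_on generalizing φ with
  | empty => simp [mob]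
  | @insert x U hx ih =>
    rw [Finset.sum_powerset_insert hx, ← ih fun T => φ (insert x T),
      ← Finset.sum_add_distrib]
    refine Finset.sum_congr rfl fun S hS => ?_
    rw [mob_insert φ fun h => hx (mem_powerset.1 hS h)]
    ring

/-- A set function ignoring an element of `S` has zero coefficient at `S`. -/
theorem mob_eq_zero_of_insensitive {φ : Finset X → ℝ} {x : X} {S : Finset X} (hx : x ∈ S)
    (h : ∀ T ⊆ S, φ (insert x T) = φ T) : mob φ S = 0 := by
  rw [← insert_erase hx, mob_insert φ (notMem_erase x S), sub_eq_zero]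
  exact mob_congr fun T hT => h T (hT.trans (erase_subset x S))

/-- The coefficient vanishes across an additive splitting. -/
theorem mob_eq_zero_of_split {φ : Finset X → ℝ} {S A B : Finset X} (hS : A ∪ B = S)
    (hd : Disjoint A B) (hA : A.Nonempty) (hB : B.Nonempty)
    (h : ∀ T ⊆ S, φ T = φ (T ∩ A) + φ (T ∩ B)) : mob φ S = 0 := by
  rw [mob_congr h, mob_add]
  obtain ⟨a, ha⟩ := hA
  obtain ⟨b, hb⟩ := hB
  rw [mob_eq_zero_of_insensitive (x := b) (hS ▸ mem_union_right _ hb),
    mob_eq_zero_of_insensitive (x := a) (hS ▸ mem_union_left _ ha), add_zero]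
  · intro T _
    rw [insert_inter_of_notMem fun hh => Finset.disjoint_left.1 hd ha hh]
  · intro T _
    rw [insert_inter_of_notMem fun hh => Finset.disjoint_left.1 hd hh hb]

/-- Set functions determined by at most `m` points: linear combinations of superset indicators. -/
def Loc (m : ℕ) : Submodule ℂ (Finset X → ℂ) :=
  Submodule.span ℂ {φ | ∃ T₀ : Finset X, T₀.card ≤ m ∧ φ = fun U => if T₀ ⊆ U then 1 else 0}

theorem Loc.indicator_mem {m : ℕ} {T₀ : Finset X} (h : T₀.card ≤ m) :
    (fun U : Finset X => if T₀ ⊆ U then (1 : ℂ) else 0) ∈ Loc m :=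
  Submodule.subset_span ⟨T₀, h, rfl⟩

theorem Loc.mono {m n : ℕ} (h : m ≤ n) : (Loc m : Submodule ℂ (Finset X → ℂ)) ≤ Loc n :=
  Submodule.span_mono fun _ ⟨T₀, h₀, e⟩ => ⟨T₀, h₀.trans h, e⟩

theorem Loc.const_mem (m : ℕ) (c : ℂ) : (fun _ : Finset X => c) ∈ Loc m := by
  have := Submodule.smul_mem (Loc m) c (Loc.indicator_mem (T₀ := (∅ : Finset X)) (m := m) (by simp))
  convert this using 1
  ext U; simp

theorem Loc.mul_mem {a b m : ℕ} (hm : a + b ≤ m) {φ ψ : Finset X → ℂ} (hφ : φ ∈ Loc a)
    (hψ : ψ ∈ Loc b) : φ * ψ ∈ Loc m := by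
  induction hφ using Submodule.span_induction with
  | mem x hx =>
    obtain ⟨T₁, h₁, rfl⟩ := hx
    induction hψ using Submodule.span_induction with
    | mem y hy =>
      obtain ⟨T₂, h₂, rfl⟩ := hy
      convert Loc.indicator_mem (T₀ := T₁ ∪ T₂) (m := m)
        ((card_union_le _ _).trans ((add_le_add h₁ h₂).trans hm)) using 1
      ext U
      simp only [Pi.mul_apply, union_subset_iff]
      split_ifs <;> simp_all
    | zero => simp
    | add y z _ _ ihy ihz => rw [mul_add]; exact add_mem ihy ihz
    | smul c y _ ih => rw [mul_smul_comm]; exact Submodule.smul_mem _ _ ih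
  | zero => simp
  | add x y _ _ ihx ihy => rw [add_mul]; exact add_mem ihx ihy
  | smul c x _ ih => rw [smul_mul_assoc]; exact Submodule.smul_mem _ _ ih

/-- Functions determined by `m` points have no coefficient at larger sets. -/
theorem Loc.mob_eq_zero {m : ℕ} {φ : Finset X → ℂ} (hφ : φ ∈ Loc m) {S : Finset X}
    (hS : m < S.card) : mob (fun T => (φ T).re) S = 0 := by
  suffices ∀ c : ℂ, mob (fun T => (c * φ T).re) S = 0 by simpa using this 1
  induction hφ using Submodule.span_induction with
  | mem x hx =>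
    obtain ⟨T₀, h₀, rfl⟩ := hx
    intro c
    obtain ⟨y, hy, hy₀⟩ := Finset.exists_mem_notMem_of_card_lt_card (h₀.trans_lt hS)
    refine mob_eq_zero_of_insensitive hy fun T _ => ?_
    simp [Finset.subset_insert_iff_of_notMem hy₀]
  | zero => intro c; simp [mob]
  | add x y _ _ ihx ihy =>
    intro c
    simp only [Pi.add_apply, mul_add, Complex.add_re]
    rw [mob_add, ihx, ihy, add_zero]
  | smul a x _ ih =>
    intro c
    simpa [mul_assoc] using ih (c * a)

/-- The averaged increment at `v`. -/
noncomputable def share (φ : Finset X → ℝ) (W : Finset X) (v : X) : ℝ :=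
  ∑ S ∈ W.powerset with v ∈ S, mob φ S / S.card

theorem sum_mob_mem (φ : Finset X → ℝ) (W : Finset X) (v : X) :
    ∑ S ∈ W.powerset with v ∈ S, mob φ S = φ W - φ (W.erase v) := by
  have h := Finset.sum_filter_add_sum_filter_not W.powerset (fun S => v ∈ S) (mob φ)
  have e : W.powerset.filter (fun S => v ∉ S) = (W.erase v).powerset := by
    ext S
    simp only [mem_filter, mem_powerset, subset_erase]
  rw [e, sum_mob, sum_mob] at h
  linarith

/-- The averaged increment is bounded by the increments. -/
theorem abs_share_le {φ : Finset X → ℝ} {γ : ℝ} {v : X} :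
    ∀ {W : Finset X}, v ∈ W → (∀ U ⊆ W, v ∈ U → |φ U - φ (U.erase v)| ≤ γ) →
      |share φ W v| ≤ γ := by
  intro W
  induction W using Finset.strongInduction with
  | _ W ih =>
    intro hv hφ
    have hn : (0 : ℝ) < W.card := by exact_mod_cast card_pos.2 ⟨v, hv⟩
    have hrec : (W.card : ℝ) * share φ W v =
        (φ W - φ (W.erase v)) + ∑ x ∈ W.erase v, share φ (W.erase x) v := by
      have e : ∀ S ∈ W.powerset.filter (fun S => v ∈ S),
          (W.card : ℝ) * (mob φ S / S.card) = mob φ S + ∑ x ∈ W \ S, mob φ S / S.card := by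
        intro S hS
        simp only [mem_filter, mem_powerset] at hS
        have h0 : (S.card : ℝ) ≠ 0 := by exact_mod_cast (card_pos.2 ⟨v, hS.2⟩).ne'
        rw [Finset.sum_const, nsmul_eq_mul, card_sdiff_of_subset hS.1,
          Nat.cast_sub (card_le_card hS.1)]
        field_simp
        ring
      rw [share, Finset.mul_sum, Finset.sum_congr rfl e, Finset.sum_add_distrib, sum_mob_mem]
      congr 1
      simp only [share]
      rw [Finset.sum_comm' (t' := W.erase v)
        (s' := fun x => (W.erase x).powerset.filter fun S => v ∈ S)]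
      intro S x
      simp only [mem_filter, mem_powerset, mem_sdiff, mem_erase, subset_erase]
      constructor
      · rintro ⟨⟨h1, h2⟩, h3, h4⟩
        exact ⟨⟨⟨h1, h4⟩, h2⟩, fun e => h4 (e ▸ h2), h3⟩
      · rintro ⟨⟨⟨h1, h4⟩, h2⟩, -, h3⟩
        exact ⟨⟨h1, h2⟩, h3, h4⟩
    have hb : |(W.card : ℝ) * share φ W v| ≤ (W.card : ℝ) * γ := by
      rw [hrec]
      refine (abs_add_le _ _).trans ?_
      have h1 := hφ W subset_rfl hv
      have h2 : |∑ x ∈ W.erase v, share φ (W.erase x) v| ≤ (W.erase v).card * γ := by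
        refine (abs_sum_le_sum_abs _ _).trans ((sum_le_card_nsmul _ _ _ fun x hx => ?_).trans_eq
          (nsmul_eq_mul _ _))
        exact ih _ (erase_ssubset (mem_of_mem_erase hx))
          (mem_erase.2 ⟨(ne_of_mem_erase hx).symm, hv⟩)
          fun U hU => hφ U (hU.trans (erase_subset _ _))
      rw [card_erase_of_mem hv, Nat.cast_sub (card_pos.2 ⟨v, hv⟩)] at h2
      push_cast at h2
      linarith
    rw [abs_mul, abs_of_pos hn] at hb
    exact le_of_mul_le_mul_left hb hn

end Vale.Agent.P078.Cartan
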