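import Vale.Agent.P078.Cartan.Roots
import Vale.Agent.P078.Cartan.Mobius

/-!
Sums of polynomials over the expected roots: reindexing, diagonal conjugation, block splitting,
bounded support and continuity.
-/

namespace Vale.Agent.P078.Cartan

open Matrix Polynomial Function Finset.HasAntidiagonal
open scoped ComplexOrder

set_option linter.unusedSectionVars false

variable {ι κ : Type*} [Fintype ι] [DecidableEq ι] [Fintype κ] [DecidableEq κ] {r : ℕ}

/-- The sum of `f` over the expected roots. -/
noncomputable def potential (G : Matrix ι ι ℂ) (w : ι → Fin r → ℝ) (f : ℝ[X]) : ℝ :=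
  ((roots G w).map fun x => f.eval x).sum

theorem potential_congr {G : Matrix ι ι ℂ} {w : ι → Fin r → ℝ} {G' : Matrix κ κ ℂ}
    {w' : κ → Fin r → ℝ} (h : echar G w = echar G' w') (f : ℝ[X]) :
    potential G w f = potential G' w' f := by
  rw [potential, potential, roots, roots, h]

theorem echar_reindex (G : Matrix ι ι ℂ) (w : ι → Fin r → ℝ) (e : κ ≃ ι) :
    echar (G.submatrix e e) (w ∘ e) = echar G w := by
  unfold echar
  refine Fintype.sum_equiv (e.arrowCongr (Equiv.refl _)) _ _ fun s => ?_
  have h1 : weight w ((e.arrowCongr (Equiv.refl _)) s) = weight (w ∘ e) s :=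
    Fintype.prod_equiv e.symm _ _ fun i => by simp
  have h2 : pinch (G.submatrix e e) s =
      reindex e.symm e.symm (pinch G ((e.arrowCongr (Equiv.refl _)) s)) := by
    ext a b; simp [pinch]
  rw [h1, h2, charpoly_reindex]

/-- Conjugation by a diagonal unitary. -/
theorem echar_conj (G : Matrix ι ι ℂ) (w : ι → Fin r → ℝ) (d : ι → ℂ) (hd : ∀ i, ‖d i‖ = 1) :
    echar (Matrix.of fun i j => star (d i) * G i j * d j) w = echar G w := by
  refine Polynomial.funext fun x => ?_
  simp only [echar_eval, Fdet]
  refine Finset.sum_congr rfl fun s _ => ?_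
  have hdd : ∀ i, star (d i) * d i = 1 := fun i => by
    rw [RCLike.star_def, ← Complex.normSq_eq_conj_mul_self, Complex.normSq_eq_norm_sq, hd]
    norm_num
  have e : diagonal (fun _ => x) - pinch (Matrix.of fun i j => star (d i) * G i j * d j) s =
      diagonal (fun i => star (d i)) * (diagonal (fun _ => x) - pinch G s) * diagonal d := by
    ext i j
    rw [mul_diagonal, diagonal_mul]
    rcases eq_or_ne i j with rfl | h
    · simp [pinch, mul_sub, sub_mul, mul_assoc]
      rw [mul_comm x (d i), ← mul_assoc, ← RCLike.star_def, hdd, one_mul]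
    · simp only [pinch, Matrix.of_apply, Matrix.sub_apply, diagonal_apply_ne _ h]
      split_ifs <;> ring
  rw [e, det_mul, det_mul, det_diagonal, det_diagonal, mul_right_comm (∏ i, star (d i)),
    ← Finset.prod_mul_distrib, Finset.prod_congr rfl fun i _ => hdd i, Finset.prod_const_one,
    one_mul]

/-- Block diagonal matrices multiply. -/
theorem echar_fromBlocks (A : Matrix ι ι ℂ) (B : Matrix κ κ ℂ) (u : ι → Fin r → ℝ)
    (v : κ → Fin r → ℝ) :
    echar (fromBlocks A 0 0 B) (Sum.elim u v) = echar A u * echar B v := by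
  unfold echar
  rw [Finset.sum_mul_sum, ← Fintype.sum_prod_type']
  refine Fintype.sum_equiv (Equiv.sumArrowEquivProdArrow ι κ (Fin r)) _ _ fun s => ?_
  have hp : pinch (fromBlocks A 0 0 B) s =
      fromBlocks (pinch A fun i => s (Sum.inl i)) 0 0 (pinch B fun i => s (Sum.inr i)) := by
    ext (a | a) (b | b) <;> simp [pinch]
  have hw : weight (Sum.elim u v) s =
      weight u (fun i => s (Sum.inl i)) * weight v (fun i => s (Sum.inr i)) := by
    simp [weight, Fintype.prod_sum_type]
  rw [hp, hw, charpoly_fromBlocks_zero₁₂, C_mul]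
  change _ = (C (weight u fun i => s (Sum.inl i)) * _) * (C (weight v fun i => s (Sum.inr i)) * _)
  simp only [Equiv.sumArrowEquivProdArrow, Equiv.coe_fn_mk, Function.comp_def]
  ring

theorem echar_zero {w : ι → Fin r → ℝ} (hw : IsLaw w) :
    echar (0 : Matrix ι ι ℂ) w = X ^ Fintype.card ι := by
  have : ∀ s : ι → Fin r, pinch (0 : Matrix ι ι ℂ) s = 0 := fun s => by ext; simp [pinch]
  simp only [echar, this, charpoly_zero]
  rw [← Finset.sum_mul, ← map_sum, sum_weight hw, map_one, one_mul]

/-- Removing the points outside `U` only adds zero roots. -/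
theorem potential_mask (G : Matrix ι ι ℂ) {w : ι → Fin r → ℝ} (hw : IsLaw w) (U : Finset ι)
    {f : ℝ[X]} (hf : f.eval 0 = 0) :
    potential (mask G U) w f =
      potential (G.submatrix (fun i : U => (i : ι)) fun i : U => (i : ι)) (fun i : U => w i) f := by
  let e : U ⊕ {i // i ∉ U} ≃ ι := Equiv.sumCompl (fun i => i ∈ U)
  have h1 : (mask G U).submatrix e e =
      fromBlocks (G.submatrix (fun i : U => (i : ι)) fun i : U => (i : ι)) 0 0 0 := by
    ext (a | a) (b | b) <;> simp [mask, e, a.2, b.2]
  have h2 : w ∘ e = Sum.elim (fun i : U => w i) (fun i : {i // i ∉ U} => w i) := by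
    ext (a | a) <;> rfl
  have hU : IsLaw fun i : U => w i := fun i => hw _
  have hE : echar (mask G U) w = echar (G.submatrix (fun i : U => (i : ι)) fun i : U => (i : ι))
      (fun i : U => w i) * X ^ Fintype.card {i // i ∉ U} := by
    rw [← echar_reindex (mask G U) w e, h1, h2, echar_fromBlocks]
    congr 1
    exact echar_zero fun i => hw _
  rw [potential, potential, roots, roots, hE, roots_mul
    (mul_ne_zero (echar_monic _ hU).ne_zero (pow_ne_zero _ X_ne_zero))]
  simp [hf, Multiset.map_nsmul, Multiset.sum_nsmul]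

/-- Additivity across blocks. -/
theorem potential_fromBlocks (A : Matrix ι ι ℂ) (B : Matrix κ κ ℂ) {u : ι → Fin r → ℝ}
    {v : κ → Fin r → ℝ} (hu : IsLaw u) (hv : IsLaw v) (f : ℝ[X]) :
    potential (fromBlocks A 0 0 B) (Sum.elim u v) f = potential A u f + potential B v f := by
  rw [potential, potential, potential, roots, roots, roots, echar_fromBlocks,
    roots_mul (mul_ne_zero (echar_monic _ hu).ne_zero (echar_monic _ hv).ne_zero)]
  simp

/-- Power sums of a multiset. -/
def pows (R : Multiset ℂ) (k : ℕ) : ℂ := (R.map fun x => x ^ k).sum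

/-- Newton's recursion. -/
theorem pows_newton (R : Multiset ℂ) {k : ℕ} (hk : 0 < k) :
    pows R k = (-1) ^ (k + 1) * k * R.esymm k -
      ∑ a ∈ antidiagonal k with a.1 ∈ Set.Ioo 0 k,
        (-1) ^ a.1 * R.esymm a.1 * pows R a.2 := by
  have hl : (Finset.univ : Finset (Fin R.toList.length)).val.map R.toList.get = R := by
    rw [Fin.univ_val_map, List.ofFn_get, Multiset.coe_toList]
  have h := congrArg (MvPolynomial.aeval (R := ℤ) (R.toList.get))
    (MvPolynomial.psum_eq_mul_esymm_sub_sum (Fin R.toList.length) ℤ k hk)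
  have hp : ∀ j, MvPolynomial.aeval (R := ℤ) R.toList.get
      (MvPolynomial.psum (Fin R.toList.length) ℤ j) = pows R j := fun j => by
    rw [MvPolynomial.psum, map_sum, pows]
    conv_rhs => rw [← hl, Multiset.map_map]
    simp [Finset.sum]
  simp only [map_sub, map_sum, map_mul, map_pow, map_neg, map_one, map_natCast, hp,
    MvPolynomial.aeval_esymm_eq_multiset_esymm, hl] at h
  exact h

/-- A graded class of functions closed under the operations of Newton's recursion. -/
structure Graded (Y : Type*) where
  mem : ℕ → (Y → ℂ) → Prop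
  add : ∀ {k φ ψ}, mem k φ → mem k ψ → mem k fun y => φ y + ψ y
  const_mul : ∀ {k φ} (c : ℂ), mem k φ → mem k fun y => c * φ y
  mul : ∀ {a b k φ ψ}, a + b ≤ k → mem a φ → mem b ψ → mem k fun y => φ y * ψ y
  zero : ∀ k, mem k fun _ => 0

theorem Graded.sum {Y α : Type*} (Q : Graded Y) {k : ℕ} (s : Finset α) {φ : α → Y → ℂ}
    (h : ∀ a ∈ s, Q.mem k (φ a)) : Q.mem k fun y => ∑ a ∈ s, φ a y := by
  classical
  induction s using Finset.induction_on with
  | empty => simpa using Q.zero k
  | @insert a s ha ih =>
    simp only [Finset.sum_insert ha]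
    exact Q.add (h a (Finset.mem_insert_self a s)) (ih fun b hb => h b (Finset.mem_insert_of_mem hb))

theorem Graded.pows_mem {Y : Type*} (Q : Graded Y) (R : Y → Multiset ℂ)
    (hE : ∀ j, Q.mem j fun y => (R y).esymm j) : ∀ {k}, 0 < k → Q.mem k fun y => pows (R y) k := by
  intro k
  induction k using Nat.strong_induction_on with
  | _ k ih =>
    intro hk
    have hsum : Q.mem k fun y => ∑ a ∈ antidiagonal k with a.1 ∈ Set.Ioo 0 k,
        (-1) ^ a.1 * (R y).esymm a.1 * pows (R y) a.2 := by
      refine Q.sum _ fun a ha => ?_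
      rw [Finset.mem_filter, mem_antidiagonal, Set.mem_Ioo] at ha
      exact Q.mul ha.1.le (Q.const_mul _ (hE a.1)) (ih a.2 (by omega) (by omega))
    have := Q.add (Q.const_mul ((-1) ^ (k + 1) * (k : ℂ)) (hE k)) (Q.const_mul (-1) hsum)
    convert this using 1
    ext y
    rw [pows_newton (R y) hk]
    ring

theorem esymm_roots_eq (G : Matrix ι ι ℂ) {w : ι → Fin r → ℝ} (hw : IsLaw w) {j : ℕ}
    (hj : j ≤ Fintype.card ι) :
    (echar G w).roots.esymm j = (-1) ^ j * (echar G w).coeff (Fintype.card ι - j) := by
  have hc : Multiset.card (echar G w).roots = (echar G w).natDegree :=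
    IsAlgClosed.card_roots_eq_natDegree
  rw [coeff_eq_esymm_roots_of_card hc (by rw [echar_natDegree G hw]; omega),
    (echar_monic G hw).leadingCoeff, echar_natDegree G hw, one_mul,
    Nat.sub_sub_self hj, ← mul_assoc, ← pow_add]
  simp [← two_mul, pow_mul]

theorem esymm_roots_eq_zero (G : Matrix ι ι ℂ) {w : ι → Fin r → ℝ} (hw : IsLaw w) {j : ℕ}
    (hj : Fintype.card ι < j) : (echar G w).roots.esymm j = 0 := by
  rw [Multiset.esymm, Multiset.powersetCard_eq_empty]
  · simp
  · rwa [IsAlgClosed.card_roots_eq_natDegree, echar_natDegree G hw]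

theorem potential_eq_pows {G : Matrix ι ι ℂ} (hG : G.IsHermitian) {w : ι → Fin r → ℝ}
    (hw : IsLaw w) {f : ℝ[X]} (hf : f.eval 0 = 0) :
    potential G w f =
      (∑ k ∈ Finset.Icc 1 f.natDegree, (f.coeff k : ℂ) * pows (echar G w).roots k).re := by
  have hcast : (∑ k ∈ Finset.Icc 1 f.natDegree, (f.coeff k : ℂ) * pows (echar G w).roots k) =
      ((∑ k ∈ Finset.Icc 1 f.natDegree, f.coeff k * ((roots G w).map fun x => x ^ k).sum : ℝ)
        : ℂ) := by
    push_cast
    refine Finset.sum_congr rfl fun k _ => ?_
    rw [pows, ← roots_map_ofReal hG hw, Multiset.map_map]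
    congr 1
    induction roots G w using Multiset.induction_on with
    | empty => simp
    | cons a R ih =>
      simp only [Multiset.map_cons, Multiset.sum_cons, Function.comp_def] at ih ⊢
      rw [ih]
      push_cast
      ring
  rw [hcast, Complex.ofReal_re, potential]
  induction roots G w using Multiset.induction_on with
  | empty => simp
  | cons a R ih =>
    simp only [Multiset.map_cons, Multiset.sum_cons, mul_add, Finset.sum_add_distrib, ih]
    congr 1
    rw [eval_eq_sum_range, Finset.range_eq_Ico,
      Finset.sum_eq_sum_Ico_succ_bot (Nat.succ_pos _)]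
    have : f.coeff 0 = 0 := by rw [coeff_zero_eq_eval_zero, hf]
    rw [this, zero_mul, zero_add]
    exact Finset.sum_congr (by ext; simp [Finset.mem_Ico, Finset.mem_Icc]) fun _ _ => rfl

/-- The graded class of set functions with bounded support. -/
def locGraded (X : Type*) [DecidableEq X] : Graded (Finset X) where
  mem k φ := φ ∈ Loc k
  add h h' := Submodule.add_mem _ h h'
  const_mul c h := Submodule.smul_mem _ c h
  mul h hφ hψ := Loc.mul_mem h hφ hψ
  zero k := Submodule.zero_mem _

/-- The graded class of continuous functions. -/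
def contGraded (Y : Type*) [TopologicalSpace Y] : Graded Y where
  mem _ φ := Continuous φ
  add h h' := h.add h'
  const_mul c h := continuous_const.mul h
  mul _ hφ hψ := hφ.mul hψ
  zero _ := continuous_const

theorem charpoly_mask_coeff_mem (P : Matrix ι ι ℂ) {j : ℕ} (hj : j ≤ Fintype.card ι) :
    (fun U : Finset ι => (mask P U).charpoly.coeff (Fintype.card ι - j)) ∈ Loc j := by
  have e : (fun U : Finset ι => (mask P U).charpoly.coeff (Fintype.card ι - j)) =
      ∑ σ : Equiv.Perm ι, ∑ T ∈ (Finset.univ : Finset ι).powerset, fun U : Finset ι =>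
        ((Equiv.Perm.sign σ • ((∏ i ∈ T, if σ i = i then (X : ℂ[X]) else 0) *
          ∏ i ∈ Finset.univ \ T, C (-(mask P U (σ i) i)))).coeff (Fintype.card ι - j)) := by
    ext U
    simp only [Finset.sum_apply]
    rw [Matrix.charpoly, det_apply, finsetSum_coeff]
    refine Finset.sum_congr rfl fun σ _ => ?_
    rw [← finsetSum_coeff, ← Finset.smul_sum, ← Finset.prod_add]
    congr 2
    refine Finset.prod_congr rfl fun i _ => ?_
    rw [charmatrix_apply, diagonal_apply, map_neg, sub_eq_add_neg]
  rw [e]
  refine Submodule.sum_mem _ fun σ _ => Submodule.sum_mem _ fun T hT => ?_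
  by_cases hfix : ∀ i ∈ T, σ i = i
  · have hT' : ∏ i ∈ T, (if σ i = i then (X : ℂ[X]) else 0) = X ^ T.card := by
      rw [← Finset.prod_const]
      exact Finset.prod_congr rfl fun i hi => if_pos (hfix i hi)
    have hcomp : ∀ i ∈ Finset.univ \ T, σ i ∈ Finset.univ \ T := by
      intro i hi
      rw [Finset.mem_sdiff] at hi ⊢
      exact ⟨Finset.mem_univ _, fun h => hi.2 (σ.injective (hfix _ h) ▸ h)⟩
    have hm : ∀ U : Finset ι, (∏ i ∈ Finset.univ \ T, -(mask P U (σ i) i)) =
        (if Finset.univ \ T ⊆ U then 1 else 0) * ∏ i ∈ Finset.univ \ T, -(P (σ i) i) := by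
      intro U
      split_ifs with h
      · rw [one_mul]
        exact Finset.prod_congr rfl fun i hi => by simp [mask, h hi, h (hcomp i hi)]
      · obtain ⟨i, hi, hiU⟩ := Finset.not_subset.1 h
        rw [zero_mul]
        exact Finset.prod_eq_zero hi (by simp [mask, hiU])
    by_cases hc : Fintype.card ι - j = T.card
    · have hcard : (Finset.univ \ T).card ≤ j := by
        rw [Finset.card_sdiff_of_subset (Finset.subset_univ T), Finset.card_univ]; omega
      convert Submodule.smul_mem (Loc j)
        ((Equiv.Perm.sign σ : ℤ) • ∏ i ∈ Finset.univ \ T, -(P (σ i) i))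
        (Loc.indicator_mem hcard) using 1
      ext U
      rw [hT', ← map_prod, hm, Units.smul_def, coeff_smul, coeff_mul_C, coeff_X_pow, if_pos hc]
      simp only [Pi.smul_apply, smul_eq_mul, zsmul_eq_mul]
      ring
    · convert Submodule.zero_mem (Loc j) using 1
      ext U
      rw [hT', ← map_prod, Units.smul_def, coeff_smul, coeff_mul_C, coeff_X_pow, if_neg hc]
      simp
  · push Not at hfix
    obtain ⟨i, hi, hne⟩ := hfix
    convert Submodule.zero_mem (Loc j) using 1
    ext U
    rw [Finset.prod_eq_zero hi (if_neg hne), zero_mul, smul_zero, coeff_zero]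
    rfl

theorem pinch_mask (G : Matrix ι ι ℂ) (U : Finset ι) (s : ι → Fin r) :
    pinch (mask G U) s = mask (pinch G s) U := by
  ext a b
  simp only [pinch, mask, Matrix.of_apply]
  split_ifs <;> rfl

theorem esymm_mask_mem (G : Matrix ι ι ℂ) {w : ι → Fin r → ℝ} (hw : IsLaw w) (j : ℕ) :
    (fun U : Finset ι => (echar (mask G U) w).roots.esymm j) ∈ Loc j := by
  by_cases hj : j ≤ Fintype.card ι
  · have e : (fun U : Finset ι => (echar (mask G U) w).roots.esymm j) = (-1 : ℂ) ^ j •
        ∑ s : ι → Fin r, weight w s •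
          fun U : Finset ι => (mask (pinch G s) U).charpoly.coeff (Fintype.card ι - j) := by
      ext U
      rw [esymm_roots_eq _ hw hj]
      simp [echar, finsetSum_coeff, pinch_mask]
    rw [e]
    exact Submodule.smul_mem _ _ (Submodule.sum_mem _ fun s _ =>
      Submodule.smul_mem _ _ (charpoly_mask_coeff_mem _ hj))
  · simp only [esymm_roots_eq_zero _ hw (not_le.1 hj)]
    exact Submodule.zero_mem _

/-- Bounded support of the potential. -/
theorem potential_mask_mob_eq_zero {G : Matrix ι ι ℂ} (hG : G.IsHermitian) {w : ι → Fin r → ℝ}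
    (hw : IsLaw w) {f : ℝ[X]} (hf : f.eval 0 = 0) {S : Finset ι} (hS : f.natDegree < S.card) :
    mob (fun U => potential (mask G U) w f) S = 0 := by
  simp only [potential_eq_pows (isHermitian_mask hG _) hw hf]
  refine Loc.mob_eq_zero ?_ hS
  exact (locGraded ι).sum _ fun k hk => (locGraded ι).const_mul _
    (Loc.mono (Finset.mem_Icc.1 hk).2
      ((locGraded ι).pows_mem _ (esymm_mask_mem G hw) (Finset.mem_Icc.1 hk).1))

/-- Continuity of the potential in the matrix. -/
theorem continuous_potential {Y : Type*} [TopologicalSpace Y] {G : Y → Matrix ι ι ℂ}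
    (hG : ∀ y, (G y).IsHermitian) (hc : Continuous G) {w : ι → Fin r → ℝ} (hw : IsLaw w)
    {f : ℝ[X]} (hf : f.eval 0 = 0) : Continuous fun y => potential (G y) w f := by
  simp only [potential_eq_pows (hG _) hw hf]
  refine Complex.continuous_re.comp (continuous_finsetSum _ fun k hk => continuous_const.mul ?_)
  refine (contGraded Y).pows_mem _ (fun j => ?_) (Finset.mem_Icc.1 hk).1
  show Continuous fun y => (echar (G y) w).roots.esymm j
  by_cases hj : j ≤ Fintype.card ι
  · have hpc : ∀ s : ι → Fin r, Continuous fun y => (pinch (G y) s).charpoly.coeff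
        (Fintype.card ι - j) := by
      intro s
      have : Continuous fun y => pinch (G y) s := by
        refine continuous_matrix fun a b => ?_
        simp only [pinch, Matrix.of_apply]
        split_ifs
        · exact hc.matrix_elem a b
        · exact continuous_const
      have e : ∀ y, (pinch (G y) s).charpoly.coeff (Fintype.card ι - j) =
          MvPolynomial.eval (fun ab : ι × ι => pinch (G y) s ab.1 ab.2)
            ((Matrix.charpoly.univ ℂ ι).coeff (Fintype.card ι - j)) := fun y => by
        have := Matrix.charpoly.univ_coeff_eval₂Hom ι (RingHom.id ℂ)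
          (fun ab : ι × ι => pinch (G y) s ab.1 ab.2) (Fintype.card ι - j)
        exact this.symm
      simp only [e]
      exact (MvPolynomial.continuous_eval _).comp (continuous_pi fun ab =>
        this.matrix_elem ab.1 ab.2)
    simp_rw [esymm_roots_eq _ hw hj]
    simp only [echar, finsetSum_coeff, coeff_C_mul]
    exact continuous_const.mul (continuous_finsetSum _ fun s _ => continuous_const.mul (hpc s))
  · simp only [esymm_roots_eq_zero _ hw (not_le.1 hj)]
    exact continuous_const

end Vale.Agent.P078.Cartan
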