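import Vale.Agent.P078.Cartan.Expected
import Vale.Agent.P078.Cartan.ArgSum

/-!
Stability of expected characteristic polynomials of random pinchings of a Hermitian matrix, and
the resulting convex combination structure over the colour of one point.
-/

namespace Vale.Agent.P078.Cartan

set_option linter.unusedSectionVars false

open Matrix Function
open scoped ComplexOrder

variable {ι : Type*} [Fintype ι] [DecidableEq ι] {r : ℕ}

/-- The point mass at a colour. -/
def dirac (c : Fin r) : Fin r → ℝ := fun c' => if c' = c then 1 else 0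

theorem isLaw_dirac_update {w : ι → Fin r → ℝ} (hw : IsLaw w) (i : ι) (c : Fin r) :
    IsLaw (update w i (dirac c)) := by
  intro j
  rcases eq_or_ne j i with rfl | h
  · simp only [update_self]
    exact ⟨fun c' => by unfold dirac; split_ifs <;> simp, by simp [dirac]⟩
  · simp only [update_of_ne h]; exact hw j

theorem weight_update (w : ι → Fin r → ℝ) (i : ι) (a : Fin r → ℝ) (s : ι → Fin r) :
    weight (update w i a) s = (a (s i) : ℂ) * ∏ j ∈ Finset.univ.erase i, (w j (s j) : ℂ) := by
  unfold weight
  rw [← Finset.mul_prod_erase _ _ (Finset.mem_univ i)]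
  simp only [update_self]
  congr 1
  refine Finset.prod_congr rfl fun j hj => ?_
  rw [update_of_ne (Finset.ne_of_mem_erase hj)]

theorem weight_split (w : ι → Fin r → ℝ) (i : ι) (s : ι → Fin r) :
    weight w s = ∑ c, (w i c : ℂ) * weight (update w i (dirac c)) s := by
  simp only [weight_update, dirac]
  rw [Finset.sum_eq_single (s i)]
  · unfold weight
    rw [← Finset.mul_prod_erase _ _ (Finset.mem_univ i)]
    simp
  · intro c _ hc
    simp [Ne.symm hc]
  · simp

/-- Conditioning on the colour of one point. -/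
theorem Fdet_split (G : Matrix ι ι ℂ) (w : ι → Fin r → ℝ) (i : ι) (z : ι → ℂ) :
    Fdet G w z = ∑ c, (w i c : ℂ) * Fdet G (update w i (dirac c)) z := by
  unfold Fdet
  simp only [Finset.mul_sum]
  rw [Finset.sum_comm]
  refine Finset.sum_congr rfl fun s _ => ?_
  rw [weight_split w i s, Finset.sum_mul]
  simp only [mul_assoc]

/-- The matrix with the point `i` removed. -/
def maskE (G : Matrix ι ι ℂ) (i : ι) : Matrix ι ι ℂ := mask G (Finset.univ.erase i)

theorem maskE_apply (G : Matrix ι ι ℂ) (i j k : ι) :
    maskE G i j k = if j ≠ i ∧ k ≠ i then G j k else 0 := by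
  simp [maskE, mask]

theorem maskE_maskE (G : Matrix ι ι ℂ) (i : ι) : maskE (maskE G i) i = maskE G i := by
  ext j k
  simp only [maskE_apply]
  split_ifs <;> rfl

theorem isHermitian_mask {G : Matrix ι ι ℂ} (hG : G.IsHermitian) (U : Finset ι) :
    (mask G U).IsHermitian := by
  ext j k
  simp only [conjTranspose_apply, mask, Matrix.of_apply]
  by_cases h : j ∈ U ∧ k ∈ U
  · rw [if_pos h, if_pos ⟨h.2, h.1⟩]; exact hG.apply j k
  · rw [if_neg h, if_neg fun h' => h ⟨h'.2, h'.1⟩]; simp

theorem isHermitian_pinch {G : Matrix ι ι ℂ} (hG : G.IsHermitian) (s : ι → Fin r) :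
    (pinch G s).IsHermitian := by
  ext j k
  simp only [conjTranspose_apply, pinch, Matrix.of_apply]
  by_cases h : s j = s k
  · rw [if_pos h, if_pos h.symm]; exact hG.apply j k
  · rw [if_neg h, if_neg (Ne.symm h)]; simp

theorem det_updateRow_single_congr {M N : Matrix ι ι ℂ} {i : ι}
    (h : ∀ j k, j ≠ i → k ≠ i → M j k = N j k) :
    (M.updateRow i (Pi.single i 1)).det = (N.updateRow i (Pi.single i 1)).det := by
  rw [← det_transpose, ← det_transpose (N.updateRow _ _), det_apply, det_apply]
  refine Finset.sum_congr rfl fun σ _ => ?_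
  congr 1
  by_cases hσ : σ i = i
  · refine Finset.prod_congr rfl fun j _ => ?_
    rcases eq_or_ne j i with rfl | hj
    · simp [hσ]
    · simp only [transpose_apply, updateRow_apply, if_neg hj]
      exact h j (σ j) hj fun e => hj (σ.injective (e.trans hσ.symm))
  · have h0 : ∀ A : Matrix ι ι ℂ,
        ∏ j, (A.updateRow i (Pi.single i 1))ᵀ (σ j) j = 0 := fun A => by
      refine Finset.prod_eq_zero (Finset.mem_univ i) ?_
      simp [hσ]
    rw [h0, h0]

theorem det_diagonal_update (P : Matrix ι ι ℂ) (z : ι → ℂ) (i : ι) (a : ℂ) :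
    (diagonal (update z i a) - P).det =
      a * (diagonal (update z i 1) - maskE P i).det + (diagonal (update z i 0) - P).det := by
  set M := diagonal (update z i 0) - P with hM
  have h1 : diagonal (update z i a) - P = M.updateRow i (a • Pi.single i 1 + M i) := by
    ext j k
    rcases eq_or_ne j i with rfl | hj
    · rcases eq_or_ne j k with rfl | hk
      · simp [hM, sub_eq_add_neg]
      · simp [hM, hk]
    · rw [updateRow_ne hj]
      simp [hM, diagonal_apply, update_of_ne hj]
  have h2 : (M.updateRow i (Pi.single i 1)).det =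
      (diagonal (update z i 1) - maskE P i).det := by
    rw [det_updateRow_single_congr (N := diagonal (update z i 1) - maskE P i)]
    · congr 1
      ext j k
      rcases eq_or_ne j i with rfl | hj
      · rcases eq_or_ne j k with rfl | hk
        · simp [maskE_apply]
        · simp [maskE_apply, hk]
      · rw [updateRow_ne hj]
    · intro j k hj hk
      simp [hM, maskE_apply, hj, hk, diagonal_apply]
  rw [h1, det_updateRow_add, det_updateRow_smul, updateRow_eq_self, h2]

theorem pinch_maskE (G : Matrix ι ι ℂ) (i : ι) (s : ι → Fin r) :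
    pinch (maskE G i) s = maskE (pinch G s) i := by
  ext j k
  simp only [pinch, Matrix.of_apply, maskE_apply]
  split_ifs <;> rfl

/-- The coefficient of `z i`. -/
noncomputable def lead (G : Matrix ι ι ℂ) (w : ι → Fin r → ℝ) (i : ι) (z : ι → ℂ) : ℂ :=
  Fdet (maskE G i) w (update z i 1)

/-- The constant part in `z i`. -/
noncomputable def rest (G : Matrix ι ι ℂ) (w : ι → Fin r → ℝ) (i : ι) (z : ι → ℂ) : ℂ :=
  Fdet G w (update z i 0)

theorem Fdet_affine (G : Matrix ι ι ℂ) (w : ι → Fin r → ℝ) (i : ι) (z : ι → ℂ) (a : ℂ) :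
    Fdet G w (update z i a) = a * lead G w i z + rest G w i z := by
  unfold lead rest Fdet
  simp only [det_diagonal_update (pinch G _) z i a, pinch_maskE, Finset.mul_sum,
    ← Finset.sum_add_distrib]
  exact Finset.sum_congr rfl fun s _ => by ring

theorem rest_maskE (G : Matrix ι ι ℂ) (w : ι → Fin r → ℝ) (i : ι) (z : ι → ℂ) :
    rest (maskE G i) w i z = 0 := by
  unfold rest Fdet
  refine Finset.sum_eq_zero fun s _ => ?_
  rw [det_eq_zero_of_row_eq_zero i fun k => ?_, mul_zero]
  simp [pinch, maskE_apply, diagonal_apply]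

theorem lead_maskE (G : Matrix ι ι ℂ) (w : ι → Fin r → ℝ) (i : ι) (z : ι → ℂ) :
    lead (maskE G i) w i z = lead G w i z := by
  rw [lead, lead, maskE_maskE]

/-- Without the point `i` its colour is irrelevant. -/
theorem lead_dirac_eq (G : Matrix ι ι ℂ) (w : ι → Fin r → ℝ) (i : ι) (z : ι → ℂ) (c c' : Fin r) :
    lead G (update w i (dirac c)) i z = lead G (update w i (dirac c')) i z := by
  unfold lead Fdet
  have hinv : Function.Involutive
      fun s : ι → Fin r => update s i (Equiv.swap c c' (s i)) := by
    intro s; simp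
  refine Fintype.sum_equiv (hinv.toPerm _) _ _ fun s => ?_
  simp only [Function.Involutive.coe_toPerm]
  congr 1
  · simp only [weight_update, update_self, dirac]
    congr 1
    · simp only [Equiv.swap_apply_eq_iff, Equiv.swap_apply_right]
    · exact Finset.prod_congr rfl fun j hj => by rw [update_of_ne (Finset.ne_of_mem_erase hj)]
  · congr 2
    ext j k
    simp only [pinch, Matrix.of_apply, maskE_apply]
    by_cases h : j ≠ i ∧ k ≠ i
    · rw [update_of_ne h.1, update_of_ne h.2]
    · simp [h]

theorem lead_dirac (G : Matrix ι ι ℂ) {w : ι → Fin r → ℝ} (hw : IsLaw w) (i : ι) (z : ι → ℂ)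
    (c : Fin r) : lead G (update w i (dirac c)) i z = lead G w i z := by
  conv_rhs => rw [lead, Fdet_split _ w i]
  have : ∀ c', (w i c' : ℂ) * Fdet (maskE G i) (update w i (dirac c')) (update z i 1) =
      (w i c' : ℂ) * lead G (update w i (dirac c)) i z := fun c' => by
    rw [← lead_dirac_eq G w i z c' c]; rfl
  rw [Finset.sum_congr rfl fun c' _ => this c', ← Finset.sum_mul, ← Complex.ofReal_sum,
    (hw i).2, Complex.ofReal_one, one_mul]

theorem Fdet_dirac_ne_zero {G : Matrix ι ι ℂ} (hG : G.IsHermitian) (s₀ : ι → Fin r) {z : ι → ℂ}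
    (hz : ∀ i, 0 < (z i).im) : Fdet G (fun i => dirac (s₀ i)) z ≠ 0 := by
  have hw : ∀ s, weight (fun i => dirac (s₀ i)) s = if s = s₀ then 1 else 0 := by
    intro s
    split_ifs with h
    · subst h; simp [weight, dirac]
    · obtain ⟨i, hi⟩ := Function.ne_iff.1 h
      exact Finset.prod_eq_zero (Finset.mem_univ i) (by simp [dirac, hi])
  have : Fdet G (fun i => dirac (s₀ i)) z = (diagonal z - pinch G s₀).det := by
    simp [Fdet, hw]
  rw [this]
  intro hdet
  obtain ⟨v, hv, hMv⟩ := exists_mulVec_eq_zero_iff.2 hdet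
  have hP := (isHermitian_pinch hG s₀).im_star_dotProduct_mulVec_self v
  rw [sub_mulVec, sub_eq_zero] at hMv
  rw [← hMv] at hP
  simp only [dotProduct, mulVec_diagonal, Pi.star_apply, RCLike.star_def, map_sum] at hP
  have hval : ∀ i, RCLike.im (starRingEnd ℂ (v i) * (z i * v i)) =
      (z i).im * Complex.normSq (v i) := by
    intro i
    rw [mul_left_comm, ← Complex.normSq_eq_conj_mul_self, RCLike.im_eq_complex_im,
      Complex.mul_im]
    simp
  simp only [hval] at hP
  have hnn : ∀ i ∈ Finset.univ, 0 ≤ (z i).im * Complex.normSq (v i) :=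
    fun i _ => mul_nonneg (hz i).le (Complex.normSq_nonneg _)
  obtain ⟨i, hi⟩ := Function.ne_iff.1 hv
  have := (Finset.sum_eq_zero_iff_of_nonneg hnn).1 hP i (Finset.mem_univ i)
  exact (mul_pos (hz i) (Complex.normSq_pos.2 hi)).ne' this

theorem im_div_nonneg {g h : ℂ} (hg : g ≠ 0) (H : ∀ a : ℂ, 0 < a.im → a * g + h ≠ 0) :
    0 ≤ (h / g).im := by
  by_contra hlt
  push Not at hlt
  apply H (-(h / g)) (by simp [hlt])
  field_simp
  ring

/-- Stability. -/
theorem Fdet_ne_zero {G : Matrix ι ι ℂ} (hG : G.IsHermitian) {w : ι → Fin r → ℝ} (hw : IsLaw w)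
    {z : ι → ℂ} (hz : ∀ i, 0 < (z i).im) : Fdet G w z ≠ 0 := by
  suffices h : ∀ R : Finset ι, ∀ w : ι → Fin r → ℝ, IsLaw w → (∀ i ∉ R, ∃ c, w i = dirac c) →
      ∀ G : Matrix ι ι ℂ, G.IsHermitian → ∀ z : ι → ℂ, (∀ i, 0 < (z i).im) → Fdet G w z ≠ 0 from
    h Finset.univ w hw (fun i hi => (hi (Finset.mem_univ i)).elim) G hG z hz
  intro R
  induction R using Finset.induction_on with
  | empty =>
    intro w _ hd G hG z hz
    choose s₀ hs₀ using fun i => hd i (Finset.notMem_empty i)
    rw [funext hs₀]
    exact Fdet_dirac_ne_zero hG s₀ hz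
  | @insert i R hi ih =>
    intro w hw hd G hG z hz
    have hwc : ∀ c, ∀ j ∉ R, ∃ c', update w i (dirac c) j = dirac c' := by
      intro c j hj
      rcases eq_or_ne j i with rfl | hji
      · exact ⟨c, update_self ..⟩
      · rw [update_of_ne hji]; exact hd j (by simp [hji, hj])
    have hstab : ∀ c, ∀ G : Matrix ι ι ℂ, G.IsHermitian → ∀ a : ℂ, 0 < a.im →
        a * lead G (update w i (dirac c)) i z + rest G (update w i (dirac c)) i z ≠ 0 := by
      intro c G hG a ha
      rw [← Fdet_affine]
      refine ih _ (isLaw_dirac_update hw i c) (hwc c) G hG _ fun j => ?_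
      rcases eq_or_ne j i with rfl | hji
      · simpa using ha
      · simpa [update_of_ne hji] using hz j
    have hlead : ∀ c : Fin r, lead G w i z ≠ 0 := by
      intro c e
      have := hstab c (maskE G i) (isHermitian_mask hG _) (z i) (hz i)
      rw [rest_maskE, lead_maskE, lead_dirac G hw, e] at this
      simp at this
    rw [← update_eq_self i z, Fdet_affine]
    have hne : ∃ c, w i c ≠ 0 := by
      by_contra h
      push Not at h
      simpa [h] using (hw i).2
    obtain ⟨c₀, -⟩ := hne
    have hg := hlead c₀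
    have hpos : ∀ c, 0 ≤ (rest G (update w i (dirac c)) i z / lead G w i z).im := fun c => by
      have := im_div_nonneg (g := lead G (update w i (dirac c)) i z)
        (by rwa [lead_dirac G hw]) (hstab c G hG)
      rwa [lead_dirac G hw] at this
    intro e
    have e' : z i + rest G w i z / lead G w i z = 0 := by
      field_simp
      linear_combination e
    have hr : rest G w i z / lead G w i z =
        ∑ c, (w i c : ℂ) * (rest G (update w i (dirac c)) i z / lead G w i z) := by
      rw [rest, Fdet_split G w i, Finset.sum_div]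
      exact Finset.sum_congr rfl fun c _ => mul_div_assoc _ _ _
    have := congrArg Complex.im e'
    rw [hr, Complex.add_im, Complex.im_sum, Complex.zero_im] at this
    simp only [Complex.im_ofReal_mul] at this
    have hs : 0 ≤ ∑ c, w i c * (rest G (update w i (dirac c)) i z / lead G w i z).im :=
      Finset.sum_nonneg fun c _ => mul_nonneg ((hw i).1 c) (hpos c)
    linarith [hz i]

theorem lead_ne_zero {G : Matrix ι ι ℂ} (hG : G.IsHermitian) {w : ι → Fin r → ℝ} (hw : IsLaw w)
    (i : ι) {z : ι → ℂ} (hz : ∀ j, 0 < (z j).im) : lead G w i z ≠ 0 := by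
  intro e
  apply Fdet_ne_zero (G := maskE G i) (isHermitian_mask hG _) hw hz
  rw [← update_eq_self i z, Fdet_affine, lead_maskE, rest_maskE, e]
  simp

theorem Fdet_maskE (G : Matrix ι ι ℂ) (w : ι → Fin r → ℝ) (i : ι) (z : ι → ℂ) :
    Fdet (maskE G i) w z = z i * lead G w i z := by
  conv_lhs => rw [← update_eq_self i z]
  rw [Fdet_affine, lead_maskE, rest_maskE, add_zero]

/-- The ratio to the minor lies in the upper half plane. -/
theorem ratio_pos {G : Matrix ι ι ℂ} (hG : G.IsHermitian) {w : ι → Fin r → ℝ} (hw : IsLaw w)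
    (i : ι) {z : ι → ℂ} (hz : ∀ j, 0 < (z j).im) :
    0 < (z i * Fdet G w z / Fdet (maskE G i) w z).im := by
  have hg := lead_ne_zero hG hw i hz
  have h0 : z i ≠ 0 := fun e => by simpa [e] using hz i
  have e : z i * Fdet G w z / Fdet (maskE G i) w z = z i + rest G w i z / lead G w i z := by
    conv_lhs => rw [Fdet_maskE, mul_div_mul_left _ _ h0, ← update_eq_self i z, Fdet_affine]
    rw [update_eq_self]
    field_simp
  rw [e, Complex.add_im]
  have := im_div_nonneg hg fun a ha => by
    rw [← Fdet_affine]
    refine Fdet_ne_zero hG hw fun j => ?_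
    rcases eq_or_ne j i with rfl | hji
    · simpa using ha
    · simpa [update_of_ne hji] using hz j
  linarith [hz i]

/-- The parent ratio is the convex combination of the child ratios. -/
theorem ratio_combination (G : Matrix ι ι ℂ) {w : ι → Fin r → ℝ} (hw : IsLaw w) (i : ι)
    (z : ι → ℂ) :
    z i * Fdet G w z / Fdet (maskE G i) w z =
      ∑ c, (w i c : ℂ) *
        (z i * Fdet G (update w i (dirac c)) z / Fdet (maskE G i) (update w i (dirac c)) z) := by
  have : ∀ c, Fdet (maskE G i) (update w i (dirac c)) z = Fdet (maskE G i) w z := fun c => by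
    rw [Fdet_maskE, Fdet_maskE, lead_dirac G hw]
  simp only [this]
  rw [Fdet_split G w i z, Finset.mul_sum, Finset.sum_div]
  exact Finset.sum_congr rfl fun c _ => by ring

end Vale.Agent.P078.Cartan
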