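import Vale.Agent.P078.Cartan.OperatorDensity

/-!
The character space of a MASA, the action of its normalisers and the fixed piece of a normaliser.
-/

namespace Vale.Agent.P078.Cartan

open scoped InnerProductSpace ComplexOrder
open ContinuousLinearMap WeakDual

variable {H : Type} [NormedAddCommGroup H] [InnerProductSpace ℂ H] [CompleteSpace H]
variable {M : VonNeumannAlgebra H} {A : StarSubalgebra ℂ (H →L[ℂ] H)} {ι : Type} {η : ι → H}

/-- A norm closed abelian star subalgebra. -/
class AbelianClosed (A : StarSubalgebra ℂ (H →L[ℂ] H)) : Prop where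
  closed : IsClosed (A : Set (H →L[ℂ] H))
  comm : ∀ a ∈ A, ∀ b ∈ A, a * b = b * a

noncomputable instance instCommCStar [hc : AbelianClosed A] : CommCStarAlgebra A :=
  { StarSubalgebra.cstarAlgebra A (h_closed := hc.closed) with
    mul_comm := fun a b => Subtype.ext (hc.comm _ a.2 _ b.2) }

theorem vn_isClosed (M : VonNeumannAlgebra H) : IsClosed (M : Set (H →L[ℂ] H)) := by
  have : (M : Set (H →L[ℂ] H)) = ⋂ z ∈ M.commutant, {x | z * x = x * z} := by
    ext x
    simp only [SetLike.mem_coe, Set.mem_iInter, Set.mem_ofPred_eq]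
    exact mem_vn_iff
  rw [this]
  exact isClosed_biInter fun z _ => isClosed_eq (continuous_const.mul continuous_id)
    (continuous_id.mul continuous_const)

theorem _root_.Vale.Agent.P078.IsMasa.abelianClosed (hA : IsMasa M A) : AbelianClosed A := by
  refine ⟨?_, hA.comm⟩
  have : (A : Set (H →L[ℂ] H)) = (M : Set _) ∩ ⋂ a ∈ A, {x | x * a = a * x} := by
    ext x
    simp only [Set.mem_inter_iff, SetLike.mem_coe, Set.mem_iInter, Set.mem_ofPred_eq]
    exact ⟨fun hx => ⟨hA.le x hx, fun a ha => hA.comm x hx a ha⟩,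
      fun hx => hA.mem_of_commute hx.1 hx.2⟩
  rw [this]
  exact (vn_isClosed M).inter (isClosed_biInter fun a _ => isClosed_eq
    (continuous_id.mul continuous_const) (continuous_const.mul continuous_id))

variable [AbelianClosed A]

/-- The character space. -/
abbrev Spec (A : StarSubalgebra ℂ (H →L[ℂ] H)) [AbelianClosed A] := characterSpace ℂ A

open Classical in
/-- Evaluation of a character at an operator (zero outside `A`). -/
noncomputable def chi (ω : Spec A) (x : H →L[ℂ] H) : ℂ := if hx : x ∈ A then ω ⟨x, hx⟩ else 0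

variable (ω : Spec A) {a b : H →L[ℂ] H}

theorem chi_of_mem (ha : a ∈ A) : chi ω a = ω ⟨a, ha⟩ := dif_pos ha

theorem chi_add (ha : a ∈ A) (hb : b ∈ A) : chi ω (a + b) = chi ω a + chi ω b := by
  rw [chi_of_mem ω ha, chi_of_mem ω hb, chi_of_mem ω (add_mem ha hb), ← map_add]
  rfl

theorem chi_sub (ha : a ∈ A) (hb : b ∈ A) : chi ω (a - b) = chi ω a - chi ω b := by
  rw [chi_of_mem ω ha, chi_of_mem ω hb, chi_of_mem ω (sub_mem ha hb), ← map_sub]
  rfl

theorem chi_mul (ha : a ∈ A) (hb : b ∈ A) : chi ω (a * b) = chi ω a * chi ω b := by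
  rw [chi_of_mem ω ha, chi_of_mem ω hb, chi_of_mem ω (mul_mem ha hb), ← map_mul]
  rfl

theorem chi_smul (c : ℂ) (ha : a ∈ A) : chi ω (c • a) = c * chi ω a := by
  rw [chi_of_mem ω ha, chi_of_mem ω (SMulMemClass.smul_mem c ha), ← smul_eq_mul, ← map_smul]
  rfl

theorem chi_one : chi ω (1 : H →L[ℂ] H) = 1 := by
  rw [chi_of_mem ω (one_mem A)]
  exact map_one ω

theorem chi_zero : chi ω (0 : H →L[ℂ] H) = 0 := by
  rw [chi_of_mem ω (zero_mem A)]
  exact map_zero ω

theorem chi_star (ha : a ∈ A) : chi ω (star a) = starRingEnd ℂ (chi ω a) := by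
  rw [chi_of_mem ω ha, chi_of_mem ω (star_mem ha), ← RCLike.star_def, ← map_star]
  rfl

theorem chi_sum {κ : Type*} (s : Finset κ) (f : κ → H →L[ℂ] H) (hf : ∀ i, f i ∈ A) :
    chi ω (∑ i ∈ s, f i) = ∑ i ∈ s, chi ω (f i) := by
  classical
  induction s using Finset.induction_on with
  | empty => simp [chi_zero]
  | @insert i s hi ih =>
    rw [Finset.sum_insert hi, Finset.sum_insert hi, chi_add ω (hf i) (sum_mem fun j _ => hf j), ih]

theorem continuous_chi (x : H →L[ℂ] H) : Continuous fun ω : Spec A => chi ω x := by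
  by_cases hx : x ∈ A
  · simp only [chi_of_mem _ hx]
    exact (WeakDual.eval_continuous (⟨x, hx⟩ : A)).comp continuous_subtype_val
  · simp only [chi, dif_neg hx]
    exact continuous_const

theorem chi_proj {p : H →L[ℂ] H} (hp : p ∈ A) (hpp : IsStarProjection p) :
    chi ω p = 0 ∨ chi ω p = 1 := by
  have := chi_mul ω hp hp
  rw [hpp.isIdempotentElem.eq] at this
  rcases mul_right_eq_self₀.1 this.symm with h | h
  · exact Or.inr h
  · exact Or.inl h

theorem spec_ext {ω ω' : Spec A} (h : ∀ a ∈ A, chi ω a = chi ω' a) : ω = ω' :=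
  CharacterSpace.ext fun a => by
    have := h a.1 a.2
    rwa [chi_of_mem ω a.2, chi_of_mem ω' a.2] at this

theorem chi_eq_zero_of_forall (ha : a ∈ A) (h : ∀ ω : Spec A, chi ω a = 0) : a = 0 := by
  have : gelfandStarTransform A ⟨a, ha⟩ = gelfandStarTransform A 0 := by
    ext ω
    simpa [gelfandStarTransform, chi_of_mem ω ha] using h ω
  exact congrArg Subtype.val ((gelfandStarTransform A).injective this)

/-- The element of `A` with a given Gelfand transform. -/
noncomputable def ofFun (f : C(Spec A, ℂ)) : H →L[ℂ] H := ((gelfandStarTransform A).symm f : A)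

theorem ofFun_mem (f : C(Spec A, ℂ)) : ofFun f ∈ A := ((gelfandStarTransform A).symm f).2

theorem chi_ofFun (f : C(Spec A, ℂ)) : chi ω (ofFun f) = f ω := by
  rw [chi_of_mem ω (ofFun_mem f)]
  show gelfandStarTransform A ((gelfandStarTransform A).symm f) ω = f ω
  rw [StarAlgEquiv.apply_symm_apply]

theorem eq_of_chi_eq (ha : a ∈ A) (hb : b ∈ A) (h : ∀ ω : Spec A, chi ω a = chi ω b) : a = b :=
  sub_eq_zero.1 (chi_eq_zero_of_forall (sub_mem ha hb) fun ω => by
    rw [chi_sub ω ha hb, h ω, sub_self])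

/-- Projections of `A` separate the characters. -/
theorem exists_separating (hA : IsMasa M A) {ω ω' : Spec A} (hne : ω ≠ ω') :
    ∃ p ∈ A, IsStarProjection p ∧ chi ω p = 1 ∧ chi ω' p = 0 := by
  by_contra hcon
  push Not at hcon
  have heq : ∀ p ∈ A, IsStarProjection p → chi ω p = chi ω' p := by
    intro p hp hpp
    rcases chi_proj ω hp hpp with h | h <;> rcases chi_proj ω' hp hpp with h' | h'
    · rw [h, h']
    · exfalso
      have e : ∀ ω'' : Spec A, chi ω'' (1 - p) = 1 - chi ω'' p := fun ω'' => by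
        rw [chi_sub ω'' (one_mem A) hp, chi_one]
      exact hcon (1 - p) (sub_mem (one_mem A) hp) hpp.one_sub (by rw [e, h, sub_zero])
        (by rw [e, h', sub_self])
    · exact absurd h' (hcon p hp hpp h)
    · rw [h, h']
  have hsa : ∀ s ∈ A, IsSelfAdjoint s → chi ω s = chi ω' s := by
    intro s hs hss
    refine sub_eq_zero.1 (norm_le_zero_iff.1 (le_of_forall_pos_le_add fun ε hε => ?_))
    obtain ⟨lo, hlo⟩ := (spectrum.isBounded (𝕜 := ℝ) s).bddBelow
    obtain ⟨N, t, m, -, hmp, -, -, hap, hmc, hmV⟩ :=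
      exists_step_approx hss (half_pos hε) lo (fun x hx => hlo hx)
    have hmA : ∀ j, m j ∈ A := fun j => hA.mem_of_commute (hmV j M (hA.le s hs))
      (fun c hc => (hmc j c (hA.comm s hs c hc)).eq)
    obtain ⟨S, hS⟩ : ∃ S : H →L[ℂ] H, S = ∑ j, (t j : ℂ) • m j := ⟨_, rfl⟩
    have hSA : S ∈ A := hS ▸ sum_mem fun j _ => SMulMemClass.smul_mem _ (hmA j)
    have e : chi ω S = chi ω' S := by
      rw [hS, chi_sum ω _ _ (fun j => SMulMemClass.smul_mem _ (hmA j)),
        chi_sum ω' _ _ (fun j => SMulMemClass.smul_mem _ (hmA j))]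
      exact Finset.sum_congr rfl fun j _ => by
        rw [chi_smul ω _ (hmA j), chi_smul ω' _ (hmA j), heq _ (hmA j) (hmp j)]
    have : Nontrivial A := ⟨1, 0, fun h => by simpa using congrArg ω h⟩
    have hb : ∀ ω'' : Spec A, ‖chi ω'' s - chi ω'' S‖ ≤ ε / 2 := fun ω'' => by
      rw [← chi_sub ω'' hs hSA, chi_of_mem ω'' (sub_mem hs hSA)]
      exact ((AlgHom.norm_apply_le_self (ω'' : Spec A) _).trans (hS ▸ hap))
    calc ‖chi ω s - chi ω' s‖ = ‖(chi ω s - chi ω S) - (chi ω' s - chi ω' S)‖ := by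
          rw [e]; ring_nf
      _ ≤ ε / 2 + ε / 2 := (norm_sub_le _ _).trans (add_le_add (hb ω) (hb ω'))
      _ = 0 + ε := by ring
  refine hne (spec_ext fun a ha => ?_)
  have h1 := hsa (a + star a) (add_mem ha (star_mem ha)) (IsSelfAdjoint.add_star_self a)
  have h2 := hsa (Complex.I • (a - star a)) (SMulMemClass.smul_mem _ (sub_mem ha (star_mem ha))) (by
    rw [IsSelfAdjoint, star_smul, star_sub, star_star, RCLike.star_def, Complex.conj_I,
      neg_smul, ← smul_neg, neg_sub])
  rw [chi_add _ ha (star_mem ha), chi_add _ ha (star_mem ha)] at h1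
  rw [chi_smul _ _ (sub_mem ha (star_mem ha)), chi_smul _ _ (sub_mem ha (star_mem ha)),
    chi_sub _ ha (star_mem ha), chi_sub _ ha (star_mem ha)] at h2
  have h3 := mul_left_cancel₀ Complex.I_ne_zero h2
  linear_combination (h1 + h3) / 2

theorem spec_totallyDisconnected (hA : IsMasa M A) : TotallyDisconnectedSpace (Spec A) := by
  have : TotallySeparatedSpace (Spec A) := by
    rw [totallySeparatedSpace_iff_exists_isClopen]
    intro ω ω' hne
    obtain ⟨p, hp, hpp, h1, h0⟩ := exists_separating hA hne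
    refine ⟨{ν | chi ν p = 1}, ⟨isClosed_eq (continuous_chi p) continuous_const, ?_⟩, h1,
      by simp [h0]⟩
    have : {ν : Spec A | chi ν p = 1} = {ν | chi ν p = 0}ᶜ := by
      ext ν
      rcases chi_proj ν hp hpp with h | h <;> simp [h]
    rw [this]
    exact (isClosed_eq (continuous_chi p) continuous_const).isOpen_compl
  infer_instance

variable {u v : H →L[ℂ] H}

/-- The character `a ↦ ω (star u * a * u)`. -/
noncomputable def move (hu : IsNormaliser M A u) (ω : Spec A) : Spec A :=
  CharacterSpace.equivAlgHom.symm <| AlgHom.ofLinearMap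
    { toFun := fun a => chi ω (star u * a.1 * u)
      map_add' := fun a b => by
        simp only [AddMemClass.coe_add, mul_add, add_mul]
        exact chi_add ω (hu.conj_mem _ a.2) (hu.conj_mem _ b.2)
      map_smul' := fun c a => by
        simp only [SetLike.val_smul, mul_smul_comm, smul_mul_assoc, RingHom.id_apply, smul_eq_mul]
        exact chi_smul ω c (hu.conj_mem _ a.2) }
    (by simp [hu.star_mul, chi_one])
    (fun a b => by
      simp only [LinearMap.coe_mk, AddHom.coe_mk, MulMemClass.coe_mul]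
      rw [← chi_mul ω (hu.conj_mem _ a.2) (hu.conj_mem _ b.2)]
      congr 1
      simp only [mul_assoc]
      rw [← mul_assoc u (star u), hu.mul_star, one_mul])

theorem chi_move (hu : IsNormaliser M A u) (ha : a ∈ A) :
    chi (move hu ω) a = chi ω (star u * a * u) := by
  rw [chi_of_mem _ ha]
  rfl

theorem continuous_move (hu : IsNormaliser M A u) : Continuous (move (A := A) hu) := by
  refine Continuous.subtype_mk (WeakDual.continuous_of_continuous_eval fun a => ?_) _
  exact continuous_chi (star u * a.1 * u)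

theorem move_mul (hu : IsNormaliser M A u) (hv : IsNormaliser M A v) :
    move (hu.mul hv) ω = move hu (move hv ω) :=
  spec_ext fun a ha => by
    rw [chi_move _ _ ha, chi_move _ _ ha, chi_move _ _ (hu.conj_mem a ha), star_mul]
    simp only [mul_assoc]

theorem move_of_eq (hu : IsNormaliser M A u) (hv : IsNormaliser M A v) (e : u = v) :
    move hu ω = move hv ω := by
  subst e; rfl

theorem move_one : move (IsNormaliser.one (M := M) (A := A)) ω = ω :=
  spec_ext fun a ha => by rw [chi_move _ _ ha]; simp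

theorem move_star_move (hu : IsNormaliser M A u) : move hu.star' (move hu ω) = ω := by
  rw [← move_mul, move_of_eq ω _ IsNormaliser.one hu.star_mul, move_one]

theorem move_move_star (hu : IsNormaliser M A u) : move hu (move hu.star' ω) = ω := by
  rw [← move_mul, move_of_eq ω _ IsNormaliser.one hu.mul_star, move_one]

/-- The homeomorphism of a normaliser. -/
noncomputable def moveHomeo (hu : IsNormaliser M A u) : Spec A ≃ₜ Spec A where
  toFun := move hu
  invFun := move hu.star'
  left_inv ω := move_star_move ω hu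
  right_inv ω := move_move_star ω hu
  continuous_toFun := continuous_move hu
  continuous_invFun := continuous_move hu.star'

omit [AbelianClosed A] in
theorem expect_self (hA : IsMasa M A) (ha : a ∈ A) : expect A a = a :=
  expect_eq_of_tendsto fun x y => by
    have : ∀ P : FPart A, P.D a = a := fun P => by
      rw [show a = a * 1 by rw [mul_one], FPart.D_mul_left hA P ha, FPart.D_one]
    simp only [this]
    exact tendsto_const_nhds

omit [AbelianClosed A] in
theorem tau_expect (hA : IsMasa M A) (h : IsTrace M η) {x : H →L[ℂ] H} (hx : x ∈ M) :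
    tau h (expect A x) = tau h x :=
  normalCentral_expect hA (tau_normalCentral h hA.le) hx

omit [AbelianClosed A] in
theorem tau_mul_expect (hA : IsMasa M A) (h : IsTrace M η) (ha : a ∈ A) {x : H →L[ℂ] H}
    (hx : x ∈ M) : tau h (a * expect A x) = tau h (a * x) := by
  rw [← expect_mul_left hA ha, tau_expect hA h (mul_mem (hA.le a ha) hx)]

omit [AbelianClosed A] in
/-- The expectation commutes with the normalisers. -/
theorem expect_equivariant (hA : IsMasa M A) (h : IsTrace M η) (hu : IsNormaliser M A u)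
    {x : H →L[ℂ] H} (hx : x ∈ M) :
    expect A (star u * x * u) = star u * expect A x * u := by
  have hxu : star u * x * u ∈ M := mul_mem (mul_mem (star_mem hu.mem) hx) hu.mem
  have hE := expect_mem hA hx
  obtain ⟨d, hd⟩ : ∃ d, d = expect A (star u * x * u) - star u * expect A x * u := ⟨_, rfl⟩
  have hdA : d ∈ A := hd ▸ sub_mem (expect_mem hA hxu) (hu.conj_mem _ hE)
  have key : ∀ a ∈ A, tau h (a * expect A (star u * x * u))
      = tau h (a * (star u * expect A x * u)) := by
    intro a ha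
    have r : ∀ z ∈ M, tau h (a * (star u * z * u)) = tau h (u * a * star u * z) := fun z hz => by
      rw [show a * (star u * z * u) = (a * star u * z) * u by simp only [mul_assoc],
        tau_comm h (mul_mem (mul_mem (hA.le a ha) (star_mem hu.mem)) hz) hu.mem]
      simp only [mul_assoc]
    have e : tau h (a * expect A (star u * x * u)) = tau h (a * (star u * x * u)) := by
      rw [← expect_mul_left hA ha,
        normalCentral_expect hA (tau_normalCentral h hA.le) (mul_mem (hA.le a ha) hxu)]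
    rw [e, r x hx, r _ (hA.le _ hE), ← expect_mul_left hA (hu.conj_mem' a ha),
      normalCentral_expect hA (tau_normalCentral h hA.le)
        (mul_mem (hA.le _ (hu.conj_mem' a ha)) hx)]
  have h0 : tau h (star d * d) = 0 := by
    have := key (star d) (star_mem hdA)
    rw [tau, tau, ← sub_eq_zero, ← inner_sub_right, ← map_sub, ← mul_sub] at this
    conv_lhs => arg 2; arg 2; rw [hd]
    exact this
  rw [tau_star_mul, inner_self_eq_zero] at h0
  have hd0 : d = 0 := h.faithful d (hA.le d hdA) fun i => by rw [← V_apply h, h0]; rfl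
  exact sub_eq_zero.1 (hd ▸ hd0)

omit [AbelianClosed A] in
/-- The maximal moved projection and the fixed piece of a normaliser. -/
theorem exists_pieces (hA : IsMasa M A) (hu : IsNormaliser M A u) :
    ∃ e₁ ∈ A, ∃ e₂ ∈ A, ∃ e₃ ∈ A, ∃ p₀ ∈ A, IsStarProjection p₀ ∧ u * p₀ ∈ A ∧
      p₀ = (1 - e₁) * (1 - e₂) * (1 - e₃) ∧
      ∀ e, (e = e₁ ∨ e = e₂ ∨ e = e₃) → IsStarProjection e ∧ e * (star u * e * u) = 0 := by
  classical
  obtain ⟨S, -, hS⟩ := zorn_subset_nonempty
    {S : Set (H →L[ℂ] H) | (∀ q ∈ S, q ∈ A ∧ IsStarProjection q) ∧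
      (∀ q ∈ S, ∀ q' ∈ S, q ≠ q' → q * q' = 0) ∧ ∀ q ∈ S, ∀ q' ∈ S, q * (star u * q' * u) = 0}
    (fun c hc hchain _ => ⟨⋃₀ c, ⟨fun q ⟨T, hT, hq⟩ => (hc hT).1 q hq,
      fun q ⟨T, hT, hq⟩ q' ⟨T', hT', hq'⟩ hne => by
        rcases hchain.total hT hT' with h | h
        · exact (hc hT').2.1 q (h hq) q' hq' hne
        · exact (hc hT).2.1 q hq q' (h hq') hne,
      fun q ⟨T, hT, hq⟩ q' ⟨T', hT', hq'⟩ => by
        rcases hchain.total hT hT' with h | h
        · exact (hc hT').2.2 q (h hq) q' hq'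
        · exact (hc hT).2.2 q hq q' (h hq')⟩,
      fun T hT => Set.subset_sUnion_of_mem hT⟩) ∅ ⟨by simp, by simp, by simp⟩
  obtain ⟨hSA, hSo, hSm⟩ := hS.prop
  obtain ⟨G, hGp, hqG, hGN, hGc, hGmax, -⟩ := exists_sup_proj S (fun q hq => (hSA q hq).2) hSo
  have hGA : G ∈ A := hA.mem_of_commute (hGN M fun q hq => hA.le q (hSA q hq).1) fun a ha =>
    (hGc a (fun q hq => hA.comm q (hSA q hq).1 a ha)
      (fun q hq => hA.comm q (hSA q hq).1 _ (star_mem ha))).eq
  have cm := hA.comm
  have ass : ∀ {p q r : H →L[ℂ] H}, p * q = r → ∀ s, p * (q * s) = r * s :=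
    fun h s => by rw [← mul_assoc, h]
  have θm : ∀ {a}, a ∈ A → star u * a * u ∈ A := fun ha => hu.conj_mem _ ha
  have θ'm : ∀ {a}, a ∈ A → u * a * star u ∈ A := fun ha => hu.conj_mem' _ ha
  have θmul : ∀ p q : H →L[ℂ] H,
      (star u * p * u) * (star u * q * u) = star u * (p * q) * u := fun p q => by
    simp only [mul_assoc]; rw [← mul_assoc u (star u), hu.mul_star, one_mul]
  have θ'mul : ∀ p q : H →L[ℂ] H,
      (u * p * star u) * (u * q * star u) = u * (p * q) * star u := fun p q => by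
    simp only [mul_assoc]; rw [← mul_assoc (star u) u, hu.star_mul, one_mul]
  have θθ' : ∀ p : H →L[ℂ] H, star u * (u * p * star u) * u = p := fun p => by
    simp only [mul_assoc, hu.star_mul, mul_one]; rw [← mul_assoc, hu.star_mul, one_mul]
  have θ'θ : ∀ p : H →L[ℂ] H, u * (star u * p * u) * star u = p := fun p => by
    simp only [mul_assoc, hu.mul_star, mul_one]; rw [← mul_assoc, hu.mul_star, one_mul]
  -- the supremum is moved off itself
  have h1 : ∀ q ∈ S, G * (star u * q * u) = 0 := by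
    intro q hq
    have := hGmax (1 - star u * q * u) fun p hp => by
      rw [sub_mul, one_mul, cm _ (θm (hSA q hq).1) _ (hSA p hp).1, hSm p hp q hq, sub_zero]
    rw [sub_mul, one_mul, sub_eq_self] at this
    rw [cm _ hGA _ (θm (hSA q hq).1), this]
  have h2 : u * G * star u * G = 0 := by
    have := hGmax (1 - u * G * star u) fun q hq => by
      rw [sub_mul, one_mul]
      have : u * G * star u * q = 0 := by
        conv_lhs => rw [← θ'θ q, θ'mul, h1 q hq]
        simp
      rw [this, sub_zero]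
    rwa [sub_mul, one_mul, sub_eq_self] at this
  have h3 : G * (star u * G * u) = 0 := by
    conv_lhs => rw [← θθ' G, θmul, θθ', h2]
    simp
  obtain ⟨p₀, hp₀⟩ : ∃ p, p = (1 - G) * (1 - u * G * star u) * (1 - star u * G * u) := ⟨_, rfl⟩
  have hpr : ∀ {e}, IsStarProjection e →
      IsStarProjection (star u * e * u) ∧ IsStarProjection (u * e * star u) := fun {e} he =>
    ⟨⟨by rw [IsIdempotentElem, θmul, he.isIdempotentElem.eq],
      by rw [IsSelfAdjoint, star_mul, star_mul, star_star, he.isSelfAdjoint.star_eq, mul_assoc]⟩,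
      ⟨by rw [IsIdempotentElem, θ'mul, he.isIdempotentElem.eq],
      by rw [IsSelfAdjoint, star_mul, star_mul, star_star, he.isSelfAdjoint.star_eq, mul_assoc]⟩⟩
  have h1A : ∀ {e}, e ∈ A → 1 - e ∈ A := fun he => sub_mem (one_mem A) he
  have hp₀A : p₀ ∈ A := hp₀ ▸ mul_mem (mul_mem (h1A hGA) (h1A (θ'm hGA))) (h1A (θm hGA))
  have hp₀p : IsStarProjection p₀ := hp₀ ▸
    (hGp.one_sub.mul (hpr hGp).2.one_sub (cm _ (h1A hGA) _ (h1A (θ'm hGA)))).mul
      (hpr hGp).1.one_sub (cm _ (mul_mem (h1A hGA) (h1A (θ'm hGA))) _ (h1A (θm hGA)))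
  have kill : ∀ e, (e = G ∨ e = u * G * star u ∨ e = star u * G * u) → e ∈ A →
      IsStarProjection e → p₀ * e = 0 := by
    intro e he heA hep
    rcases he with rfl | rfl | rfl
    · rw [hp₀, cm _ (mul_mem (mul_mem (h1A hGA) (h1A (θ'm hGA))) (h1A (θm hGA))) _ hGA,
        ← mul_assoc, ← mul_assoc, hep.mul_one_sub_self, zero_mul, zero_mul]
    · rw [hp₀, mul_assoc, cm _ (h1A (θm hGA)) _ heA, ← mul_assoc,
        mul_assoc (1 - G), hep.one_sub_mul_self, mul_zero, zero_mul]
    · rw [hp₀, mul_assoc, hep.one_sub_mul_self, mul_zero]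
  -- below the fixed piece every projection is fixed
  have hfix : ∀ f ∈ A, IsStarProjection f → f * p₀ = f → star u * f * u = f := by
    intro f hf hfp hfp₀
    have test : ∀ g ∈ A, IsStarProjection g → g * p₀ = g → g * (star u * g * u) = 0 → g = 0 := by
      intro g hg hgp hgp₀ hgm
      have k : ∀ e ∈ A, IsStarProjection e →
          (e = G ∨ e = u * G * star u ∨ e = star u * G * u) → g * e = 0 := fun e he hep hcase => by
        rw [← hgp₀, mul_assoc, kill e hcase he hep, mul_zero]
      have hgG : g * G = 0 := k G hGA hGp (Or.inl rfl)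
      have hgq : ∀ q ∈ S, g * q = 0 := fun q hq => by
        rw [← hqG q hq, cm q (hSA q hq).1 G hGA, ← mul_assoc, hgG, zero_mul]
      have hGq : ∀ q ∈ S, G * q = q := fun q hq => by
        rw [cm G hGA q (hSA q hq).1, hqG q hq]
      have ha : ∀ q ∈ S, g * (star u * q * u) = 0 := fun q hq => by
        rw [← hGq q hq, ← θmul, ← mul_assoc,
          k _ (θm hGA) (hpr hGp).1 (Or.inr (Or.inr rfl)), zero_mul]
      have hb : ∀ q ∈ S, q * (star u * g * u) = 0 := fun q hq => by
        have : u * q * star u * g = 0 := by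
          rw [← hGq q hq, ← θ'mul, cm _ (mul_mem (θ'm hGA) (θ'm (hSA q hq).1)) _ hg, ← mul_assoc,
            k _ (θ'm hGA) (hpr hGp).2 (Or.inr (Or.inl rfl)), zero_mul]
        conv_lhs => rw [← θθ' q, θmul, this]
        simp
      have hin : insert g S ∈ {S : Set (H →L[ℂ] H) | (∀ q ∈ S, q ∈ A ∧ IsStarProjection q) ∧
          (∀ q ∈ S, ∀ q' ∈ S, q ≠ q' → q * q' = 0) ∧
          ∀ q ∈ S, ∀ q' ∈ S, q * (star u * q' * u) = 0} := by
        refine ⟨fun x hx => hx.elim (fun h => h ▸ ⟨hg, hgp⟩) (hSA x), ?_, ?_⟩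
        · rintro x (rfl | hx) y (rfl | hy) hne
          · exact absurd rfl hne
          · exact hgq y hy
          · rw [cm x (hSA x hx).1 _ hg, hgq x hx]
          · exact hSo x hx y hy hne
        · rintro x (rfl | hx) y (rfl | hy)
          · exact hgm
          · exact ha y hy
          · exact hb x hx
          · exact hSm x hx y hy
      have hgS : g ∈ S := hS.le_of_ge hin (Set.subset_insert _ _) (Set.mem_insert _ _)
      rw [← hgp.isIdempotentElem.eq, hgq g hgS]
    have hff : f * f = f := hfp.isIdempotentElem.eq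
    have e1 : f * (1 - star u * f * u) = 0 := by
      refine test _ (mul_mem hf (h1A (θm hf)))
        (hfp.mul (hpr hfp).1.one_sub (cm _ hf _ (h1A (θm hf)))) ?_ ?_
      · rw [mul_assoc, cm _ (h1A (θm hf)) _ hp₀A, ← mul_assoc, hfp₀]
      · rw [← θmul, mul_assoc, ← mul_assoc (1 - star u * f * u),
          (hpr hfp).1.one_sub_mul_self, zero_mul, mul_zero]
    have e2 : f * (1 - u * f * star u) = 0 := by
      refine test _ (mul_mem hf (h1A (θ'm hf)))
        (hfp.mul (hpr hfp).2.one_sub (cm _ hf _ (h1A (θ'm hf)))) ?_ ?_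
      · rw [mul_assoc, cm _ (h1A (θ'm hf)) _ hp₀A, ← mul_assoc, hfp₀]
      · have eg : star u * (f * (1 - u * f * star u)) * u = star u * f * u * (1 - f) := by
          rw [← θmul, mul_sub (star u), sub_mul (star u * 1), θθ', mul_one, hu.star_mul]
        rw [eg, cm _ (θm hf) _ (h1A hf), cm _ hf _ (h1A (θ'm hf)), mul_assoc,
          ← mul_assoc f (1 - f), hfp.mul_one_sub_self, zero_mul, mul_zero]
    rw [mul_sub, mul_one, sub_eq_zero] at e1 e2
    have e3 : star u * f * u * f = star u * f * u := by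
      conv_rhs => rw [e2, ← θmul, θθ']
    calc star u * f * u = star u * f * u * f := e3.symm
      _ = f := by rw [cm _ (θm hf) _ hf, ← e1]
  have hu0 : u * p₀ = p₀ * u := by
    have := hu.push p₀
    rw [hfix p₀ hp₀A hp₀p hp₀p.isIdempotentElem.eq] at this
    exact this.symm
  have hup : u * p₀ ∈ A := by
    refine hA.mem_of_commute (mul_mem hu.mem (hA.le _ hp₀A)) fun a ha =>
      (commute_of_commute_proj hA (fun g hg hgp => ?_) ha).eq
    have hf := hfix (p₀ * g) (mul_mem hp₀A hg) (hp₀p.mul hgp (cm _ hp₀A _ hg))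
      (by rw [mul_assoc, cm _ hg _ hp₀A, ← mul_assoc, hp₀p.isIdempotentElem.eq])
    have h4 : u * (p₀ * g) = p₀ * g * u := by
      conv_rhs => rw [hu.push (p₀ * g), hf]
    show u * p₀ * g = g * (u * p₀)
    rw [hu0, ← mul_assoc, cm _ hg _ hp₀A, ← h4, ← hu0, mul_assoc]
  refine ⟨G, hGA, u * G * star u, θ'm hGA, star u * G * u, θm hGA, p₀, hp₀A, hp₀p, hup, hp₀, ?_⟩
  rintro e (rfl | rfl | rfl)
  · exact ⟨hGp, h3⟩
  · exact ⟨(hpr hGp).2, by rw [θθ', h2]⟩
  · exact ⟨(hpr hGp).1, by rw [θmul, h3]; simp⟩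

/-- The fixed piece of a normaliser. -/
theorem exists_fixed_piece (hA : IsMasa M A) (hu : IsNormaliser M A u) :
    ∃ p₀ ∈ A, IsStarProjection p₀ ∧ u * p₀ ∈ A ∧
      (∀ ω : Spec A, move hu ω = ω ↔ chi ω p₀ = 1) ∧ expect A u = u * p₀ := by
  obtain ⟨e₁, h₁, e₂, h₂, e₃, h₃, p₀, hp, hpp, hup, hpe, he⟩ := exists_pieces hA hu
  have mv : ∀ (ω : Spec A) e, e ∈ A → IsStarProjection e → e * (star u * e * u) = 0 →
      move hu ω = ω → chi ω e = 0 := by
    intro ω e heA hep hm hω
    have := chi_move ω hu heA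
    rw [hω] at this
    have h0 := chi_mul ω heA (hu.conj_mem e heA)
    rw [hm, chi_zero, ← this] at h0
    exact mul_self_eq_zero.1 h0.symm
  refine ⟨p₀, hp, hpp, hup, fun ω => ⟨fun hω => ?_, fun hω => ?_⟩, ?_⟩
  · rw [hpe, chi_mul ω (mul_mem (sub_mem (one_mem A) h₁) (sub_mem (one_mem A) h₂))
      (sub_mem (one_mem A) h₃), chi_mul ω (sub_mem (one_mem A) h₁) (sub_mem (one_mem A) h₂),
      chi_sub ω (one_mem A) h₁, chi_sub ω (one_mem A) h₂, chi_sub ω (one_mem A) h₃,
      mv ω e₁ h₁ (he _ (.inl rfl)).1 (he _ (.inl rfl)).2 hω,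
      mv ω e₂ h₂ (he _ (.inr (.inl rfl))).1 (he _ (.inr (.inl rfl))).2 hω,
      mv ω e₃ h₃ (he _ (.inr (.inr rfl))).1 (he _ (.inr (.inr rfl))).2 hω, chi_one]
    ring
  · refine spec_ext fun a ha => ?_
    rw [chi_move ω hu ha]
    have e : star u * a * u * p₀ = p₀ * a := by
      rw [mul_assoc (star u * a), mul_assoc (star u), hA.comm a ha _ hup, ← mul_assoc,
        ← mul_assoc, hu.star_mul, one_mul]
    have := congrArg (chi ω) e
    rwa [chi_mul ω (hu.conj_mem a ha) hp, chi_mul ω hp ha, hω, mul_one, one_mul] at this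
  · have kill : ∀ e, e ∈ A → IsStarProjection e → e * (star u * e * u) = 0 →
        expect A u * (1 - e) = expect A u := by
      intro e heA hep hm
      have h0 : expect A u * e = 0 := by
        rw [← expect_mul_right hA heA]
        have e0 : e * u * e = 0 := by
          rw [hu.push e, mul_assoc, ← hA.comm e heA _ (hu.conj_mem e heA), hm, mul_zero]
        calc expect A (u * e) = expect A (u * e) * e := by
              rw [← expect_mul_right hA heA, mul_assoc, hep.isIdempotentElem.eq]
          _ = expect A (e * u * e) := by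
              rw [hA.comm _ (expect_mem hA (mul_mem hu.mem (hA.le e heA))) e heA,
                ← expect_mul_left hA heA, mul_assoc]
          _ = 0 := by rw [e0, expect_zero]
      rw [mul_sub, mul_one, h0, sub_zero]
    calc expect A u = expect A u * p₀ := by
          rw [hpe, ← mul_assoc, ← mul_assoc, kill e₁ h₁ (he _ (.inl rfl)).1 (he _ (.inl rfl)).2,
            kill e₂ h₂ (he _ (.inr (.inl rfl))).1 (he _ (.inr (.inl rfl))).2,
            kill e₃ h₃ (he _ (.inr (.inr rfl))).1 (he _ (.inr (.inr rfl))).2]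
      _ = expect A (u * p₀) := (expect_mul_right hA hp u).symm
      _ = u * p₀ := expect_self hA hup

theorem isOpen_move_eq (hA : IsMasa M A) (hu : IsNormaliser M A u) :
    IsOpen {ω : Spec A | move hu ω = ω} := by
  obtain ⟨p, hp, hpp, -, hiff, -⟩ := exists_fixed_piece hA hu
  have : {ω : Spec A | move hu ω = ω} = {ω | chi ω p = 0}ᶜ := by
    ext ω
    simp only [Set.mem_ofPred_eq, hiff ω, Set.mem_compl_iff]
    rcases chi_proj ω hp hpp with h | h <;> simp [h]
  rw [this]
  exact (isClosed_eq (continuous_chi p) continuous_const).isOpen_compl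

/-- The state `ω ∘ E`. -/
noncomputable def ph (ω : Spec A) (x : H →L[ℂ] H) : ℂ := chi ω (expect A x)

variable {x y : H →L[ℂ] H}

theorem ph_add (hA : IsMasa M A) (hx : x ∈ M) (hy : y ∈ M) :
    ph ω (x + y) = ph ω x + ph ω y := by
  rw [ph, expect_add, chi_add ω (expect_mem hA hx) (expect_mem hA hy)]
  rfl

theorem ph_sub (hA : IsMasa M A) (hx : x ∈ M) (hy : y ∈ M) :
    ph ω (x - y) = ph ω x - ph ω y := by
  rw [ph, expect_sub, chi_sub ω (expect_mem hA hx) (expect_mem hA hy)]
  rfl

theorem ph_smul (hA : IsMasa M A) (c : ℂ) (hx : x ∈ M) : ph ω (c • x) = c * ph ω x := by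
  rw [ph, expect_smul, chi_smul ω c (expect_mem hA hx)]
  rfl

theorem ph_zero : ph ω (0 : H →L[ℂ] H) = 0 := by rw [ph, expect_zero, chi_zero]

theorem ph_sum (hA : IsMasa M A) {κ : Type*} (s : Finset κ) (f : κ → H →L[ℂ] H)
    (hf : ∀ i, f i ∈ M) : ph ω (∑ i ∈ s, f i) = ∑ i ∈ s, ph ω (f i) := by
  rw [ph, expect_sum, chi_sum ω _ _ fun i => expect_mem hA (hf i)]
  rfl

theorem ph_mul_left (hA : IsMasa M A) (ha : a ∈ A) (hx : x ∈ M) :
    ph ω (a * x) = chi ω a * ph ω x := by
  rw [ph, expect_mul_left hA ha, chi_mul ω ha (expect_mem hA hx)]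
  rfl

theorem ph_mul_right (hA : IsMasa M A) (ha : a ∈ A) (hx : x ∈ M) :
    ph ω (x * a) = ph ω x * chi ω a := by
  rw [ph, expect_mul_right hA ha, chi_mul ω (expect_mem hA hx) ha]
  rfl

theorem ph_self (hA : IsMasa M A) (ha : a ∈ A) : ph ω a = chi ω a := by
  rw [ph, expect_self hA ha]

theorem ph_star (hA : IsMasa M A) (hx : x ∈ M) : ph ω (star x) = starRingEnd ℂ (ph ω x) := by
  rw [ph, expect_star, chi_star ω (expect_mem hA hx)]
  rfl

theorem ph_nonneg (hA : IsMasa M A) (hx : x ∈ M) : 0 ≤ ph ω (star x * x) := by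
  obtain ⟨R, hR, hRs, hRR⟩ := expect_pos_sqrt hA hx
  rw [ph, ← hRR]
  conv_rhs => arg 2; arg 1; rw [← hRs.star_eq]
  rw [chi_mul ω (star_mem hR) hR, chi_star ω hR, ← Complex.normSq_eq_conj_mul_self]
  exact_mod_cast Complex.normSq_nonneg _

theorem ph_move (hA : IsMasa M A) (h : IsTrace M η) (hu : IsNormaliser M A u) (hx : x ∈ M) :
    ph (move hu ω) x = ph ω (star u * x * u) := by
  rw [ph, ph, chi_move ω hu (expect_mem hA hx), expect_equivariant hA h hu hx]

theorem ph_eq_zero_of_move_ne (hA : IsMasa M A) (hu : IsNormaliser M A u)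
    (hne : move hu ω ≠ ω) : ph ω u = 0 := by
  obtain ⟨p, hp, hpp, hup, hiff, hE⟩ := exists_fixed_piece hA hu
  rcases chi_proj ω hp hpp with h | h
  · have : ph ω u * chi ω p = ph ω u := by
      rw [← ph_mul_right ω hA hp hu.mem, ph_self ω hA hup, ph, hE]
    rw [h, mul_zero] at this
    exact this.symm
  · exact absurd ((hiff ω).2 h) hne

/-- A normaliser fixing `ω` acts as a phase. -/
theorem ph_fixed (hA : IsMasa M A) (hu : IsNormaliser M A u) (hω : move hu ω = ω) :
    ‖ph ω u‖ = 1 ∧ (∀ x ∈ M, ph ω (x * u) = ph ω x * ph ω u) ∧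
      ∀ x ∈ M, ph ω (star u * x) = starRingEnd ℂ (ph ω u) * ph ω x := by
  obtain ⟨p, hp, hpp, hup, hiff, hE⟩ := exists_fixed_piece hA hu
  have h1 := (hiff ω).1 hω
  have hφ : ph ω u = chi ω (u * p) := by rw [ph, hE]
  have hr : ∀ x ∈ M, ph ω (x * u) = ph ω x * ph ω u := fun x hx => by
    have := ph_mul_right ω hA hup hx
    rw [← mul_assoc, ph_mul_right ω hA hp (mul_mem hx hu.mem), h1, mul_one] at this
    rw [hφ]; exact this
  refine ⟨?_, hr, fun x hx => ?_⟩
  · have h2 : star (u * p) * (u * p) = p := by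
      rw [star_mul, hpp.isSelfAdjoint.star_eq, mul_assoc, ← mul_assoc (star u), hu.star_mul,
        one_mul, hpp.isIdempotentElem.eq]
    have h3 := congrArg (chi ω) h2
    rw [chi_mul ω (star_mem hup) hup, chi_star ω hup, h1, ← Complex.normSq_eq_conj_mul_self,
      ← hφ, Complex.ofReal_eq_one, Complex.normSq_eq_norm_sq] at h3
    nlinarith [norm_nonneg (ph ω u)]
  · have := hr (star x) (star_mem hx)
    rw [← star_star u, ← star_mul, ph_star ω hA (mul_mem (star_mem hu.mem) hx),
      ph_star ω hA hx, star_star] at this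
    have h4 := congrArg (starRingEnd ℂ) this
    rw [Complex.conj_conj, map_mul, Complex.conj_conj] at h4
    rw [h4, mul_comm]

/-- The Kronecker delta of two normalisers. -/
theorem ph_moved (hA : IsMasa M A) (hu : IsNormaliser M A u) (hv : IsNormaliser M A v)
    (ha : a ∈ A) (hne : move hu ω ≠ move hv ω) : ph ω (star u * a * v) = 0 := by
  rw [show star u * a * v = star u * a * u * (star u * v) by
    simp only [mul_assoc]; rw [← mul_assoc u (star u), hu.mul_star, one_mul],
    ph_mul_left ω hA (hu.conj_mem a ha) (mul_mem (star_mem hu.mem) hv.mem),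
    ph_eq_zero_of_move_ne ω hA (hu.star'.mul hv) ?_, mul_zero]
  intro e
  apply hne
  rw [move_mul ω hu.star' hv] at e
  conv_lhs => rw [← e]
  exact move_move_star _ hu

end Vale.Agent.P078.Cartan
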