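import Vale.Agent.P078.Cartan.OperatorPaving
import Vale.Agent.P078.Cartan.Quad.Core

/-!
One colouring for both sides: so-paving of regular MASAs of finite algebras with `O(ε⁻²)` pieces.
-/

namespace Vale.Agent.P078.Cartan

open scoped InnerProductSpace ComplexOrder
open ContinuousLinearMap Polynomial

variable {H : Type} [NormedAddCommGroup H] [InnerProductSpace ℂ H] [CompleteSpace H]
variable {M : VonNeumannAlgebra H} {A : StarSubalgebra ℂ (H →L[ℂ] H)} {ι : Type} {η : ι → H}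

/-- The level of one two-sided colouring. -/
noncomputable def lvlTwo (r : ℕ) : ℝ := 4 / Real.sqrt r + 2 / r

/-- One colouring serves both sides. -/
theorem sidesBound_two (core : Quad.QuadCoreStatement) : SidesBound (fun r => r) lvlTwo := by
  intro H _ _ _ M A ι η hA h x hx hxs hx1 hx0 r hr lam δ hlam hδ
  have := hA.abelianClosed
  have := spec_totallyDisconnected hA
  have hxM := spanN_le hA hx
  obtain ⟨hG0, hG1⟩ := halfUp_bounds hxs hx1
  obtain ⟨D⟩ := exists_gens (halfUp_mem_spanN hx)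
  have hph : ∀ ω : Spec A, ph ω (halfUp x) = 1 / 2 := fun ω => ph_halfUp hA hxM hx0 ω
  have hα : ∀ ω : Spec A, (ph ω (halfUp x)).re ≤ 1 / 2 := fun ω => by rw [hph]; norm_num
  obtain ⟨t, ht⟩ : ∃ t : ℝ, t = (lam + 1) / 2 := ⟨_, rfl⟩
  have ht' : 1 / 2 + 2 / Real.sqrt r + 1 / r < t := by
    have e : lvlTwo r = 2 * (2 / Real.sqrt r + 1 / r) := by unfold lvlTwo; ring
    rw [ht]; linarith
  have ht0 : 0 ≤ t := le_trans (by positivity) ht'.le
  have hdiag : ∀ w (ω : Spec A), (D.model hA h hG0 hG1 hα).ent w w ω = 1 / 2 := fun w ω => by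
    show ph ω (star (D.word w) * halfUp x * D.word w) = _
    rw [← ph_move ω hA h (D.word_normaliser w) (D.mem hA), hph]
  obtain ⟨κ, hκ, ⟨f, hf0, hf1, d, hd, hμ⟩, ⟨g, hg0, hg1, e, he, hν⟩⟩ :=
    core (Spec A) D.L r t (δ ^ 2 / 8) (D.model hA h hG0 hG1 hα) hr hdiag ht' (by positivity)
  obtain ⟨p, hp, hκp⟩ := exists_colouring_partition hκ
  have hSM := pinching_mem hA hp (D.mem hA)
  refine ⟨p, hp, ?_, ?_⟩
  · refine (Phi_two_sided_le hA h hxM hxs hx1 hp).trans ?_
    rw [← ht]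
    have h2 := Phi_sq_le_of_poly h hSM (pinching_isSelfAdjoint hp (IsSelfAdjoint.of_nonneg hG0))
      (pinching_unit_interval hp hG0 hG1) ht0 hf0 (by positivity) hf1
      (D.tau_poly_le hA h hG0 hG1 hα hp hκp f d hd hμ)
    have := Phi_nonneg h t (pinching p (halfUp x))
    nlinarith
  · have hn : ‖-x‖ ≤ 1 := by rwa [norm_neg]
    have hm : halfUp (-x) = 1 - halfUp x := by unfold halfUp; module
    have hS' : pinching p (halfUp (-x)) = 1 - pinching p (halfUp x) := by
      rw [hm, pinching_sub, pinching_self hA hp (one_mem A)]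
    rw [← pinching_neg]
    refine (Phi_two_sided_le hA h (neg_mem hxM) hxs.neg hn hp).trans ?_
    rw [← ht]
    have hG0' := (halfUp_bounds hxs.neg hn).1
    have hG1' := (halfUp_bounds hxs.neg hn).2
    have hM' : halfUp (-x) ∈ M := vn_smul_mem _ (add_mem (one_mem M) (neg_mem hxM))
    have hev : ∀ y : ℝ, (g.comp (1 - X)).eval y = g.eval (1 - y) := fun y => by simp
    have haev : aeval (pinching p (halfUp (-x))) (g.comp (1 - X))
        = aeval (pinching p (halfUp x)) g := by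
      rw [aeval_comp, map_sub, map_one, aeval_X, hS', sub_sub_cancel]
    have h2 := Phi_sq_le_of_poly h (f := g.comp (1 - X)) (pinching_mem hA hp hM')
      (pinching_isSelfAdjoint hp (IsSelfAdjoint.of_nonneg hG0'))
      (pinching_unit_interval hp hG0' hG1') ht0
      (fun y hy => by rw [hev]; exact hg0 _ ⟨by linarith [hy.2], by linarith [hy.1]⟩)
      (δ := δ ^ 2 / 8) (by positivity)
      (fun y hy => by rw [hev]; exact hg1 _ ⟨by linarith [hy.2], by linarith [hy.1]⟩)
      (by rw [haev]; exact D.tau_poly_le hA h hG0 hG1 hα hp hκp g e he hν)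
    have := Phi_nonneg h t (pinching p (halfUp (-x)))
    nlinarith

/-- Regular MASAs of finite algebras have so-paving with `O(ε⁻²)` pieces. -/
theorem allSoPavable_regular_two (core : Quad.QuadCoreStatement) (hA : IsMasa M A)
    (hT : HasFiniteTrace M) (hreg : IsRegularMasa M A) {ε : ℝ} (hε : 0 < ε) (hε1 : ε ≤ 1) :
    ∃ r : ℕ, (r : ℝ) ≤ 146 / ε ^ 2 ∧ AllSoPavable M A ε r := by
  obtain ⟨r, hr⟩ : ∃ r : ℕ, r = ⌈144 / ε ^ 2⌉₊ + 1 := ⟨_, rfl⟩
  have hr1 : (144 / ε ^ 2 : ℝ) < r := by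
    rw [hr]; push_cast; linarith [Nat.le_ceil (144 / ε ^ 2 : ℝ)]
  have hr2 : (r : ℝ) ≤ 146 / ε ^ 2 := by
    have h1 := Nat.ceil_lt_add_one (show 0 ≤ 144 / ε ^ 2 by positivity)
    have h2 : (1 : ℝ) ≤ 1 / ε ^ 2 := by
      rw [le_div_iff₀ (by positivity)]; nlinarith
    rw [hr]; push_cast
    rw [show 146 / ε ^ 2 = 144 / ε ^ 2 + 2 * (1 / ε ^ 2) by ring]
    linarith
  have hr0 : 0 < r := by omega
  refine ⟨r, hr2, allSoPavable_of_sides (sidesBound_two core) hA hT hreg hr0 hr0 ?_ ?_⟩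
  all_goals
    obtain ⟨u, hu⟩ : ∃ u : ℝ, u = 1 / Real.sqrt r := ⟨_, rfl⟩
    have hu0 : 0 < u := hu ▸ by positivity
    have hu2 : u ^ 2 * r = 1 := by
      rw [hu, div_pow, one_pow, Real.sq_sqrt (by positivity), one_div, inv_mul_cancel₀]
      positivity
    have e : lvlTwo r = 4 * u + 2 * u ^ 2 := by
      rw [lvlTwo, hu, div_pow, one_pow, Real.sq_sqrt (by positivity)]; ring
    rw [e]
  · positivity
  · have h1 : u ^ 2 * (144 / ε ^ 2) < 1 := by
      rw [← hu2]
      exact mul_lt_mul_of_pos_left hr1 (by positivity)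
    rw [mul_div_assoc', div_lt_one (by positivity)] at h1
    have h2 : 12 * u < ε := by nlinarith
    nlinarith

end Vale.Agent.P078.Cartan
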