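import Vale.Agent.P078.Normal
import Mathlib.Analysis.InnerProductSpace.l2Space

/-!
Finite traces given by vectors: the two-norm as the norm of a linear map into `ℓ²`, positive parts.
-/

namespace Vale.Agent.P078.Cartan

open scoped InnerProductSpace ComplexOrder
open ContinuousLinearMap

variable {H : Type} [NormedAddCommGroup H] [InnerProductSpace ℂ H] [CompleteSpace H]
variable {M : VonNeumannAlgebra H} {ι : Type} {η : ι → H}

/-- `∑ i, ⟪η i, · (η i)⟫` is a faithful tracial state of `M`. -/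
structure IsTrace (M : VonNeumannAlgebra H) (η : ι → H) : Prop where
  summable : Summable fun i => ‖η i‖ ^ 2
  one : ∑' i, ‖η i‖ ^ 2 = 1
  symm : ∀ x ∈ M, ∑' i, ‖x (η i)‖ ^ 2 = ∑' i, ‖star x (η i)‖ ^ 2
  faithful : ∀ x ∈ M, (∀ i, x (η i) = 0) → x = 0

theorem IsTrace.summable_apply (h : IsTrace M η) (x : H →L[ℂ] H) :
    Summable fun i => ‖x (η i)‖ ^ 2 := by
  refine Summable.of_nonneg_of_le (fun i => sq_nonneg _) (fun i => ?_)
    (h.summable.mul_left (‖x‖ ^ 2))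
  rw [← mul_pow]
  exact pow_le_pow_left₀ (norm_nonneg _) (x.le_opNorm _) 2

theorem IsTrace.memℓp (h : IsTrace M η) (x : H →L[ℂ] H) :
    Memℓp (fun i => x (η i)) 2 := by
  refine memℓp_gen ?_
  simpa using h.summable_apply x

/-- The vector of an operator. -/
noncomputable def IsTrace.V (h : IsTrace M η) : (H →L[ℂ] H) →ₗ[ℂ] lp (fun _ : ι => H) 2 where
  toFun x := ⟨fun i => x (η i), h.memℓp x⟩
  map_add' x y := by ext i; simp; rfl
  map_smul' c x := by ext i; simp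

variable (h : IsTrace M η)

theorem V_apply (x : H →L[ℂ] H) (i : ι) : h.V x i = x (η i) := rfl

theorem inner_V (x y : H →L[ℂ] H) : ⟪h.V x, h.V y⟫_ℂ = ∑' i, ⟪x (η i), y (η i)⟫_ℂ :=
  lp.inner_eq_tsum _ _

theorem norm_V_sq (x : H →L[ℂ] H) : ‖h.V x‖ ^ 2 = ∑' i, ‖x (η i)‖ ^ 2 := by
  have h1 := lp.norm_rpow_eq_tsum (p := 2) (by norm_num) (h.V x)
  simpa [V_apply] using h1

theorem norm_V_le (x : H →L[ℂ] H) : ‖h.V x‖ ≤ ‖x‖ := by
  refine (abs_le_of_sq_le_sq' ?_ (norm_nonneg x)).2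
  rw [norm_V_sq]
  calc ∑' i, ‖x (η i)‖ ^ 2 ≤ ∑' i, ‖x‖ ^ 2 * ‖η i‖ ^ 2 :=
        (h.summable_apply x).tsum_le_tsum (fun i => by
          rw [← mul_pow]
          exact pow_le_pow_left₀ (norm_nonneg _) (x.le_opNorm _) 2) (h.summable.mul_left _)
    _ = ‖x‖ ^ 2 := by rw [tsum_mul_left, h.one, mul_one]

theorem norm_V_one : ‖h.V 1‖ = 1 := by
  have h1 : ‖h.V 1‖ ^ 2 = 1 := by simpa [norm_V_sq] using h.one
  nlinarith [norm_nonneg (h.V 1)]

theorem V_inner_mul_left (a x y : H →L[ℂ] H) :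
    ⟪h.V x, h.V (a * y)⟫_ℂ = ⟪h.V (star a * x), h.V y⟫_ℂ := by
  rw [inner_V, inner_V]
  refine tsum_congr fun i => ?_
  rw [mul_apply', mul_apply', ContinuousLinearMap.star_eq_adjoint,
    ContinuousLinearMap.adjoint_inner_left]

theorem norm_V_mul_left_le (a x : H →L[ℂ] H) : ‖h.V (a * x)‖ ≤ ‖a‖ * ‖h.V x‖ := by
  refine (abs_le_of_sq_le_sq' ?_ (by positivity)).2
  rw [mul_pow, norm_V_sq, norm_V_sq, ← tsum_mul_left]
  refine (h.summable_apply _).tsum_le_tsum (fun i => ?_) ((h.summable_apply x).mul_left _)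
  rw [← mul_pow, mul_apply']
  exact pow_le_pow_left₀ (norm_nonneg _) (a.le_opNorm _) 2

theorem norm_V_star {x : H →L[ℂ] H} (hx : x ∈ M) : ‖h.V (star x)‖ = ‖h.V x‖ := by
  have h1 : ‖h.V (star x)‖ ^ 2 = ‖h.V x‖ ^ 2 := by rw [norm_V_sq, norm_V_sq, h.symm x hx]
  exact (pow_left_inj₀ (norm_nonneg _) (norm_nonneg _) two_ne_zero).1 h1

theorem norm_V_mul_right_le {a x : H →L[ℂ] H} (ha : a ∈ M) (hx : x ∈ M) :
    ‖h.V (x * a)‖ ≤ ‖a‖ * ‖h.V x‖ := by
  rw [← norm_V_star h (mul_mem hx ha), star_mul, ← norm_V_star h hx, ← norm_star a]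
  exact norm_V_mul_left_le h _ _

/-- The trace property. -/
theorem inner_V_star {x y : H →L[ℂ] H} (hx : x ∈ M) (hy : y ∈ M) :
    ⟪h.V (star x), h.V (star y)⟫_ℂ = ⟪h.V y, h.V x⟫_ℂ := by
  have e : ∀ c : ℂ, ‖h.V (star x) + c • h.V (star y)‖ = ‖h.V x + starRingEnd ℂ c • h.V y‖ := by
    intro c
    have e1 : h.V (star x) + c • h.V (star y) = h.V (star (x + starRingEnd ℂ c • y)) := by
      rw [star_add, star_smul, map_add, map_smul, RCLike.star_def, Complex.conj_conj]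
    have e2 : x + starRingEnd ℂ c • y ∈ M := add_mem hx (vn_smul_mem _ hy)
    rw [e1, norm_V_star h e2, map_add, map_smul]
  have h1 := e 1
  have h2 := e (-1)
  have h3 := e Complex.I
  have h4 := e (-Complex.I)
  simp only [one_smul, map_one, map_neg, neg_smul, Complex.conj_I, neg_neg, ← sub_eq_add_neg]
    at h1 h2 h3 h4
  rw [inner_eq_sum_norm_sq_div_four, ← inner_conj_symm (h.V y) (h.V x),
    inner_eq_sum_norm_sq_div_four]
  simp only [RCLike.I_to_complex]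
  rw [h1, h2, h3, h4]
  simp only [map_div₀, map_add, map_sub, map_mul, map_pow, map_ofNat, Complex.conj_I,
    Complex.coe_algebraMap, Complex.conj_ofReal]
  ring

/-- The trace, as a functional. -/
noncomputable def tau (x : H →L[ℂ] H) : ℂ := ⟪h.V 1, h.V x⟫_ℂ

theorem tau_star_mul (x y : H →L[ℂ] H) : tau h (star x * y) = ⟪h.V x, h.V y⟫_ℂ := by
  rw [tau, V_inner_mul_left, star_star, mul_one]

theorem tau_comm {x y : H →L[ℂ] H} (hx : x ∈ M) (hy : y ∈ M) : tau h (x * y) = tau h (y * x) := by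
  have h1 : tau h (x * y) = ⟪h.V (star x), h.V y⟫_ℂ := by rw [← tau_star_mul, star_star]
  have h2 : tau h (y * x) = ⟪h.V (star y), h.V x⟫_ℂ := by rw [← tau_star_mul, star_star]
  rw [h1, h2]
  simpa using inner_V_star h hx (star_mem hy)

theorem re_tau_mul_nonneg {N b : H →L[ℂ] H} (hN : N ∈ M) (hb : b ∈ M) (hN0 : 0 ≤ N) (hb0 : 0 ≤ b) :
    0 ≤ (tau h (N * b)).re := by
  obtain ⟨n, hn⟩ : ∃ n, n = cfc Real.sqrt N := ⟨_, rfl⟩
  obtain ⟨c, hc⟩ : ∃ c, c = cfc Real.sqrt b := ⟨_, rfl⟩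
  have sq : ∀ {T : H →L[ℂ] H}, 0 ≤ T → cfc Real.sqrt T * cfc Real.sqrt T = T := fun {T} hT => by
    rw [← cfc_mul _ _ T]
    conv_rhs => rw [← cfc_id' ℝ T (IsSelfAdjoint.of_nonneg hT)]
    exact cfc_congr fun t ht => Real.mul_self_sqrt (spectrum_nonneg_of_nonneg hT ht)
  have hns : IsSelfAdjoint n := hn ▸ cfc_predicate _ N
  have hcs : IsSelfAdjoint c := hc ▸ cfc_predicate _ b
  have hnM : n ∈ M := hn ▸ vn_cfc_mem hN _
  have hcM : c ∈ M := hc ▸ vn_cfc_mem hb _
  have e : tau h (N * b) = ⟪h.V (n * c), h.V (n * c)⟫_ℂ := by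
    rw [← sq hN0, ← sq hb0, ← hn, ← hc, ← mul_assoc (n * n) c c,
      tau_comm h (mul_mem (mul_mem hnM hnM) hcM) hcM, ← tau_star_mul, star_mul, hns.star_eq,
      hcs.star_eq]
    simp only [mul_assoc]
  rw [e, inner_self_eq_norm_sq_to_K]
  simp only [← Complex.ofReal_pow, Complex.ofReal_re, Complex.coe_algebraMap]
  positivity

theorem re_inner_V_nonneg {N b : H →L[ℂ] H} (hN : N ∈ M) (hb : b ∈ M) (hN0 : 0 ≤ N)
    (hb0 : 0 ≤ b) : 0 ≤ RCLike.re ⟪h.V N, h.V b⟫_ℂ := by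
  rw [← tau_star_mul, (IsSelfAdjoint.of_nonneg hN0).star_eq]
  exact re_tau_mul_nonneg h hN hb hN0 hb0

/-- The positive part above the level `t`. -/
noncomputable def posAbove (t : ℝ) (x : H →L[ℂ] H) : H →L[ℂ] H := cfc (fun s => max (s - t) 0) x

/-- The negative part below the level `t`. -/
noncomputable def posBelow (t : ℝ) (x : H →L[ℂ] H) : H →L[ℂ] H := cfc (fun s => max (t - s) 0) x

theorem posAbove_nonneg (t : ℝ) (x : H →L[ℂ] H) : 0 ≤ posAbove t x :=
  cfc_nonneg fun _ _ => le_max_right _ _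

theorem posBelow_nonneg (t : ℝ) (x : H →L[ℂ] H) : 0 ≤ posBelow t x :=
  cfc_nonneg fun _ _ => le_max_right _ _

theorem posAbove_sub_posBelow {x : H →L[ℂ] H} (hx : IsSelfAdjoint x) (t : ℝ) :
    posAbove t x - posBelow t x = x - algebraMap ℝ (H →L[ℂ] H) t := by
  rw [posAbove, posBelow, ← cfc_sub _ _ x]
  conv_rhs => rw [← cfc_id' ℝ x, ← cfc_const t x, ← cfc_sub (fun s => s) (fun _ => t) x]
  exact cfc_congr fun s _ => by
    rcases le_total t s with h | h
    · rw [max_eq_left (by linarith), max_eq_right (by linarith)]; ring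
    · rw [max_eq_right (by linarith), max_eq_left (by linarith)]; ring

theorem posBelow_mul_posAbove (t : ℝ) (x : H →L[ℂ] H) : posBelow t x * posAbove t x = 0 := by
  rw [posAbove, posBelow, ← cfc_mul _ _ x]
  refine (cfc_congr fun s _ => ?_).trans (cfc_const_zero ℝ x)
  rcases le_total t s with h | h
  · rw [max_eq_right (by linarith : t - s ≤ 0)]; simp
  · rw [max_eq_right (by linarith : s - t ≤ 0)]; simp

theorem posBelow_eq_neg (t : ℝ) {x : H →L[ℂ] H} (hx : IsSelfAdjoint x) :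
    posBelow t x = posAbove (-t) (-x) := by
  rw [posAbove, posBelow, ← cfc_comp_neg _ x]
  exact cfc_congr fun s _ => by ring_nf

/-- The distance to the half-line below `t`, in two-norm. -/
noncomputable def Phi (t : ℝ) (x : H →L[ℂ] H) : ℝ := ‖h.V (posAbove t x)‖

theorem Phi_nonneg (t : ℝ) (x : H →L[ℂ] H) : 0 ≤ Phi h t x := norm_nonneg _

theorem re_inner_posBelow (x : H →L[ℂ] H) (t : ℝ) :
    ⟪h.V (posBelow t x), h.V (posAbove t x)⟫_ℂ = 0 := by
  rw [← tau_star_mul, (IsSelfAdjoint.of_nonneg (posBelow_nonneg t x)).star_eq,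
    posBelow_mul_posAbove, tau, map_zero, inner_zero_right]

theorem Phi_lipschitz {x y : H →L[ℂ] H} (hx : x ∈ M) (hy : y ∈ M) (hxs : IsSelfAdjoint x)
    (hys : IsSelfAdjoint y) (t : ℝ) : Phi h t x ≤ Phi h t y + ‖h.V (x - y)‖ := by
  obtain ⟨P, hP⟩ : ∃ P, P = h.V (posAbove t x) := ⟨_, rfl⟩
  obtain ⟨Q, hQ⟩ : ∃ Q, Q = h.V (posAbove t y) := ⟨_, rfl⟩
  obtain ⟨N, hN⟩ : ∃ N, N = h.V (posBelow t x) := ⟨_, rfl⟩
  obtain ⟨R, hR⟩ : ∃ R, R = h.V (posBelow t y) := ⟨_, rfl⟩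
  have e : h.V (x - y) = (P - N) - (Q - R) := by
    rw [hP, hQ, hN, hR, ← map_sub, ← map_sub, ← map_sub]
    congr 1
    rw [posAbove_sub_posBelow hxs, posAbove_sub_posBelow hys]
    abel
  have hPM := vn_cfc_mem hx (fun s => max (s - t) 0)
  have hQM := vn_cfc_mem hy (fun s => max (s - t) 0)
  have hNM := vn_cfc_mem hx (fun s => max (t - s) 0)
  have hRM := vn_cfc_mem hy (fun s => max (t - s) 0)
  have hNP : RCLike.re ⟪N, P⟫_ℂ = 0 := by rw [hN, hP, re_inner_posBelow h]; simp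
  have hRQ : RCLike.re ⟪R, Q⟫_ℂ = 0 := by rw [hR, hQ, re_inner_posBelow h]; simp
  have hNQ : 0 ≤ RCLike.re ⟪N, Q⟫_ℂ :=
    hN ▸ hQ ▸ re_inner_V_nonneg h hNM hQM (posBelow_nonneg t x) (posAbove_nonneg t y)
  have hRP : 0 ≤ RCLike.re ⟪R, P⟫_ℂ :=
    hR ▸ hP ▸ re_inner_V_nonneg h hRM hPM (posBelow_nonneg t y) (posAbove_nonneg t x)
  have key : ‖P - Q‖ ^ 2 ≤ RCLike.re ⟪(P - N) - (Q - R), P - Q⟫_ℂ := by
    rw [show (P - N) - (Q - R) = (P - Q) - N + R by abel, inner_add_left, inner_sub_left,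
      map_add, map_sub, inner_self_eq_norm_sq]
    simp only [inner_sub_right, map_sub]
    linarith
  have key2 : ‖P - Q‖ ^ 2 ≤ ‖h.V (x - y)‖ * ‖P - Q‖ :=
    key.trans ((re_inner_le_norm _ _).trans_eq (by rw [e]))
  have hd : ‖P - Q‖ ≤ ‖h.V (x - y)‖ := by
    rcases (norm_nonneg (P - Q)).eq_or_lt with h0 | h0
    · rw [← h0]; exact norm_nonneg _
    · nlinarith
  have := norm_le_insert' P Q
  simp only [Phi, ← hP, ← hQ]
  linarith

theorem Phi_le_of_le {x c : H →L[ℂ] H} (hx : x ∈ M) (hxs : IsSelfAdjoint x) (hc : c ∈ M) (t : ℝ)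
    (hle : x - algebraMap ℝ (H →L[ℂ] H) t ≤ c) : Phi h t x ≤ ‖h.V c‖ := by
  obtain ⟨P, hP⟩ : ∃ P, P = posAbove t x := ⟨_, rfl⟩
  have hPM : P ∈ M := hP ▸ vn_cfc_mem hx _
  have hPN : RCLike.re ⟪h.V P, h.V (posBelow t x)⟫_ℂ = 0 := by
    rw [← inner_conj_symm, hP, re_inner_posBelow h]; simp
  have halg : algebraMap ℝ (H →L[ℂ] H) t ∈ M := by
    rw [← cfc_const t x hxs]; exact vn_cfc_mem hx _
  have h0 := re_inner_V_nonneg h hPM (sub_mem hc (sub_mem hx halg)) (hP ▸ posAbove_nonneg t x)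
    (sub_nonneg.2 hle)
  rw [map_sub, inner_sub_right, map_sub] at h0
  rw [← posAbove_sub_posBelow hxs, ← hP, map_sub h.V P, inner_sub_right, map_sub, hPN,
    inner_self_eq_norm_sq, sub_zero] at h0
  have h1 := re_inner_le_norm (𝕜 := ℂ) (h.V P) (h.V c)
  show ‖h.V (posAbove t x)‖ ≤ _
  rw [← hP]
  rcases (norm_nonneg (h.V P)).eq_or_lt with hz | hz
  · rw [← hz]; exact norm_nonneg _
  · nlinarith

theorem posAbove_mem {x : H →L[ℂ] H} (hx : x ∈ M) (t : ℝ) : posAbove t x ∈ M := vn_cfc_mem hx _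

theorem sub_le_posAbove {x : H →L[ℂ] H} (hx : IsSelfAdjoint x) (t : ℝ) :
    x - algebraMap ℝ (H →L[ℂ] H) t ≤ posAbove t x := by
  rw [← posAbove_sub_posBelow hx]
  exact sub_le_self _ (posBelow_nonneg t x)

theorem Phi_eq_zero {x : H →L[ℂ] H} (hxs : IsSelfAdjoint x) {t : ℝ}
    (hle : x ≤ algebraMap ℝ (H →L[ℂ] H) t) : Phi h t x = 0 := by
  have : posAbove t x = 0 := by
    refine (cfc_congr fun s hs => ?_).trans (cfc_const_zero ℝ x)
    exact max_eq_right (by linarith [(le_algebraMap_iff_spectrum_le hxs).1 hle s hs])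
  rw [Phi, this, map_zero, norm_zero]

/-- Pinchings are contractions in two-norm. -/
theorem norm_V_pinching_le {r : ℕ} {p : Fin r → (H →L[ℂ] H)} (hpM : ∀ i, p i ∈ M)
    (hp : ∀ i, IsStarProjection (p i)) (ho : ∀ i j, i ≠ j → p i * p j = 0) {x : H →L[ℂ] H}
    (hx : x ∈ M) : ‖h.V (pinching p x)‖ ≤ ‖h.V x‖ := by
  obtain ⟨S, hS⟩ : ∃ S, S = pinching p x := ⟨_, rfl⟩
  have e : ⟪h.V S, h.V S⟫_ℂ = ⟪h.V x, h.V S⟫_ℂ := by
    rw [← tau_star_mul, ← tau_star_mul, hS, pinching, star_sum, Finset.sum_mul, Finset.mul_sum,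
      tau, tau, map_sum, map_sum, inner_sum, inner_sum]
    refine Finset.sum_congr rfl fun i _ => ?_
    have e1 : star (p i * x * p i) * ∑ j, p j * x * p j = p i * (star x * p i * x * p i) := by
      rw [Finset.mul_sum, Finset.sum_eq_single i]
      · simp only [star_mul, (hp i).isSelfAdjoint.star_eq, mul_assoc]
        rw [← mul_assoc (p i) (p i), (hp i).isIdempotentElem.eq]
      · intro j _ hj
        simp only [star_mul, (hp i).isSelfAdjoint.star_eq, mul_assoc]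
        rw [← mul_assoc (p i) (p j), ho i j (Ne.symm hj)]
        simp
      · simp
    show tau h _ = tau h _
    rw [e1, tau_comm h (hpM i)
      (mul_mem (mul_mem (mul_mem (star_mem hx) (hpM i)) hx) (hpM i))]
    congr 1
    simp only [mul_assoc, (hp i).isIdempotentElem.eq]
  rw [← hS]
  have h1 := re_inner_le_norm (𝕜 := ℂ) (h.V x) (h.V S)
  rw [← e, inner_self_eq_norm_sq] at h1
  rcases (norm_nonneg (h.V S)).eq_or_lt with hz | hz
  · rw [← hz]; exact norm_nonneg _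
  · nlinarith

/-- Pinchings decrease `Phi`. -/
theorem Phi_pinching_le {r : ℕ} {p : Fin r → (H →L[ℂ] H)} (hpM : ∀ i, p i ∈ M)
    (hp : ∀ i, IsStarProjection (p i)) (ho : ∀ i j, i ≠ j → p i * p j = 0) (hs : ∑ i, p i = 1)
    {x : H →L[ℂ] H} (hx : x ∈ M) (hxs : IsSelfAdjoint x) (t : ℝ) :
    Phi h t (pinching p x) ≤ Phi h t x := by
  have hmem : ∀ {z}, z ∈ M → pinching p z ∈ M := fun hz =>
    sum_mem fun i _ => mul_mem (mul_mem (hpM i) hz) (hpM i)
  have hsa : IsSelfAdjoint (pinching p x) := by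
    rw [IsSelfAdjoint, pinching, star_sum]
    simp only [star_mul, (hp _).isSelfAdjoint.star_eq, hxs.star_eq, mul_assoc]
  refine (Phi_le_of_le h (hmem hx) hsa (hmem (posAbove_mem hx t)) t ?_).trans
    (norm_V_pinching_le h hpM hp ho (posAbove_mem hx t))
  have e : pinching p x - algebraMap ℝ (H →L[ℂ] H) t
      = pinching p (x - algebraMap ℝ (H →L[ℂ] H) t) := by
    simp only [pinching, mul_sub, sub_mul, Finset.sum_sub_distrib, Algebra.algebraMap_eq_smul_one,
      mul_smul_comm, smul_mul_assoc, mul_one, (hp _).isIdempotentElem.eq, ← Finset.smul_sum, hs]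
  rw [e]
  refine Finset.sum_le_sum fun i _ => ?_
  simpa [(hp i).isSelfAdjoint.star_eq] using
    star_left_conjugate_le_conjugate (sub_le_posAbove hxs t) (p i)

/-- Small two-norm gives strong smallness on bounded sets. -/
theorem strong_small (F : Finset H) {δ : ℝ} (hδ : 0 < δ) :
    ∃ γ : ℝ, 0 < γ ∧ ∀ x ∈ M, ‖x‖ ≤ 1 → ‖h.V x‖ ≤ γ → ∀ ξ ∈ F, ‖x ξ‖ < δ := by
  classical
  obtain ⟨U, hU⟩ : ∃ U : Submodule ℂ H, U = (⨆ z : M.commutant, ⨆ i : ι,
    ℂ ∙ (z.1 (η i))).topologicalClosure := ⟨_, rfl⟩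
  have : CompleteSpace U := hU ▸ (Submodule.isClosed_topologicalClosure _).completeSpace_coe
  have hPM : U.starProjection ∈ M := by
    refine proj_mem_vn _ fun w hw v hv => ?_
    rw [hU] at hv ⊢
    refine map_mem_closure w.continuous hv fun u hu => ?_
    refine Submodule.iSup_induction _ (motive := fun u => w u ∈ (⨆ z : M.commutant, ⨆ i : ι,
      ℂ ∙ (z.1 (η i)))) hu ?_ (by simp) (fun a b ha hb => by rw [map_add]; exact add_mem ha hb)
    intro z u hu
    refine Submodule.iSup_induction _ (motive := fun u => w u ∈ (⨆ z : M.commutant, ⨆ i : ι,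
      ℂ ∙ (z.1 (η i)))) hu ?_ (by simp) (fun a b ha hb => by rw [map_add]; exact add_mem ha hb)
    intro i u hu
    obtain ⟨c, rfl⟩ := Submodule.mem_span_singleton.1 hu
    rw [map_smul]
    refine Submodule.smul_mem _ _ ?_
    refine Submodule.mem_iSup_of_mem ⟨w * z.1, mul_mem hw z.2⟩ (Submodule.mem_iSup_of_mem i ?_)
    exact Submodule.mem_span_singleton_self _
  have hmem : ∀ z ∈ M.commutant, ∀ i, z (η i) ∈ U := fun z hz i => hU ▸
    Submodule.le_topologicalClosure _ (Submodule.mem_iSup_of_mem (⟨z, hz⟩ : M.commutant)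
      (Submodule.mem_iSup_of_mem i (Submodule.mem_span_singleton_self _)))
  have hP1 : (1 : H →L[ℂ] H) - U.starProjection = 0 := h.faithful _ (sub_mem (one_mem M) hPM)
    fun i => by
      rw [sub_apply, one_apply_eq_self,
        Submodule.starProjection_eq_self_iff.2 (by simpa using hmem 1 (one_mem _) i), sub_self]
  have happ : ∀ ξ : H, ∃ γ : ℝ, 0 < γ ∧ ∀ x ∈ M, ‖x‖ ≤ 1 → ‖h.V x‖ ≤ γ → ‖x ξ‖ < δ := by
    intro ξ
    have hξ : ξ ∈ U := by
      have := congrArg (fun T : H →L[ℂ] H => T ξ) hP1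
      simp only [sub_apply, one_apply_eq_self, zero_apply, sub_eq_zero] at this
      rw [this]; exact Submodule.starProjection_apply_mem _ _
    rw [hU] at hξ
    obtain ⟨v, hv, hd⟩ := Metric.mem_closure_iff.1 hξ (δ / 2) (half_pos hδ)
    rw [dist_eq_norm] at hd
    have hv' : ∃ C : ℝ, 0 ≤ C ∧ ∀ x ∈ M, ‖x v‖ ≤ C * ‖h.V x‖ := by
      refine Submodule.iSup_induction _ (motive := fun v => ∃ C : ℝ, 0 ≤ C ∧ ∀ x ∈ M,
        ‖x v‖ ≤ C * ‖h.V x‖) hv ?_ ⟨0, le_rfl, by simp⟩ ?_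
      · intro z v hv
        refine Submodule.iSup_induction _ (motive := fun v => ∃ C : ℝ, 0 ≤ C ∧ ∀ x ∈ M,
          ‖x v‖ ≤ C * ‖h.V x‖) hv ?_ ⟨0, le_rfl, by simp⟩ ?_
        · intro i v hv
          obtain ⟨c, rfl⟩ := Submodule.mem_span_singleton.1 hv
          refine ⟨‖c‖ * ‖z.1‖, by positivity, fun x hx => ?_⟩
          have e : x (z.1 (η i)) = z.1 (x (η i)) := by
            have := congrArg (fun T : H →L[ℂ] H => T (η i)) ((mem_vn_iff.1 hx) z.1 z.2)
            simpa using this.symm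
          rw [map_smul, norm_smul, e, mul_assoc]
          refine mul_le_mul_of_nonneg_left (le_trans (z.1.le_opNorm _)
            (mul_le_mul_of_nonneg_left ?_ (norm_nonneg _))) (norm_nonneg _)
          rw [← V_apply h]
          exact lp.norm_apply_le_norm (by norm_num) _ _
        · rintro a b ⟨C, hC, ha⟩ ⟨D, hD, hb⟩
          exact ⟨C + D, by positivity, fun x hx => by
            rw [map_add, add_mul]; exact (norm_add_le _ _).trans (add_le_add (ha x hx) (hb x hx))⟩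
      · rintro a b ⟨C, hC, ha⟩ ⟨D, hD, hb⟩
        exact ⟨C + D, by positivity, fun x hx => by
          rw [map_add, add_mul]; exact (norm_add_le _ _).trans (add_le_add (ha x hx) (hb x hx))⟩
    obtain ⟨C, hC, hCx⟩ := hv'
    refine ⟨δ / (2 * (C + 1)), by positivity, fun x hx hx1 hxV => ?_⟩
    have h1 : ‖x (ξ - v)‖ < δ / 2 := lt_of_le_of_lt
      ((x.le_opNorm _).trans (mul_le_of_le_one_left (norm_nonneg _) hx1)) hd
    have h2 : ‖x v‖ ≤ δ / 2 := by
      refine (hCx x hx).trans ?_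
      refine (mul_le_mul_of_nonneg_left hxV hC).trans ?_
      rw [mul_div_assoc', div_le_div_iff₀ (by positivity) two_pos]
      nlinarith
    calc ‖x ξ‖ = ‖x (ξ - v) + x v‖ := by rw [← map_add, sub_add_cancel]
      _ ≤ ‖x (ξ - v)‖ + ‖x v‖ := norm_add_le _ _
      _ < δ := by linarith
  choose γ hγ hsmall using happ
  rcases F.eq_empty_or_nonempty with rfl | hF
  · exact ⟨1, one_pos, by simp⟩
  refine ⟨F.inf' hF γ, (Finset.lt_inf'_iff hF).2 fun ξ _ => hγ ξ, fun x hx hx1 hxV ξ hξ => ?_⟩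
  exact hsmall ξ x hx hx1 (hxV.trans (Finset.inf'_le _ hξ))

/-- The trace is a normal functional centralised by any subalgebra of `M`. -/
theorem tau_normalCentral {A : StarSubalgebra ℂ (H →L[ℂ] H)} (hle : ∀ a ∈ A, a ∈ M) :
    IsNormalCentral M A (tau h) := by
  classical
  refine ⟨fun x _ y _ => ?_, fun c x _ => ?_, fun x hx => ?_, fun a ha x hx => ?_, fun t ht => ?_⟩
  · simp [tau]
  · simp [tau]
  · rw [tau_star_mul, inner_self_eq_norm_sq_to_K]
    norm_cast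
    positivity
  · exact tau_comm h (hle a ha) hx
  · obtain ⟨s, hs⟩ : ∃ s : Finset ι, ∀ u : Finset ι, Disjoint u s →
        ∑ i ∈ u, ‖η i‖ ^ 2 < (t / 2) ^ 2 := by
      obtain ⟨s, hs⟩ := h.summable.vanishing (Metric.ball_mem_nhds 0 (by positivity : (0:ℝ) < (t/2) ^ 2))
      refine ⟨s, fun u hu => ?_⟩
      have := hs u hu
      rw [Metric.mem_ball, dist_zero_right, Real.norm_eq_abs] at this
      exact lt_of_le_of_lt (le_abs_self _) this
    obtain ⟨d, hd⟩ : ∃ d : ℝ, d = t / (2 * (s.card + 1)) := ⟨_, rfl⟩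
    refine ⟨s.image η, d, hd ▸ by positivity, fun x hx hx1 hsm => ?_⟩
    have hnorm : ‖tau h x‖ ≤ ‖h.V x‖ := by
      refine (norm_inner_le_norm _ _).trans ?_
      rw [norm_V_one, one_mul]
    refine lt_of_le_of_lt hnorm ?_
    have h2 : ‖h.V x‖ ^ 2 < t ^ 2 := by
      rw [norm_V_sq]
      refine lt_of_le_of_lt (Real.tsum_le_of_sum_le (c := s.card * d ^ 2 + (t / 2) ^ 2)
        (fun i => sq_nonneg _) fun u => ?_) ?_
      · have hu := Finset.sum_sdiff (f := fun i => ‖x (η i)‖ ^ 2)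
          (Finset.inter_subset_left (s₁ := u) (s₂ := s))
        rw [← hu, add_comm]
        refine add_le_add ?_ ?_
        · refine le_trans (Finset.sum_le_card_nsmul _ _ (d ^ 2) fun i hi => ?_) ?_
          · exact pow_le_pow_left₀ (norm_nonneg _)
              (hsm _ (Finset.mem_image_of_mem η (Finset.mem_inter.1 hi).2)).le 2
          · rw [nsmul_eq_mul]
            exact mul_le_mul_of_nonneg_right
              (Nat.cast_le.2 (Finset.card_le_card Finset.inter_subset_right)) (sq_nonneg _)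
        · refine le_trans (Finset.sum_le_sum fun i _ => ?_) (hs _ ?_).le
          · exact pow_le_pow_left₀ (norm_nonneg _)
              ((x.le_opNorm _).trans (mul_le_of_le_one_left (norm_nonneg _) hx1)) 2
          · simp only [Finset.disjoint_left, Finset.mem_sdiff, Finset.mem_inter]
            tauto
      · have hd0 : 0 ≤ d := hd ▸ by positivity
        have hsd : (s.card : ℝ) * d ≤ t / 2 := by
          rw [hd, mul_div_assoc', div_le_div_iff₀ (by positivity) two_pos]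
          nlinarith
        have hdt : d ≤ t / 2 := by
          rw [hd]; gcongr; linarith [(Nat.cast_nonneg s.card : (0:ℝ) ≤ s.card)]
        nlinarith
    nlinarith [norm_nonneg (h.V x)]

end Vale.Agent.P078.Cartan
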