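import Mathlib

/-!
Rational functions with real coefficients, real poles and imaginary part bounded above on the
upper half plane: they are decreasing and convex to the right of their poles.
-/

namespace Vale.Agent.P078.Cartan

open Polynomial Filter Topology
open scoped ComplexConjugate

/-- A polynomial with real coefficients. -/
def RealPoly (p : ℂ[X]) : Prop := p.map (starRingEnd ℂ) = p

theorem RealPoly.eval_conj {p : ℂ[X]} (hp : RealPoly p) (z : ℂ) :
    p.eval (conj z) = conj (p.eval z) := by
  conv_lhs => rw [← hp]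
  exact eval_map_apply _ _

theorem RealPoly.eval_im {p : ℂ[X]} (hp : RealPoly p) (t : ℝ) : (p.eval (t : ℂ)).im = 0 := by
  have h := hp.eval_conj (t : ℂ)
  rw [Complex.conj_ofReal] at h
  exact Complex.conj_eq_iff_im.1 h.symm

theorem RealPoly.eval_eq_re {p : ℂ[X]} (hp : RealPoly p) (t : ℝ) :
    p.eval (t : ℂ) = ((p.eval (t : ℂ)).re : ℂ) :=
  Complex.ext rfl (by simp [hp.eval_im t])

theorem RealPoly.coeff_im {p : ℂ[X]} (hp : RealPoly p) (k : ℕ) : (p.coeff k).im = 0 := by
  have h := congrArg (fun q : ℂ[X] => q.coeff k) hp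
  simp only [coeff_map] at h
  exact Complex.conj_eq_iff_im.1 h

theorem realPoly_of_eval_im {p : ℂ[X]} (h : ∀ t : ℝ, (p.eval (t : ℂ)).im = 0) : RealPoly p := by
  refine Polynomial.eq_of_infinite_eval_eq _ _ (Set.Infinite.mono ?_
    (Set.infinite_range_of_injective Complex.ofReal_injective))
  rintro _ ⟨t, rfl⟩
  have h' : (p.map (starRingEnd ℂ)).eval (conj (t : ℂ)) = conj (p.eval (t : ℂ)) :=
    eval_map_apply _ _
  rw [Complex.conj_ofReal] at h'
  rw [Set.mem_ofPred_eq, h', Complex.conj_eq_iff_im.2 (h t)]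

/-- The monic polynomial with the given real roots. -/
noncomputable def den (L : Multiset ℝ) : ℂ[X] := (L.map fun a : ℝ => X - C (a : ℂ)).prod

theorem den_cons (a : ℝ) (L : Multiset ℝ) : den (a ::ₘ L) = (X - C (a : ℂ)) * den L := by
  simp [den]

theorem den_eval_ne_zero {L : Multiset ℝ} {z : ℂ} (h : ∀ a ∈ L, z ≠ (a : ℂ)) :
    (den L).eval z ≠ 0 := by
  induction L using Multiset.induction with
  | empty => simp [den]
  | cons a L ih =>
    rw [den_cons, eval_mul]
    exact mul_ne_zero (by simpa [sub_eq_zero] using h a (Multiset.mem_cons_self a L))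
      (ih fun b hb => h b (Multiset.mem_cons_of_mem hb))

theorem den_real (L : Multiset ℝ) : RealPoly (den L) := by
  induction L using Multiset.induction with
  | empty => simp [den, RealPoly]
  | cons a L ih =>
    rw [RealPoly] at ih ⊢
    rw [den_cons, Polynomial.map_mul, ih]
    simp

/-- Decreasing and convex on `S`, in tangent line form. -/
def Good (R : ℝ → ℝ) (S : Set ℝ) : Prop :=
  ∀ t ∈ S, ∃ d ≤ (0 : ℝ), HasDerivAt R d t ∧ ∀ s ∈ S, R t + d * (s - t) ≤ R s

theorem Good.antitone {R : ℝ → ℝ} {S : Set ℝ} (h : Good R S) {s t : ℝ} (hs : s ∈ S)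
    (ht : t ∈ S) (hst : s ≤ t) : R t ≤ R s := by
  obtain ⟨d, hd, -, htan⟩ := h t ht
  nlinarith [htan s hs]

theorem Good.mono {R : ℝ → ℝ} {S S' : Set ℝ} (h : Good R S) (hS : S' ⊆ S) : Good R S' :=
  fun t ht => by
    obtain ⟨d, hd, hder, htan⟩ := h t (hS ht)
    exact ⟨d, hd, hder, fun s hs => htan s (hS hs)⟩

theorem Good.congr {R R' : ℝ → ℝ} {S : Set ℝ} (hS : IsOpen S) (h : Good R S)
    (heq : ∀ t ∈ S, R' t = R t) : Good R' S := fun t ht => by
  obtain ⟨d, hd, hder, htan⟩ := h t ht
  refine ⟨d, hd, hder.congr_of_eventuallyEq ?_, fun s hs => ?_⟩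
  · filter_upwards [hS.mem_nhds ht] with s hs using heq s hs
  · rw [heq t ht, heq s hs]; exact htan s hs

theorem Good.add {R R' : ℝ → ℝ} {S : Set ℝ} (h : Good R S) (h' : Good R' S) :
    Good (fun t => R t + R' t) S := fun t ht => by
  obtain ⟨d, hd, hder, htan⟩ := h t ht
  obtain ⟨d', hd', hder', htan'⟩ := h' t ht
  exact ⟨d + d', add_nonpos hd hd', hder.add hder', fun s hs => by
    linarith [htan s hs, htan' s hs]⟩

theorem good_pole {c a : ℝ} (hc : 0 ≤ c) {S : Set ℝ} (hS : ∀ t ∈ S, a < t) :
    Good (fun t => c / (t - a)) S := fun t ht => by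
  have ht' : 0 < t - a := sub_pos.2 (hS t ht)
  refine ⟨-c / (t - a) ^ 2, by
    rw [neg_div]
    exact neg_nonpos.2 (div_nonneg hc (sq_nonneg _)), ?_, fun s hs => ?_⟩
  · simpa using (hasDerivAt_const t c).fun_div ((hasDerivAt_id t).sub_const a) ht'.ne'
  · have hs' : 0 < s - a := sub_pos.2 (hS s hs)
    have e : c / (s - a) - (c / (t - a) + -c / (t - a) ^ 2 * (s - t))
        = c * (s - t) ^ 2 / ((t - a) ^ 2 * (s - a)) := by
      field_simp
      ring
    have : 0 ≤ c * (s - t) ^ 2 / ((t - a) ^ 2 * (s - a)) := by positivity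
    show c / (t - a) + -c / (t - a) ^ 2 * (s - t) ≤ c / (s - a)
    linarith

theorem good_affine {b a : ℝ} (hb : b ≤ 0) (S : Set ℝ) : Good (fun t => b * t + a) S :=
  fun t _ => ⟨b, hb, by simpa using ((hasDerivAt_id t).const_mul b).add_const a,
    fun s _ => le_of_eq (by ring)⟩

/-- The behaviour at a point where a function with the imaginary part bounded above has a
pole. -/
theorem pole_sign {g : ℂ → ℂ} (hg : ContinuousAt g 0) {c : ℝ} (hgc : g 0 = c) {m : ℕ}
    (hm : 0 < m) {M : ℝ}
    (h : ∀ w : ℂ, 0 < w.im → ∀ᶠ e : ℝ in 𝓝[>] (0 : ℝ),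
      (g ((e : ℂ) * w) / ((e : ℂ) * w) ^ m).im ≤ M) :
    0 ≤ c ∧ (c ≠ 0 → m = 1) := by
  have key : ∀ w : ℂ, 0 < w.im → c * ((w ^ m)⁻¹).im ≤ 0 := by
    intro w hw
    have h1 : Tendsto (fun e : ℝ => (g ((e : ℂ) * w) / w ^ m).im) (𝓝[>] (0 : ℝ))
        (𝓝 (((c : ℂ) / w ^ m).im)) := by
      have ha : Tendsto (fun e : ℝ => (e : ℂ) * w) (𝓝 (0 : ℝ)) (𝓝 0) := by
        have : Continuous fun e : ℝ => (e : ℂ) * w := by fun_prop
        simpa using this.tendsto 0
      have hb := (hgc ▸ hg.tendsto).comp ha
      exact ((Complex.continuous_im.tendsto _).comp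
        ((hb.div_const (w ^ m)))).mono_left nhdsWithin_le_nhds
    have h2 : Tendsto (fun e : ℝ => e ^ m * M) (𝓝[>] (0 : ℝ)) (𝓝 0) := by
      have : Continuous fun e : ℝ => e ^ m * M := by fun_prop
      simpa [zero_pow hm.ne'] using (this.tendsto 0).mono_left nhdsWithin_le_nhds
    have h3 := le_of_tendsto_of_tendsto h1 h2 (by
      filter_upwards [h w hw, self_mem_nhdsWithin] with e he hpos
      have hpos' : (0 : ℝ) < e ^ m := pow_pos hpos m
      have : g ((e : ℂ) * w) / w ^ m
          = ((e ^ m : ℝ) : ℂ) * (g ((e : ℂ) * w) / ((e : ℂ) * w) ^ m) := by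
        have : ((e : ℂ)) ^ m ≠ 0 := pow_ne_zero m (Complex.ofReal_ne_zero.2 hpos.ne')
        rw [mul_pow, Complex.ofReal_pow]
        field_simp
      rw [this, Complex.im_ofReal_mul]
      exact mul_le_mul_of_nonneg_left he hpos'.le)
    rw [div_eq_mul_inv, Complex.im_ofReal_mul] at h3
    exact h3
  have hexp : ∀ θ : ℝ, 0 < θ → θ < Real.pi →
      0 ≤ c * Real.sin ((m : ℝ) * θ) := by
    intro θ h0 h1
    have hw : 0 < (Complex.exp ((θ : ℂ) * Complex.I)).im := by
      rw [Complex.exp_ofReal_mul_I_im]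
      exact Real.sin_pos_of_pos_of_lt_pi h0 h1
    have hh := key _ hw
    rw [← Complex.exp_nat_mul, ← Complex.exp_neg,
      show -((m : ℂ) * ((θ : ℂ) * Complex.I)) = ((-((m : ℝ) * θ) : ℝ) : ℂ) * Complex.I by
        push_cast; ring,
      Complex.exp_ofReal_mul_I_im, Real.sin_neg] at hh
    linarith
  have hmR : (0 : ℝ) < m := Nat.cast_pos.2 hm
  have hc : 0 ≤ c := by
    have hh := hexp (Real.pi / (2 * m)) (by positivity) (by
      rw [div_lt_iff₀ (by positivity)]
      have : (1 : ℝ) ≤ m := by exact_mod_cast hm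
      nlinarith [Real.pi_pos])
    rw [show (m : ℝ) * (Real.pi / (2 * m)) = Real.pi / 2 by field_simp, Real.sin_pi_div_two]
      at hh
    linarith
  refine ⟨hc, fun hc0 => ?_⟩
  by_contra hm1
  have hm2 : (2 : ℝ) ≤ m := by exact_mod_cast (show 2 ≤ m by omega)
  have hh := hexp (3 * Real.pi / (2 * m)) (by positivity) (by
    rw [div_lt_iff₀ (by positivity)]
    nlinarith [Real.pi_pos])
  rw [show (m : ℝ) * (3 * Real.pi / (2 * m)) = Real.pi / 2 + Real.pi by field_simp; ring,
    Real.sin_add_pi, Real.sin_pi_div_two] at hh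
  exact hc0 (by linarith)

/-- Imaginary part of `q / den L` bounded above on the upper half plane. -/
def PickLike (L : Multiset ℝ) (q : ℂ[X]) : Prop :=
  ∃ M : ℝ, ∀ z : ℂ, 0 < z.im → (q.eval z / (den L).eval z).im ≤ M

theorem pick_poly {q : ℂ[X]} (hq : RealPoly q) (h : PickLike 0 q) :
    q.natDegree ≤ 1 ∧ (q.coeff 1).re ≤ 0 := by
  obtain ⟨M, hM⟩ := h
  have hM' : ∀ z : ℂ, z.im < 0 → (-q.eval z).im ≤ M := by
    intro z hz
    have := hM (conj z) (by simpa using hz)
    simpa [den, hq.eval_conj] using this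
  rcases Nat.eq_zero_or_pos q.natDegree with h0 | hpos
  · exact ⟨by omega, by rw [coeff_eq_zero_of_natDegree_lt (by omega)]; simp⟩
  set m := q.natDegree with hm
  set g : ℂ → ℂ := fun u => -∑ k ∈ Finset.range (m + 1), q.coeff k * u ^ (m - k) with hgdef
  have hg0 : g 0 = ((-(q.coeff m).re : ℝ) : ℂ) := by
    simp only [hgdef]
    rw [Finset.sum_eq_single_of_mem m (by simp) (fun k hk hkm => ?_)]
    · apply Complex.ext <;> simp [hq.coeff_im m]
    · have : k < m := by
        have := Finset.mem_range.1 hk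
        omega
      rw [zero_pow (by omega), mul_zero]
  have hgc : ContinuousAt g 0 := by
    simp only [hgdef]
    fun_prop
  have hs := pole_sign hgc hg0 hpos (M := M) (fun w hw => by
    filter_upwards [self_mem_nhdsWithin] with e (he : 0 < e)
    set u : ℂ := (e : ℂ) * w with hu
    have huim : 0 < u.im := by simp [hu]; positivity
    have hu0 : u ≠ 0 := fun h => by simp [h] at huim
    have hrev : g u / u ^ m = -q.eval u⁻¹ := by
      simp only [hgdef]
      rw [eval_eq_sum_range, ← hm, neg_div, Finset.sum_div]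
      congr 1
      refine Finset.sum_congr rfl fun k hk => ?_
      have hk' : k ≤ m := by
        have := Finset.mem_range.1 hk
        omega
      have : u ^ m = u ^ (m - k) * u ^ k := by rw [← pow_add]; congr 1; omega
      rw [this, inv_pow]
      field_simp
    rw [hrev]
    refine hM' _ ?_
    rw [Complex.inv_im]
    exact div_neg_of_neg_of_pos (by linarith) (Complex.normSq_pos.2 hu0))
  have hlead : q.coeff m ≠ 0 := by
    rw [hm, coeff_natDegree, Ne, leadingCoeff_eq_zero]
    rintro rfl
    simp [hm] at hpos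
  have hre : (q.coeff m).re ≠ 0 := fun h =>
    hlead (Complex.ext (by simpa using h) (by simpa using hq.coeff_im m))
  have h1 : m = 1 := hs.2 (neg_ne_zero.2 hre)
  refine ⟨h1.le, ?_⟩
  rw [← h1]
  linarith [hs.1]

/-- Partial fractions with nonnegative residues. -/
inductive Decomp : Multiset ℝ → ℂ[X] → Prop
  | base {q : ℂ[X]} : RealPoly q → q.natDegree ≤ 1 → (q.coeff 1).re ≤ 0 → Decomp 0 q
  | pole {L : Multiset ℝ} {q₁ : ℂ[X]} {a c : ℝ} : 0 ≤ c → Decomp L q₁ →
      Decomp (a ::ₘ L) ((X - C (a : ℂ)) * q₁ + C (c : ℂ) * den L)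

theorem pickLike_decomp : ∀ (L : Multiset ℝ) (q : ℂ[X]), RealPoly q → PickLike L q →
    Decomp L q := by
  intro L
  induction L using Multiset.induction with
  | empty =>
    intro q hq h
    obtain ⟨hdeg, hlead⟩ := pick_poly hq h
    exact .base hq hdeg hlead
  | cons a L ih =>
    intro q hq h
    have hnez : ∀ z : ℂ, 0 < z.im → z - a ≠ 0 ∧ (den L).eval z ≠ 0 := fun z hz =>
      ⟨sub_ne_zero.2 fun e => by simp [e] at hz,
        den_eval_ne_zero fun b _ e => by simp [e] at hz⟩
    obtain ⟨M, hM⟩ := h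
    have hXa : RealPoly (X - C (a : ℂ)) := by simp [RealPoly]
    by_cases hqa : q.eval (a : ℂ) = 0
    · set q₁ := q /ₘ (X - C (a : ℂ))
      have hq₁ : (X - C (a : ℂ)) * q₁ = q := mul_divByMonic_eq_iff_isRoot.2 hqa
      have hq₁r : RealPoly q₁ := by
        refine mul_left_cancel₀ (X_sub_C_ne_zero (a : ℂ)) ?_
        rw [hq₁]
        conv_rhs => rw [← hq, ← hq₁, Polynomial.map_mul, hXa]
      have heval : ∀ z : ℂ, z - a ≠ 0 →
          q.eval z / (den (a ::ₘ L)).eval z = q₁.eval z / (den L).eval z := by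
        intro z hz
        rw [← hq₁, den_cons, eval_mul, eval_mul]
        simp only [eval_sub, eval_X, eval_C]
        exact mul_div_mul_left _ _ hz
      have := ih q₁ hq₁r ⟨M, fun z hz => by
        rw [← heval z (hnez z hz).1]; exact hM z hz⟩
      have h0 := Decomp.pole (a := a) le_rfl this
      rwa [Complex.ofReal_zero, map_zero, zero_mul, add_zero, hq₁] at h0
    · -- a genuine pole at `a`
      set L₂ := L.filter fun b => b ≠ a
      have hL₂ : ∀ b ∈ L₂, (a : ℂ) ≠ (b : ℂ) := fun b hb e =>
        (Multiset.mem_filter.1 hb).2 (Complex.ofReal_injective e).symm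
      have hden : den (a ::ₘ L) = (X - C (a : ℂ)) ^ (L.count a + 1) * den L₂ := by
        have hL : L = Multiset.replicate (L.count a) a + L₂ := by
          rw [← Multiset.filter_eq' L a]
          exact (Multiset.filter_add_not _ L).symm
        conv_lhs => rw [den_cons, hL]
        simp only [den, Multiset.map_add, Multiset.prod_add, Multiset.map_replicate,
          Multiset.prod_replicate, pow_succ]
        ring
      set g : ℂ → ℂ := fun u => q.eval ((a : ℂ) + u) / (den L₂).eval ((a : ℂ) + u)
      have hd₂ : (den L₂).eval (a : ℂ) ≠ 0 := den_eval_ne_zero hL₂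
      have hgc : ContinuousAt g 0 := by
        refine ContinuousAt.div ?_ ?_ (by simpa using hd₂) <;> fun_prop
      set c : ℝ := (q.eval (a : ℂ)).re / ((den L₂).eval (a : ℂ)).re with hcdef
      have hg0 : g 0 = (c : ℂ) := by
        simp only [g, add_zero, hcdef, Complex.ofReal_div]
        rw [← hq.eval_eq_re a, ← (den_real L₂).eval_eq_re a]
      have hs := pole_sign hgc hg0 (Nat.succ_pos (L.count a)) (M := M) (fun w hw => by
        filter_upwards [self_mem_nhdsWithin] with e (he : 0 < e)
        have := hM ((a : ℂ) + (e : ℂ) * w) (by simp; positivity)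
        rw [hden, eval_mul, eval_pow] at this
        simp only [eval_sub, eval_X, eval_C, add_sub_cancel_left] at this
        rw [show g ((e : ℂ) * w) / ((e : ℂ) * w) ^ (L.count a + 1)
          = q.eval ((a : ℂ) + (e : ℂ) * w) / (((e : ℂ) * w) ^ (L.count a + 1)
            * (den L₂).eval ((a : ℂ) + (e : ℂ) * w)) by
          simp only [g]; rw [div_div, mul_comm ((den L₂).eval _)]]
        exact this)
      have hcne : c ≠ 0 := by
        intro hc0
        apply hqa
        have : g 0 = 0 := by rw [hg0, hc0, Complex.ofReal_zero]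
        simpa [g, hd₂] using this
      have hcount : L.count a = 0 := by
        have := hs.2 hcne
        omega
      have haL : a ∉ L := Multiset.count_eq_zero.1 hcount
      have hLL : L₂ = L := Multiset.filter_eq_self.2 fun b hb e => haL (e ▸ hb)
      rw [hLL] at hd₂
      -- subtract the pole
      set q₂ := q - C (c : ℂ) * den L with hq₂
      have hroot : q₂.IsRoot (a : ℂ) := by
        simp only [IsRoot, hq₂, eval_sub, eval_mul, eval_C]
        rw [← hg0]
        simp only [g, hLL, add_zero, div_mul_cancel₀ _ hd₂, sub_self]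
      set q₁ := q₂ /ₘ (X - C (a : ℂ))
      have hq₁ : (X - C (a : ℂ)) * q₁ = q₂ := mul_divByMonic_eq_iff_isRoot.2 hroot
      have hq₂r : RealPoly q₂ := by
        simp only [hq₂, RealPoly, Polynomial.map_sub, Polynomial.map_mul,
          map_C, Complex.conj_ofReal]
        rw [show (den L).map (starRingEnd ℂ) = den L from den_real L,
          show q.map (starRingEnd ℂ) = q from hq]
      have hq₁r : RealPoly q₁ := by
        refine mul_left_cancel₀ (X_sub_C_ne_zero (a : ℂ)) ?_
        rw [hq₁]
        conv_rhs => rw [← hq₂r, ← hq₁, Polynomial.map_mul, hXa]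
      have heval : ∀ z : ℂ, z - a ≠ 0 → (den L).eval z ≠ 0 →
          q.eval z / (den (a ::ₘ L)).eval z
            = (c : ℂ) / (z - a) + q₁.eval z / (den L).eval z := by
        intro z hz hz'
        have e := congrArg (fun p : ℂ[X] => p.eval z) hq₁
        simp only [hq₂, eval_mul, eval_sub, eval_X, eval_C] at e
        rw [den_cons, eval_mul, eval_sub, eval_X, eval_C]
        field_simp
        linear_combination -e
      have hcont : ContinuousAt (fun z : ℂ => (q₁.eval z / (den L).eval z).im) (a : ℂ) :=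
        Complex.continuous_im.continuousAt.comp
          (ContinuousAt.div (by fun_prop) (by fun_prop) hd₂)
      obtain ⟨ρ, hρ, hbd⟩ := Metric.continuousAt_iff.1 hcont 1 one_pos
      have hgood := ih q₁ hq₁r
        ⟨max (M + c / ρ) ((q₁.eval (a : ℂ) / (den L).eval (a : ℂ)).im + 1), fun z hz => by
        rcases lt_or_ge (dist z (a : ℂ)) ρ with hlt | hge
        · have := abs_lt.1 (hbd hlt)
          exact le_max_of_le_right (by linarith)
        · refine le_max_of_le_left ?_
          have h1 := hM z hz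
          rw [heval z (hnez z hz).1 (hnez z hz).2, Complex.add_im, Complex.div_im,
            Complex.ofReal_im, Complex.ofReal_re] at h1
          have hn : 0 < Complex.normSq (z - a) := Complex.normSq_pos.2 (hnez z hz).1
          have h2 : z.im / Complex.normSq (z - a) ≤ 1 / ρ := by
            rw [div_le_div_iff₀ hn hρ, one_mul, Complex.normSq_eq_norm_sq]
            rw [dist_eq_norm] at hge
            have : z.im ≤ ‖z - a‖ := by
              have := Complex.abs_im_le_norm (z - a)
              simp only [Complex.sub_im, Complex.ofReal_im, sub_zero, abs_of_pos hz] at this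
              exact this
            nlinarith [norm_nonneg (z - (a : ℂ))]
          simp only [zero_mul, zero_div, zero_sub, Complex.sub_im, Complex.ofReal_im,
            sub_zero] at h1
          have h3 := mul_le_mul_of_nonneg_left h2 hs.1
          rw [← mul_div_assoc, mul_one_div] at h3
          linarith⟩
      have h0 := Decomp.pole (a := a) hs.1 hgood
      rwa [hq₁, hq₂, sub_add_cancel] at h0

theorem Decomp.good {L : Multiset ℝ} {q : ℂ[X]} (h : Decomp L q) :
    Good (fun t : ℝ => (q.eval (t : ℂ) / (den L).eval (t : ℂ)).re)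
      {t | ∀ a ∈ L, a < t} := by
  induction h with
  | @base q hq hdeg hlead =>
    have hfun : (fun t : ℝ => (q.eval (t : ℂ) / (den 0).eval (t : ℂ)).re)
        = fun t => (q.coeff 1).re * t + (q.coeff 0).re := by
      funext t
      conv_lhs => rw [eq_X_add_C_of_natDegree_le_one hdeg]
      simp [den]
    rw [hfun]
    exact good_affine hlead _
  | @pole L q₁ a c hc _ ih =>
    have hopen : IsOpen {t : ℝ | ∀ b ∈ a ::ₘ L, b < t} := by
      have : {t : ℝ | ∀ b ∈ a ::ₘ L, b < t} = ⋂ b ∈ (a ::ₘ L).toFinset, Set.Ioi b := by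
        ext t; simp
      rw [this]
      exact isOpen_biInter_finset fun b _ => isOpen_Ioi
    have hsub : {t : ℝ | ∀ b ∈ a ::ₘ L, b < t} ⊆ {t | ∀ b ∈ L, b < t} :=
      fun t ht b hb => ht b (Multiset.mem_cons_of_mem hb)
    refine ((good_pole (a := a) hc (S := {t : ℝ | ∀ b ∈ a ::ₘ L, b < t})
      fun t ht => ht a (Multiset.mem_cons_self _ _)).add (ih.mono hsub)).congr hopen fun t ht => ?_
    have h1 : (t : ℂ) - a ≠ 0 := sub_ne_zero.2 fun e => (ht a (Multiset.mem_cons_self _ _)).ne'
      (Complex.ofReal_injective e)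
    have h2 : (den L).eval (t : ℂ) ≠ 0 := den_eval_ne_zero fun b hb e =>
      (ht b (Multiset.mem_cons_of_mem hb)).ne' (Complex.ofReal_injective e)
    have h3 : ((X - C (a : ℂ)) * q₁ + C (c : ℂ) * den L).eval (t : ℂ) /
        (den (a ::ₘ L)).eval (t : ℂ) = (c : ℂ) / (t - a) + q₁.eval (t : ℂ) / (den L).eval (t : ℂ) := by
      rw [den_cons]
      simp only [eval_add, eval_mul, eval_sub, eval_X, eval_C]
      field_simp
      ring
    rw [h3, Complex.add_re]
    congr 1
    rw [← Complex.ofReal_sub, ← Complex.ofReal_div, Complex.ofReal_re]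

theorem pickLike_good (L : Multiset ℝ) (q : ℂ[X]) (hq : RealPoly q) (h : PickLike L q) :
    Good (fun t : ℝ => (q.eval (t : ℂ) / (den L).eval (t : ℂ)).re) {t | ∀ a ∈ L, a < t} :=
  (pickLike_decomp L q hq h).good

/-- A quotient of real polynomials with the denominator free of zeros in the upper half plane and
imaginary part at most zero there is decreasing and convex right of the zeros of the
denominator. -/
theorem quot_good {p q : ℂ[X]} (hp : RealPoly p) (hq : RealPoly q) {a : ℝ}
    (hup : ∀ z : ℂ, 0 < z.im → p.eval z ≠ 0)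
    (hsgn : ∀ z : ℂ, 0 < z.im → (q.eval z / p.eval z).im ≤ 0)
    (hpos : ∀ t : ℝ, a ≤ t → p.eval (t : ℂ) ≠ 0) :
    Good (fun t : ℝ => (q.eval (t : ℂ) / p.eval (t : ℂ)).re) (Set.Ici a) := by
  have hp0 : p ≠ 0 := by
    rintro rfl
    exact hpos a le_rfl eval_zero
  have hroots : ∀ z ∈ p.roots, z.im = 0 := by
    intro z hz
    have hz' : p.eval z = 0 := isRoot_of_mem_roots hz
    rcases lt_trichotomy z.im 0 with h | h | h
    · exact absurd (by rw [hp.eval_conj, hz', map_zero]) (hup (conj z) (by simpa using h))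
    · exact h
    · exact absurd hz' (hup z h)
  set L : Multiset ℝ := p.roots.map Complex.re
  have hL : p = C p.leadingCoeff * den L := by
    conv_lhs => rw [(IsAlgClosed.splits p).eq_prod_roots]
    simp only [den, L, Multiset.map_map, Function.comp_def]
    congr 2
    refine Multiset.map_congr rfl fun z hz => ?_
    rw [show ((z.re : ℝ) : ℂ) = z from Complex.ext rfl (by simp [hroots z hz])]
  set q' := C p.leadingCoeff⁻¹ * q
  have hlc : p.leadingCoeff.im = 0 := hp.coeff_im _
  have hq' : RealPoly q' := by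
    show q'.map _ = q'
    simp only [q', Polynomial.map_mul, map_C, map_inv₀, Complex.conj_eq_iff_im.2 hlc]
    rw [show q.map (starRingEnd ℂ) = q from hq]
  have heq : ∀ z : ℂ, q'.eval z / (den L).eval z = q.eval z / p.eval z := by
    intro z
    conv_rhs => rw [hL]
    simp only [q', eval_mul, eval_C]
    rw [← div_div, inv_mul_eq_div]
  have := pickLike_good L q' hq' ⟨0, fun z hz => by rw [heq]; exact hsgn z hz⟩
  simp only [heq] at this
  refine this.mono fun t (ht : a ≤ t) b hb => ?_
  obtain ⟨z, hz, rfl⟩ := Multiset.mem_map.1 hb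
  by_contra hle
  push Not at hle
  refine hpos z.re (ht.trans hle) ?_
  rw [show ((z.re : ℝ) : ℂ) = z from Complex.ext rfl (by simp [hroots z hz])]
  exact isRoot_of_mem_roots hz

end Vale.Agent.P078.Cartan
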