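import Vale.Agent.P078.Cartan.Orbit

/-!
The potential and the diagonal value as set functions on an orbit, independent of the base point,
their Moebius coefficients, and the continuity of local sums.
-/

namespace Vale.Agent.P078.Cartan

open Polynomial in
theorem mob_map {X Y : Type*} [DecidableEq X] [DecidableEq Y] (e : Y ↪ X) (φ : Finset X → ℝ)
    (S : Finset Y) : mob φ (S.map e) = mob (fun U => φ (U.map e)) S := by
  unfold mob
  have : (S.map e).powerset = S.powerset.map ⟨fun U => U.map e, Finset.map_injective e⟩ := by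
    ext T
    simp only [Finset.mem_powerset, Finset.mem_map, Function.Embedding.coeFn_mk,
      Finset.subset_map_iff]
    constructor
    · rintro ⟨U, hU, rfl⟩; exact ⟨U, hU, rfl⟩
    · rintro ⟨U, hU, rfl⟩; exact ⟨U, hU, rfl⟩
  rw [this, Finset.sum_map]
  refine Finset.sum_congr rfl fun U _ => ?_
  simp only [Function.Embedding.coeFn_mk, ← Finset.map_sdiff, Finset.card_map]

theorem continuousAt_sum' {X κ : Type*} [TopologicalSpace X] {g : κ → X → ℝ} {x : X} (s : Finset κ)
    (h : ∀ i ∈ s, ContinuousAt (g i) x) : ContinuousAt (fun y => ∑ i ∈ s, g i y) x :=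
  tendsto_finsetSum s h

namespace OrbitModel

open Filter Topology Polynomial
open scoped ComplexOrder

set_option linter.unusedSectionVars false

variable {Ω : Type} [TopologicalSpace Ω] [CompactSpace Ω] [T2Space Ω] [TotallyDisconnectedSpace Ω]
  [DecidableEq Ω]
  {L : ℕ} {α : ℝ} (O : OrbitModel Ω L α)
variable {ι : Type*} [Fintype ι] [DecidableEq ι] {r : ℕ}

/-- The matrix of a family of labels over a base point. -/
noncomputable def lblMat (ω : Ω) (φ : ι → List (Fin L)) : Matrix ι ι ℂ :=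
  Matrix.of fun i j => O.ent (φ i) (φ j) ω

theorem gauge' {φ φ' : ι → List (Fin L)} {ω ω' : Ω}
    (hinj : Function.Injective fun i => O.act (φ i) ω)
    (h : ∀ i, O.act (φ i) ω = O.act (φ' i) ω') :
    ∃ d : ι → ℂ, (∀ i, ‖d i‖ = 1) ∧
      O.lblMat ω' φ' = Matrix.of fun i j => star (d i) * O.lblMat ω φ i j * d j := by
  let e := (Fintype.equivFin ι).symm
  obtain ⟨d, hd, he⟩ := O.gauge _ (φ ∘ e) (φ' ∘ e) ω ω' (hinj.comp e.injective) (fun i => h (e i))
  refine ⟨fun i => d (e.symm i), fun i => hd _, ?_⟩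
  ext i j
  have := he (e.symm i) (e.symm j)
  simpa [lblMat] using this

theorem posSemidef_lblMat {φ : ι → List (Fin L)} {ω : Ω}
    (hinj : Function.Injective fun i => O.act (φ i) ω) :
    (O.lblMat ω φ).PosSemidef ∧ (1 - O.lblMat ω φ).PosSemidef := by
  let e := Fintype.equivFin ι
  obtain ⟨h1, h2⟩ := O.posSemidef _ (φ ∘ e.symm) ω (hinj.comp e.symm.injective)
  have e1 : (Matrix.of fun i j => O.ent ((φ ∘ e.symm) i) ((φ ∘ e.symm) j) ω).submatrix e e =
      O.lblMat ω φ := by
    ext i j; simp [lblMat]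
  refine ⟨e1 ▸ h1.submatrix e, ?_⟩
  have := h2.submatrix e
  rwa [Matrix.submatrix_sub, Pi.sub_apply, Pi.sub_apply, Matrix.submatrix_one_equiv, e1] at this

/-- The matrix of a set of points seen from a base point. -/
noncomputable def baseMat (v : Ω) (S : Finset Ω) : Matrix S S ℂ :=
  O.lblMat v fun a : S => O.name v a

/-- The potential of a set of points for given colour laws. -/
noncomputable def V (w : Ω → Fin r → ℝ) (f : ℝ[X]) (S : Finset Ω) : ℝ :=
  if h : S.Nonempty then potential (O.baseMat h.choose S) (fun a : S => w a) f else 0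

/-- The diagonal value at a point of a set of points for given colours. -/
noncomputable def Ψ (κ : Ω → Fin r) (f : ℝ[X]) (v : Ω) (S : Finset Ω) : ℝ :=
  if h : v ∈ S then diagVal (pinch (O.baseMat v S) fun a : S => κ a) f ⟨v, h⟩ else 0

theorem V_eq (w : Ω → Fin r → ℝ) (f : ℝ[X]) (φ : ι → List (Fin L)) (ω : Ω)
    (hinj : Function.Injective fun i => O.act (φ i) ω) :
    O.V w f (Finset.univ.image fun i => O.act (φ i) ω) =
      potential (O.lblMat ω φ) (fun i => w (O.act (φ i) ω)) f := by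
  set S := Finset.univ.image fun i => O.act (φ i) ω with hS
  unfold V
  split_ifs with hne
  · obtain ⟨i₀, -, hi₀⟩ := Finset.mem_image.1 hne.choose_spec
    let e : ι ≃ S := Equiv.ofBijective
      (fun i => ⟨O.act (φ i) ω, Finset.mem_image_of_mem _ (Finset.mem_univ i)⟩)
      ⟨fun i j hij => hinj (congrArg Subtype.val hij), fun a => by
        obtain ⟨i, -, hi⟩ := Finset.mem_image.1 a.2
        exact ⟨i, Subtype.ext hi⟩⟩
    have hname : ∀ i, O.act (φ i) ω = O.act (O.name hne.choose (e i : Ω)) hne.choose := fun i =>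
      (O.act_name (w := φ i ++ O.rev (φ i₀)) (by rw [act_append, ← hi₀, act_rev])).symm
    obtain ⟨d, hd, he⟩ := O.gauge' (φ' := fun i => O.name hne.choose (e i : Ω)) hinj hname
    refine potential_congr ?_ f
    rw [← echar_reindex (O.baseMat hne.choose S) (fun a : S => w a) e]
    have : (O.baseMat hne.choose S).submatrix e e =
        O.lblMat hne.choose fun i => O.name hne.choose (e i : Ω) := rfl
    rw [this, he, echar_conj _ _ d hd]
    rfl
  · have : IsEmpty ι := ⟨fun i => hne ⟨_, Finset.mem_image_of_mem _ (Finset.mem_univ i)⟩⟩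
    have h0 : roots (O.lblMat ω φ) (fun i => w (O.act (φ i) ω)) = 0 := by
      rw [roots, Multiset.map_eq_zero]
      apply Multiset.card_eq_zero.1
      have := (echar (O.lblMat ω φ) fun i => w (O.act (φ i) ω)).card_roots'
      have h' := echar_natDegree_le (O.lblMat ω φ) fun i => w (O.act (φ i) ω)
      simp only [Fintype.card_eq_zero] at h'
      omega
    simp [potential, h0]

theorem diagVal_reindex {κ' : Type*} [Fintype κ'] [DecidableEq κ'] (P : Matrix ι ι ℂ) (e : κ' ≃ ι)
    {f : ℝ[X]} (hf : f.eval 0 = 0) (a : κ') :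
    diagVal (P.submatrix e e) f a = diagVal P f (e a) := by
  rw [← show P.submatrix e.toEmbedding e.toEmbedding = P.submatrix e e from rfl,
    ← diagVal_mask_image P e.toEmbedding hf a, Finset.map_univ_equiv]
  have hm : mask P Finset.univ = P := by ext i j; simp [mask]
  rw [hm]
  rfl

theorem Ψ_eq (κ : Ω → Fin r) {f : ℝ[X]} (hf : f.eval 0 = 0) (φ : ι → List (Fin L)) (ω : Ω)
    (hinj : Function.Injective fun i => O.act (φ i) ω) (i₀ : ι) :
    O.Ψ κ f (O.act (φ i₀) ω) (Finset.univ.image fun i => O.act (φ i) ω) =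
      diagVal (pinch (O.lblMat ω φ) fun i => κ (O.act (φ i) ω)) f i₀ := by
  set S := Finset.univ.image fun i => O.act (φ i) ω with hS
  set v := O.act (φ i₀) ω with hv
  have hvS : v ∈ S := Finset.mem_image_of_mem _ (Finset.mem_univ i₀)
  unfold Ψ
  rw [dif_pos hvS]
  let e : ι ≃ S := Equiv.ofBijective
    (fun i => ⟨O.act (φ i) ω, Finset.mem_image_of_mem _ (Finset.mem_univ i)⟩)
    ⟨fun i j hij => hinj (congrArg Subtype.val hij), fun a => by
      obtain ⟨i, -, hi⟩ := Finset.mem_image.1 a.2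
      exact ⟨i, Subtype.ext hi⟩⟩
  have hname : ∀ i, O.act (φ i) ω = O.act (O.name v (e i : Ω)) v := fun i =>
    (O.act_name (w := φ i ++ O.rev (φ i₀)) (by rw [act_append, hv, act_rev])).symm
  obtain ⟨d, hd, he⟩ := O.gauge' (φ' := fun i => O.name v (e i : Ω)) hinj hname
  have h1 : (⟨v, hvS⟩ : S) = e i₀ := rfl
  rw [h1, ← diagVal_reindex _ e hf]
  have h2 : (pinch (O.baseMat v S) fun a : S => κ a).submatrix e e =
      Matrix.of fun i j => star (d i) * pinch (O.lblMat ω φ) (fun i => κ (O.act (φ i) ω)) i j * d j := by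
    ext i j
    have := congrFun (congrFun he i) j
    simp only [pinch, Matrix.submatrix_apply, Matrix.of_apply]
    by_cases h : κ (O.act (φ i) ω) = κ (O.act (φ j) ω)
    · rw [if_pos h, if_pos (show κ (e i : Ω) = κ (e j : Ω) from h)]
      exact this
    · rw [if_neg h, if_neg (show κ (e i : Ω) ≠ κ (e j : Ω) from h), mul_zero, zero_mul]
  rw [h2, diagVal_conj _ d hd]

/-- The points of `S` lie on one orbit. -/
def SameOrbit (S : Finset Ω) : Prop := ∀ a ∈ S, ∀ b ∈ S, ∃ w, O.act w a = b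

theorem sameOrbit_of_subset_ball {S : Finset Ω} {ω : Ω} {k : ℕ} (h : S ⊆ O.ball ω k) :
    O.SameOrbit S := by
  intro a ha b hb
  obtain ⟨w, -, rfl⟩ := O.mem_ball.1 (h ha)
  obtain ⟨w', -, rfl⟩ := O.mem_ball.1 (h hb)
  exact ⟨w' ++ O.rev w, by rw [act_append, act_rev]⟩

theorem V_map (w : Ω → Fin r → ℝ) (hw : ∀ v, (∀ c, 0 ≤ w v c) ∧ ∑ c, w v c = 1) {f : ℝ[X]}
    (hf : f.eval 0 = 0) (φ : ι → List (Fin L)) (ω : Ω)
    (hinj : Function.Injective fun i => O.act (φ i) ω) (U : Finset ι) :
    O.V w f (U.map ⟨fun i => O.act (φ i) ω, hinj⟩) =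
      potential (mask (O.lblMat ω φ) U) (fun i => w (O.act (φ i) ω)) f := by
  rw [potential_mask _ (fun i => hw _) U hf]
  have h := O.V_eq w f (fun i : U => φ i) ω (fun a b h => Subtype.ext (hinj h))
  have e : (U.map ⟨fun i => O.act (φ i) ω, hinj⟩) =
      Finset.univ.image fun i : U => O.act (φ i) ω := by
    ext x; simp
  rw [e, h]
  rfl

theorem Ψ_map (κ : Ω → Fin r) {f : ℝ[X]} (hf : f.eval 0 = 0) (φ : ι → List (Fin L)) (ω : Ω)
    (hinj : Function.Injective fun i => O.act (φ i) ω) (i₀ : ι) (U : Finset ι) :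
    O.Ψ κ f (O.act (φ i₀) ω) (U.map ⟨fun i => O.act (φ i) ω, hinj⟩) =
      diagVal (mask (pinch (O.lblMat ω φ) fun i => κ (O.act (φ i) ω)) U) f i₀ := by
  by_cases h : i₀ ∈ U
  · have hΨ := O.Ψ_eq κ hf (fun i : U => φ i) ω (fun a b h => Subtype.ext (hinj h)) ⟨i₀, h⟩
    have e : (U.map ⟨fun i => O.act (φ i) ω, hinj⟩) =
        Finset.univ.image fun i : U => O.act (φ i) ω := by
      ext x; simp
    rw [e, hΨ]
    have hU : (Finset.univ : Finset U).map (Function.Embedding.subtype _) = U := by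
      ext x; simp
    have := diagVal_mask_image (pinch (O.lblMat ω φ) fun i => κ (O.act (φ i) ω))
      (Function.Embedding.subtype fun x => x ∈ U) hf ⟨i₀, h⟩
    rw [hU] at this
    exact this.symm
  · rw [Ψ, dif_neg, diagVal_eq_sum _ hf]
    · symm
      rw [Finset.sum_eq_zero, Complex.zero_re]
      intro k hk
      obtain ⟨j, rfl⟩ : ∃ j, k = j + 1 := ⟨k - 1, by have := (Finset.mem_Icc.1 hk).1; omega⟩
      simp [pow_succ, Matrix.mul_apply, mask, h]
    · simp only [Finset.mem_map, Function.Embedding.coeFn_mk]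
      rintro ⟨i, hi, e⟩
      exact h (hinj e ▸ hi)

theorem exists_labels {S : Finset Ω} (hS : O.SameOrbit S) :
    ∃ (φ : S → List (Fin L)) (ω : Ω), ∀ a : S, O.act (φ a) ω = a := by
  rcases S.eq_empty_or_nonempty with rfl | ⟨v, hv⟩
  · by_cases h : Nonempty Ω
    · exact ⟨fun _ => [], h.some, fun a => absurd a.2 (Finset.notMem_empty _)⟩
    · exfalso
      have h1 : (1 : C(Ω, ℝ)) = 0 := ContinuousMap.ext fun x => absurd ⟨x⟩ h
      have := O.μ_one
      rw [h1, map_zero] at this
      exact zero_ne_one this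
  · exact ⟨fun a => O.name v a, v, fun a => O.act_name (hS v hv a a.2).choose_spec⟩

/-- No two points of `A` and `B` are adjacent. -/
def Gap (A B : Finset Ω) : Prop := ∀ a ∈ A, ∀ b ∈ B, ∀ g, O.T g a ≠ b

theorem Gap.symm {A B : Finset Ω} (h : O.Gap A B) : O.Gap B A := fun b hb a ha g e =>
  h a ha b hb (O.inv g) (by rw [← e, O.T_inv])

theorem lblMat_gap {φ : ι → List (Fin L)} {ω : Ω} {i j : ι}
    (hne : O.act (φ i) ω ≠ O.act (φ j) ω)
    (h : ∀ g, O.T g (O.act (φ i) ω) ≠ O.act (φ j) ω) : O.lblMat ω φ i j = 0 :=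
  O.range_one _ _ ω hne h

/-- The coefficient of the potential vanishes at sets that are too large or have a gap. -/
theorem mob_V_eq_zero {w : Ω → Fin r → ℝ} (hw : ∀ v, (∀ c, 0 ≤ w v c) ∧ ∑ c, w v c = 1)
    {f : ℝ[X]} (hf : f.eval 0 = 0) {S : Finset Ω} (hS : O.SameOrbit S)
    (h : f.natDegree < S.card ∨ ∃ A B : Finset Ω, A ∪ B = S ∧ Disjoint A B ∧ A.Nonempty ∧
      B.Nonempty ∧ O.Gap A B) : mob (O.V w f) S = 0 := by
  obtain ⟨φ, ω, hφ⟩ := O.exists_labels hS
  have hinj : Function.Injective fun a : S => O.act (φ a) ω := fun a b e =>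
    Subtype.ext (by simpa [hφ] using e)
  set emb : S ↪ Ω := ⟨fun a => O.act (φ a) ω, hinj⟩
  have hmap : (Finset.univ : Finset S).map emb = S := by
    ext x; simp [emb, hφ]
  conv_lhs => rw [← hmap]
  rw [mob_map, mob_congr fun U _ => O.V_map w hw hf φ ω hinj U]
  have hG := (O.posSemidef_lblMat hinj).1.1
  rcases h with hc | ⟨A, B, hAB, hd, ⟨a, ha⟩, ⟨b, hb⟩, hgap⟩
  · exact potential_mask_mob_eq_zero hG (fun i => hw _) hf (by simpa using hc)
  · refine mob_eq_zero_of_split (A := Finset.univ.filter fun x : S => (x : Ω) ∈ A)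
      (B := Finset.univ.filter fun x : S => (x : Ω) ∈ B) ?_ ?_
      ⟨⟨a, hAB ▸ Finset.mem_union_left _ ha⟩, by simp [ha]⟩
      ⟨⟨b, hAB ▸ Finset.mem_union_right _ hb⟩, by simp [hb]⟩ ?_
    · ext x
      have hx : (x : Ω) ∈ A ∪ B := by rw [hAB]; exact x.2
      simpa using Finset.mem_union.1 hx
    · rw [Finset.disjoint_filter]
      exact fun x _ hx hx' => Finset.disjoint_left.1 hd hx hx'
    · intro T _
      conv_lhs => rw [show T = (T ∩ Finset.univ.filter fun x : S => (x : Ω) ∈ A) ∪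
        (T ∩ Finset.univ.filter fun x : S => (x : Ω) ∈ B) by
          rw [← Finset.inter_union_distrib_left]
          ext x
          have hx : (x : Ω) ∈ A ∪ B := by rw [hAB]; exact x.2
          simp [Finset.mem_union.1 hx]]
      refine potential_mask_union _ (fun i => hw _) ?_ ?_ hf
      · rw [Finset.disjoint_left]
        intro x hx hx'
        simp only [Finset.mem_inter, Finset.mem_filter] at hx hx'
        exact Finset.disjoint_left.1 hd hx.2.2 hx'.2.2
      · intro x hx y hy
        simp only [Finset.mem_inter, Finset.mem_filter] at hx hy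
        have hne : (x : Ω) ≠ y := fun e => Finset.disjoint_left.1 hd hx.2.2 (e ▸ hy.2.2)
        constructor
        · exact O.lblMat_gap (by rw [hφ, hφ]; exact hne)
            (by rw [hφ, hφ]; exact hgap _ hx.2.2 _ hy.2.2)
        · exact O.lblMat_gap (by rw [hφ, hφ]; exact hne.symm)
            (by rw [hφ, hφ]; exact (Gap.symm O hgap) _ hy.2.2 _ hx.2.2)

/-- The coefficient of a diagonal value vanishes at sets that are too large or have a gap. -/
theorem mob_Ψ_eq_zero (κ : Ω → Fin r) {f : ℝ[X]} (hf : f.eval 0 = 0) {S : Finset Ω} {v : Ω}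
    (hv : v ∈ S) (hS : O.SameOrbit S)
    (h : f.natDegree + 1 < S.card ∨ ∃ A B : Finset Ω, A ∪ B = S ∧ Disjoint A B ∧ A.Nonempty ∧
      B.Nonempty ∧ O.Gap A B) : mob (O.Ψ κ f v) S = 0 := by
  obtain ⟨φ, ω, hφ⟩ := O.exists_labels hS
  have hinj : Function.Injective fun a : S => O.act (φ a) ω := fun a b e =>
    Subtype.ext (by simpa [hφ] using e)
  set emb : S ↪ Ω := ⟨fun a => O.act (φ a) ω, hinj⟩
  have hmap : (Finset.univ : Finset S).map emb = S := by
    ext x; simp [emb, hφ]
  conv_lhs => rw [← hmap]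
  rw [mob_map, show v = O.act (φ ⟨v, hv⟩) ω from (hφ ⟨v, hv⟩).symm,
    mob_congr fun U _ => O.Ψ_map κ hf φ ω hinj ⟨v, hv⟩ U]
  rcases h with hc | ⟨A, B, hAB, hd, ⟨a, ha⟩, ⟨b, hb⟩, hgap⟩
  · exact diagVal_mob_eq_zero _ hf _ (by simpa using hc)
  · refine mob_eq_zero_of_split (A := Finset.univ.filter fun x : S => (x : Ω) ∈ A)
      (B := Finset.univ.filter fun x : S => (x : Ω) ∈ B) ?_ ?_
      ⟨⟨a, hAB ▸ Finset.mem_union_left _ ha⟩, by simp [ha]⟩
      ⟨⟨b, hAB ▸ Finset.mem_union_right _ hb⟩, by simp [hb]⟩ ?_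
    · ext x
      have hx : (x : Ω) ∈ A ∪ B := by rw [hAB]; exact x.2
      simpa using Finset.mem_union.1 hx
    · rw [Finset.disjoint_filter]
      exact fun x _ hx hx' => Finset.disjoint_left.1 hd hx hx'
    · intro T _
      conv_lhs => rw [show T = (T ∩ Finset.univ.filter fun x : S => (x : Ω) ∈ A) ∪
        (T ∩ Finset.univ.filter fun x : S => (x : Ω) ∈ B) by
          rw [← Finset.inter_union_distrib_left]
          ext x
          have hx : (x : Ω) ∈ A ∪ B := by rw [hAB]; exact x.2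
          simp [Finset.mem_union.1 hx]]
      refine diagVal_mask_union _ ?_ ?_ hf _
      · rw [Finset.disjoint_left]
        intro x hx hx'
        simp only [Finset.mem_inter, Finset.mem_filter] at hx hx'
        exact Finset.disjoint_left.1 hd hx.2.2 hx'.2.2
      · intro x hx y hy
        simp only [Finset.mem_inter, Finset.mem_filter] at hx hy
        have hne : (x : Ω) ≠ y := fun e => Finset.disjoint_left.1 hd hx.2.2 (e ▸ hy.2.2)
        have h1 := O.lblMat_gap (φ := φ) (ω := ω) (i := x) (j := y) (by rw [hφ, hφ]; exact hne)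
            (by rw [hφ, hφ]; exact hgap _ hx.2.2 _ hy.2.2)
        have h2 := O.lblMat_gap (φ := φ) (ω := ω) (i := y) (j := x)
            (by rw [hφ, hφ]; exact hne.symm)
            (by rw [hφ, hφ]; exact (Gap.symm O hgap) _ hy.2.2 _ hx.2.2)
        simp [pinch, h1, h2]

/-- A set without gaps and with at most `m + 1` points lies in the `m`-ball of each of its points. -/
theorem subset_ball_of_no_gap {S : Finset Ω} {m : ℕ} (hc : S.card ≤ m + 1)
    (h : ¬ ∃ A B : Finset Ω, A ∪ B = S ∧ Disjoint A B ∧ A.Nonempty ∧ B.Nonempty ∧ O.Gap A B)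
    {v : Ω} (hv : v ∈ S) : S ⊆ O.ball v m := by
  have key : ∀ k, S ⊆ O.ball v k ∨ k + 1 ≤ (S ∩ O.ball v k).card := by
    intro k
    induction k with
    | zero =>
      exact Or.inr (Finset.card_pos.2 ⟨v, Finset.mem_inter.2 ⟨hv, O.self_mem_ball v 0⟩⟩)
    | succ k ih =>
      rcases ih with h1 | h1
      · exact Or.inl (h1.trans (O.ball_mono v (Nat.le_succ k)))
      by_cases hall : S ⊆ O.ball v k
      · exact Or.inl (hall.trans (O.ball_mono v (Nat.le_succ k)))
      · right
        obtain ⟨x, hx, hxk⟩ := Finset.not_subset.1 hall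
        have : ¬ O.Gap (S ∩ O.ball v k) (S \ O.ball v k) := fun hg => h
          ⟨_, _, by ext y; by_cases hy : y ∈ O.ball v k <;> simp [hy],
            Finset.disjoint_left.2 fun y hy hy' =>
              (Finset.mem_sdiff.1 hy').2 (Finset.mem_inter.1 hy).2,
            ⟨v, Finset.mem_inter.2 ⟨hv, O.self_mem_ball v k⟩⟩,
            ⟨x, Finset.mem_sdiff.2 ⟨hx, hxk⟩⟩, hg⟩
        simp only [Gap, not_forall, not_not] at this
        obtain ⟨a, ha, b, hb, g, hg⟩ := this
        rw [Finset.mem_inter] at ha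
        rw [Finset.mem_sdiff] at hb
        obtain ⟨w, hw, hwa⟩ := O.mem_ball.1 ha.2
        have hbk : b ∈ O.ball v (k + 1) :=
          O.mem_ball.2 ⟨g :: w, by simpa using hw, by rw [act_cons, hwa, hg]⟩
        have hss : S ∩ O.ball v k ⊂ S ∩ O.ball v (k + 1) := Finset.ssubset_iff_of_subset
          (Finset.inter_subset_inter_left (O.ball_mono v (Nat.le_succ k))) |>.2
          ⟨b, Finset.mem_inter.2 ⟨hb.1, hbk⟩, fun h' => hb.2 (Finset.mem_inter.1 h').2⟩
        have := Finset.card_lt_card hss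
        omega
  rcases key m with h1 | h1
  · exact h1
  · have : S ∩ O.ball v m = S :=
      Finset.eq_of_subset_of_card_le Finset.inter_subset_left (hc.trans h1)
    exact Finset.inter_eq_left.1 this

/-! ### Continuity of local sums -/

/-- Values of a set function at labelled sets depend continuously on the base point. -/
def LocCont (g : Ω → Finset Ω → ℝ) : Prop :=
  ∀ (n : ℕ) (φ : Fin n → List (Fin L)) (a : List (Fin L)) (ω₀ : Ω),
    Function.Injective (fun i => O.act (φ i) ω₀) →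
    ContinuousAt (fun ω => g (O.act a ω) (Finset.univ.image fun i => O.act (φ i) ω)) ω₀

theorem eventually_pattern (φ : ι → List (Fin L)) (ω₀ : Ω) :
    ∀ᶠ ω in 𝓝 ω₀, ∀ i j, (O.act (φ i) ω = O.act (φ j) ω ↔ O.act (φ i) ω₀ = O.act (φ j) ω₀) :=
  eventually_all.2 fun i => eventually_all.2 fun j => O.eventually_eq_iff _ _ ω₀

theorem eventually_injective {φ : ι → List (Fin L)} {ω₀ : Ω}
    (h : Function.Injective fun i => O.act (φ i) ω₀) :
    ∀ᶠ ω in 𝓝 ω₀, Function.Injective fun i => O.act (φ i) ω := by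
  filter_upwards [O.eventually_pattern φ ω₀] with ω hω i j e
  exact h ((hω i j).1 e)

theorem eventually_mem_image (φ : ι → List (Fin L)) (a : List (Fin L)) (U : Finset ι) (ω₀ : Ω) :
    ∀ᶠ ω in 𝓝 ω₀, (O.act a ω ∈ U.image (fun i => O.act (φ i) ω) ↔
      O.act a ω₀ ∈ U.image (fun i => O.act (φ i) ω₀)) := by
  filter_upwards [eventually_all.2 fun i : ι => O.eventually_eq_iff (φ i) a ω₀] with ω hω
  simp only [Finset.mem_image, hω]

theorem locCont_V {w : Ω → Fin r → ℝ} (hwc : IsLocallyConstant w)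
    (hw : ∀ v, (∀ c, 0 ≤ w v c) ∧ ∑ c, w v c = 1) {f : ℝ[X]} (hf : f.eval 0 = 0) :
    O.LocCont fun _ S => O.V w f S := by
  intro n φ a ω₀ hinj
  set N := {ω | Function.Injective fun i => O.act (φ i) ω}
  have hev : ∀ᶠ ω in 𝓝 ω₀, Function.Injective (fun i => O.act (φ i) ω) ∧
      (fun i => w (O.act (φ i) ω)) = fun i => w (O.act (φ i) ω₀) := by
    filter_upwards [O.eventually_injective hinj, eventually_all.2 fun i =>
      (hwc.comp_continuous (O.continuous_act (φ i))).eventually_eq ω₀] with ω h1 h2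
    exact ⟨h1, funext h2⟩
  obtain ⟨U, hU, hUo, hω₀⟩ := eventually_nhds_iff.1 hev
  have hc : Continuous fun ω : U =>
      potential (O.lblMat ω φ) (fun i => w (O.act (φ i) ω₀)) f := by
    have hM : Continuous fun ω : U => O.lblMat (ω : Ω) φ :=
      continuous_matrix fun i j => (O.ent (φ i) (φ j)).continuous.comp continuous_subtype_val
    have hH : ∀ ω : U, (O.lblMat (ω : Ω) φ).IsHermitian := fun ω =>
      (O.posSemidef_lblMat (hU ω.1 ω.2).1).1.1
    exact continuous_potential (G := fun ω : U => O.lblMat (ω : Ω) φ) hH hM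
      (w := fun i => w (O.act (φ i) ω₀)) (fun i => hw _) hf
  have : ContinuousOn (fun ω => O.V w f (Finset.univ.image fun i => O.act (φ i) ω)) U := by
    rw [continuousOn_iff_continuous_restrict]
    refine hc.congr fun ω => ?_
    rw [Set.restrict_apply, O.V_eq w f φ ω (hU ω.1 ω.2).1, (hU ω.1 ω.2).2]
  exact this.continuousAt (hUo.mem_nhds hω₀)

theorem locCont_Ψ {κ : Ω → Fin r} (hκ : IsLocallyConstant κ) {f : ℝ[X]} (hf : f.eval 0 = 0) :
    O.LocCont fun v S => O.Ψ κ f v S := by
  intro n φ a ω₀ hinj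
  by_cases ha : ∃ i, O.act a ω₀ = O.act (φ i) ω₀
  · obtain ⟨i₀, hi₀⟩ := ha
    have hev : ∀ᶠ ω in 𝓝 ω₀, Function.Injective (fun i => O.act (φ i) ω) ∧
        O.act a ω = O.act (φ i₀) ω ∧
        (fun i => κ (O.act (φ i) ω)) = fun i => κ (O.act (φ i) ω₀) := by
      filter_upwards [O.eventually_injective hinj, O.eventually_eq_iff a (φ i₀) ω₀,
        eventually_all.2 fun i =>
          (hκ.comp_continuous (O.continuous_act (φ i))).eventually_eq ω₀] with ω h1 h2 h3
      exact ⟨h1, h2.2 hi₀, funext h3⟩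
    obtain ⟨U, hU, hUo, hω₀⟩ := eventually_nhds_iff.1 hev
    have hc : Continuous fun ω : U =>
        diagVal (pinch (O.lblMat ω φ) fun i => κ (O.act (φ i) ω₀)) f i₀ := by
      refine continuous_diagVal (continuous_matrix fun i j => ?_) hf i₀
      simp only [pinch, lblMat, Matrix.of_apply]
      split_ifs
      · exact (O.ent (φ i) (φ j)).continuous.comp continuous_subtype_val
      · exact continuous_const
    have : ContinuousOn
        (fun ω => O.Ψ κ f (O.act a ω) (Finset.univ.image fun i => O.act (φ i) ω)) U := by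
      rw [continuousOn_iff_continuous_restrict]
      refine hc.congr fun ω => ?_
      obtain ⟨h1, h2, h3⟩ := hU ω.1 ω.2
      rw [Set.restrict_apply, h2, O.Ψ_eq κ hf φ ω h1, h3]
    exact this.continuousAt (hUo.mem_nhds hω₀)
  · push Not at ha
    refine (continuousAt_const (y := (0 : ℝ))).congr ?_
    filter_upwards [eventually_all.2 fun i => O.eventually_eq_iff a (φ i) ω₀] with ω hω
    rw [Ψ, dif_neg]
    simp only [Finset.mem_image, Finset.mem_univ, true_and, not_exists]
    exact fun i e => ha i ((hω i).1 e.symm)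

theorem LocCont.mob {g : Ω → Finset Ω → ℝ} (hg : O.LocCont g) :
    O.LocCont fun v S => Cartan.mob (g v) S := by
  intro n φ a ω₀ hinj
  have hc : ∀ U : Finset (Fin n), ContinuousAt (fun ω =>
      (-1 : ℝ) ^ (Finset.univ \ U).card * g (O.act a ω) (U.image fun i => O.act (φ i) ω)) ω₀ := by
    intro U
    refine continuousAt_const.mul ?_
    let e := U.equivFin
    have := hg U.card (fun j => φ (e.symm j : Fin n)) a ω₀
      (hinj.comp (Subtype.val_injective.comp e.symm.injective))
    convert this using 2 with ω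
    congr 1
    ext x
    simp only [Finset.mem_image, Finset.mem_univ, true_and]
    constructor
    · rintro ⟨i, hi, rfl⟩; exact ⟨e ⟨i, hi⟩, by simp⟩
    · rintro ⟨j, rfl⟩; exact ⟨_, (e.symm j).2, rfl⟩
  refine (continuousAt_sum' _ fun U (_ : U ∈ (Finset.univ : Finset (Fin n)).powerset) =>
    hc U).congr ?_
  filter_upwards [O.eventually_injective hinj] with ω hω
  rw [show (Finset.univ.image fun i => O.act (φ i) ω) =
    Finset.univ.map ⟨fun i => O.act (φ i) ω, hω⟩ from Finset.map_eq_image ⟨_, hω⟩ _ |>.symm,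
    mob_map]
  unfold Cartan.mob
  simp only [Finset.map_eq_image, Function.Embedding.coeFn_mk]

/-- The sum of `g v S / |S|` over the sets `S` in the ball of `v` containing `v` and `u`. -/
noncomputable def spread (g : Ω → Finset Ω → ℝ) (m : ℕ) (v u : Ω) : ℝ :=
  ∑ S ∈ (O.ball v m).powerset with v ∈ S ∧ u ∈ S, g v S / S.card

theorem continuous_spread {g : Ω → Finset Ω → ℝ} (hg : O.LocCont g) (m : ℕ) (b : List (Fin L)) :
    Continuous fun ω => O.spread g m ω (O.act b ω) := by
  rw [continuous_iff_continuousAt]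
  intro ω₀
  have hex : ∀ x : O.ball ω₀ m, ∃ w : List (Fin L), w.length ≤ m ∧ O.act w ω₀ = x :=
    fun x => O.mem_ball.1 x.2
  choose φ hφlen hφ using hex
  let e := (O.ball ω₀ m).equivFin
  let ψ : Fin (O.ball ω₀ m).card → List (Fin L) := fun i => φ (e.symm i)
  have hinj : Function.Injective fun i => O.act (ψ i) ω₀ := fun i j h => by
    simp only [ψ, hφ] at h
    exact e.symm.injective (Subtype.ext h)
  have hball : ∀ᶠ ω in 𝓝 ω₀, O.ball ω m = Finset.univ.image fun i => O.act (ψ i) ω := by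
    have h : ∀ x ∈ wordsLE L m, ∀ᶠ ω in 𝓝 ω₀, ∃ i, O.act (ψ i) ω = O.act x ω := by
      intro x hx
      have hmem : O.act x ω₀ ∈ O.ball ω₀ m := O.mem_ball.2 ⟨x, mem_wordsLE.1 hx, rfl⟩
      filter_upwards [O.eventually_eq_iff (ψ (e ⟨_, hmem⟩)) x ω₀] with ω hω
      exact ⟨_, hω.2 (by simp [ψ, hφ])⟩
    filter_upwards [(wordsLE L m).eventually_all.2 h] with ω hω
    ext v
    simp only [Finset.mem_image, Finset.mem_univ, true_and, mem_ball]
    constructor
    · rintro ⟨w, hw, rfl⟩; exact hω w (mem_wordsLE.2 hw)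
    · rintro ⟨i, rfl⟩; exact ⟨_, hφlen _, rfl⟩
  have hc : ∀ U : Finset (Fin (O.ball ω₀ m).card), ContinuousAt (fun ω =>
      if O.act [] ω₀ ∈ U.image (fun i => O.act (ψ i) ω₀) ∧
        O.act b ω₀ ∈ U.image (fun i => O.act (ψ i) ω₀)
      then g ω (U.image fun i => O.act (ψ i) ω) / U.card else 0) ω₀ := by
    intro U
    split_ifs
    · refine ContinuousAt.div_const ?_ _
      let e' := U.equivFin
      have := hg U.card (fun j => ψ (e'.symm j : Fin _)) [] ω₀
        (fun i j h => e'.symm.injective (Subtype.ext (hinj h)))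
      convert this using 2 with ω
      congr 1
      ext x
      simp only [Finset.mem_image, Finset.mem_univ, true_and]
      constructor
      · rintro ⟨i, hi, rfl⟩; exact ⟨e' ⟨i, hi⟩, by simp⟩
      · rintro ⟨j, rfl⟩; exact ⟨_, (e'.symm j).2, rfl⟩
    · exact continuousAt_const
  refine (continuousAt_sum' _ fun U
    (_ : U ∈ (Finset.univ : Finset (Fin (O.ball ω₀ m).card)).powerset) => hc U).congr ?_
  filter_upwards [hball, O.eventually_injective hinj,
    eventually_all.2 fun U : Finset (Fin (O.ball ω₀ m).card) =>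
      O.eventually_mem_image ψ [] U ω₀,
    eventually_all.2 fun U : Finset (Fin (O.ball ω₀ m).card) =>
      O.eventually_mem_image ψ b U ω₀] with ω h1 h2 h3 h4
  have hps : (O.ball ω m).powerset = (Finset.univ : Finset (Fin (O.ball ω₀ m).card)).powerset.image
      fun U => U.image fun i => O.act (ψ i) ω := by
    ext S
    rw [h1, Finset.mem_powerset, Finset.subset_image_iff]
    simp
  rw [spread, hps, Finset.sum_filter, Finset.sum_image
    (Finset.image_injective h2).injOn]
  refine Finset.sum_congr rfl fun U _ => ?_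
  rw [Finset.card_image_of_injective _ h2]
  exact if_congr ⟨fun h => ⟨(h3 U).2 h.1, (h4 U).2 h.2⟩, fun h => ⟨(h3 U).1 h.1, (h4 U).1 h.2⟩⟩
    rfl rfl

theorem sum_spread_left (g : Ω → Finset Ω → ℝ) (m : ℕ) (v : Ω) :
    ∑ u ∈ O.ball v m, O.spread g m v u = ∑ S ∈ (O.ball v m).powerset with v ∈ S, g v S := by
  simp only [spread]
  rw [Finset.sum_comm' (t' := (O.ball v m).powerset.filter fun S => v ∈ S) (s' := fun S => S)]
  · refine Finset.sum_congr rfl fun S hS => ?_
    have : (S.card : ℝ) ≠ 0 := by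
      exact_mod_cast (Finset.card_pos.2 ⟨v, (Finset.mem_filter.1 hS).2⟩).ne'
    rw [Finset.sum_const, nsmul_eq_mul]
    field_simp
  · intro u S
    simp only [Finset.mem_filter, Finset.mem_powerset]
    constructor
    · rintro ⟨-, h1, h2, h3⟩; exact ⟨h3, h1, h2⟩
    · rintro ⟨h3, h1, h2⟩; exact ⟨h1 h3, h1, h2, h3⟩

theorem sum_spread_right {g : Ω → Finset Ω → ℝ} {m : ℕ}
    (hsupp : ∀ v S, v ∈ S → O.SameOrbit S → g v S ≠ 0 → ∀ a ∈ S, S ⊆ O.ball a m) (u : Ω) :
    ∑ v ∈ O.ball u m, O.spread g m v u =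
      ∑ S ∈ (O.ball u m).powerset with u ∈ S, (∑ v ∈ S, g v S) / S.card := by
  simp only [Finset.sum_div, spread, Finset.sum_sigma']
  refine Finset.sum_bij_ne_zero (fun p _ _ => ⟨p.2, p.1⟩) ?_ ?_ ?_ ?_
  · rintro ⟨v, S⟩ hp hne
    simp only [Finset.mem_sigma, Finset.mem_filter, Finset.mem_powerset] at hp ⊢
    have hg : g v S ≠ 0 := fun e => hne (by simp [e])
    exact ⟨⟨hsupp v S hp.2.2.1 (O.sameOrbit_of_subset_ball hp.2.1) hg u hp.2.2.2, hp.2.2.2⟩,
      hp.2.2.1⟩
  · rintro ⟨v, S⟩ _ _ ⟨v', S'⟩ _ _ h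
    simp only [Sigma.mk.injEq, heq_eq_eq] at h ⊢
    exact ⟨h.2, h.1⟩
  · rintro ⟨S, v⟩ hp hne
    simp only [Finset.mem_sigma, Finset.mem_filter, Finset.mem_powerset] at hp
    have hg : g v S ≠ 0 := fun e => hne (by simp [e])
    refine ⟨⟨v, S⟩, ?_, hne, rfl⟩
    simp only [Finset.mem_sigma, Finset.mem_filter, Finset.mem_powerset]
    exact ⟨hp.1.1 hp.2, hsupp v S hp.2 (O.sameOrbit_of_subset_ball hp.1.1) hg v hp.2, hp.2, hp.1.2⟩
  · rintro ⟨v, S⟩ _ _; rfl

end OrbitModel

end Vale.Agent.P078.Cartan
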